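import Vale.Agent.P287Q.G.Spl.LocA1

/-!
# The admissible points form an analytic set, the main stratum is locally constructible
-/

set_option linter.unusedSectionVars false

namespace Vale.Agent.P269

open Set Function Topology Filter Holo Base Cv

variable {S Λ Λ₀ R J K ι ν κ ε : Type} [Fintype S] [Fintype Λ] [Fintype Λ₀] [Fintype R] [Fintype J]
  [Fintype K] [Fintype ι] [DecidableEq ι] [Fintype ν] [Fintype κ] [Fintype ε]

namespace Ch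

variable {ch : Ch ι J} {F : Fam S Λ R J K} {ℓ : R → ι → ℤ} {i : ι} {b c j : J}

theorem holOn_prod {W α : Type} [NormedAddCommGroup W] [NormedSpace ℂ W] [Fintype α] {T : Set W}
    {x : W} (hx : x ∈ T) {f : α → W → ℂ} (h : ∀ a, HolOn T (f a) x) :
    HolOn T (fun s => ∏ a, f a s) x :=
  (HolOn.pi h).comp_an (G := fun v : α → ℂ => ∏ a, v a) hx
    (Finset.analyticAt_fun_prod _ fun a _ => analyticAt_pi_iff.1 analyticAt_id a)

theorem holOn_fld' {T : Set (ch.WF ν κ Λ)} {x : ch.WF ν κ Λ} (hx : x ∈ T)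
    (h0 : x.2 ∈ ch.base (Mk ν κ)) {y : ch.WF ν κ Λ → V ch.M} (hy : AnalyticAt ℂ y x)
    (h : ∀ᶠ s in 𝓝 x, s ∈ T → y s ∈ crv s.2 ∧ Sc s.2 j) : HolOn T (fun s => fld s.2 (y s) j) x :=
  holOn_fld (q := Prod.snd) hx (.of_an analyticAt_snd) h0.1 (.of_an hy)
    (h.mono fun _ a b => ⟨(a b).1, (a b).2 _ (a b).1⟩)

open Classical in
theorem anAt_evz (hc : ch.Cuts) (hw : ∀ j i, ch.wd j i = ∑ r, F.w j r * ℓ r i)
    {f : MvPolynomial J (MvPolynomial Λ ℂ)} {d : R → ℤ}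
    (hd : ∀ α ∈ f.support, ∀ i, ∑ j, α j * F.w j i = d i) {T : Set (ch.WF ν κ Λ)}
    {x : ch.WF ν κ Λ} (hx : x ∈ T)
    (hT : ∀ s ∈ T, s.2 ∈ ch.base (Mk ν κ) ∧ ∀ j ∉ F.mov, Sc s.2 j) : AnAt T x fun s =>
      ∀ c ∈ crv s.2, evz (s.1, fun j => if j ∈ F.mov then 0 else fld s.2 c j) f = 0 := by
  refine anAt_sec (q := Prod.snd) hc hx analyticAt_snd (χ := fun i => ∑ r, d r * ℓ r i)
    (.of_forall fun s a => ⟨(hT s a).1, ?_⟩) fun y a b => ?_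
  · simp only [evz_eq]
    refine Mer.sum _ fun α hα => .smul ((Mer.monom (X := ch.wd) (fun j => ?_) α).cast
      (funext fun i => ?_) rfl) _
    · by_cases hj : j ∈ F.mov
      · simpa only [if_pos hj] using Mer.zero
      · simpa only [if_neg hj] using mer_fld (hT s a).1 ((hT s a).2 j hj)
    · simp only [Finset.sum_apply, Pi.smul_apply]
      simp only [nsmul_eq_mul, hw, ← hd α hα, Finset.mul_sum, Finset.sum_mul, mul_assoc]
      exact Finset.sum_comm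
  · have k : ∀ j, HolOn T (fun s => if j ∈ F.mov then 0 else fld s.2 (y s) j) x := fun j => by
      by_cases hj : j ∈ F.mov
      · simpa only [if_pos hj] using HolOn.of_an analyticAt_const
      · simpa only [if_neg hj] using holOn_fld' hx (hT x hx).1 a
          (b.mono fun s d hs => ⟨d hs, (hT s hs).2 j hj⟩)
    exact ((HolOn.of_an analyticAt_fst).prod (.pi k)).comp_an (G := (evz · f)) hx (an_evz _ f)

theorem anAt_mt {T : Set (ch.WF ν κ Λ)} {x : ch.WF ν κ Λ} (hx : x ∈ T)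
    (hT : ∀ s ∈ T, s.2 ∈ ch.base (Mk ν κ) ∧ Sc s.2 j) (n n' : Mk ν κ) :
    AnAt T x fun s => fld s.2 (s.2.p n) j = fld s.2 (s.2.p n') j := by
  have hp : ∀ n, HolOn T (fun s => fld s.2 (s.2.p n) j) x := fun n =>
    holOn_fld' hx (hT x hx).1 (W.an_p analyticAt_snd n)
      (.of_forall fun s a => ⟨((hT s a).1.2.2.2.1 n).1, (hT s a).2⟩)
  exact (AnAt.of_hol (((hp n).prod (hp n')).comp_an (G := fun z : ℂ × ℂ => z.1 - z.2) hx
    (analyticAt_fst.sub analyticAt_snd))).congr (.of_forall fun _ _ => sub_eq_zero.symm)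

theorem anAt_adm (hc : ch.Cuts) (hw : ∀ j i, ch.wd j i = ∑ r, F.w j r * ℓ r i)
    {T : Finset (MvPolynomial J (MvPolynomial Λ ℂ))} (hT : ∀ f ∈ T, ∃ c : R → ℤ, ∀ α ∈ f.support,
      (∀ j ∈ F.mov, α j = 0) ∧ ∀ i, ∑ j, α j * F.w j i = c i)
    (hE : ∀ l ∈ F.B, ∀ y, (l, y) ∈ F.E ↔ ∀ f ∈ T, evz (l, y) f = 0) {x : ch.WF ν κ Λ}
    (hx : x ∈ ch.baseF ν κ F.B) : AnAt (ch.baseF ν κ F.B) x (· ∈ ch.adm ν κ F) := by
  classical
  have h1 : AnAt (ch.baseF ν κ F.B) x fun s => ∀ j ∉ F.mov, Sc s.2 j :=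
    .all fun j => .imp fun _ => AnAt.comp (φ := Prod.snd) (p := fun y => Sc y j)
      (sc_an hc hx.2.1 j) analyticAt_snd (.of_forall fun _ a => a.2.1)
  have h2 : (∀ j ∉ F.mov, Sc x.2 j) → AnAt {y ∈ ch.baseF ν κ F.B | ∀ j ∉ F.mov, Sc y.2 j} x fun s =>
      (∀ f : T, ∀ c ∈ crv s.2, evz (s.1, fun j => if j ∈ F.mov then 0 else fld s.2 c j) f = 0) ∧
        (∀ j ∈ F.zer, s.2.X j = 0) ∧ ∀ j ∉ F.mov, ∀ q : κ,
          fld s.2 (s.2.p (.inr (q, false))) j = fld s.2 (s.2.p (.inr (q, true))) j := fun h0 => by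
    have hx' : x ∈ {y ∈ ch.baseF ν κ F.B | ∀ j ∉ F.mov, Sc y.2 j} := ⟨hx, h0⟩
    refine .and hx' (.all fun f => ?_) (.and hx' (.all fun j => .imp fun _ => ?_)
      (.all fun j => .imp fun hj => .all fun q => anAt_mt hx' (fun s a => ⟨a.1.2.1, a.2 j hj⟩) _ _))
    · obtain ⟨d, hd⟩ := hT f f.2
      exact anAt_evz hc hw (fun α a => (hd α a).2) hx' fun s a => ⟨a.1.2.1, a.2⟩
    · exact .of_hol (f := fun s : ch.WF ν κ Λ => s.2.X j) (.of_an (W.an_X analyticAt_snd j))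
  refine (h1.and' hx h2).congr (.of_forall fun s hs => ?_)
  have e : ∀ c, ∀ f ∈ T, evz (s.1, fun j => if j ∈ F.mov then 0 else fld s.2 c j) f =
      evz (s.1, fld s.2 c) f := fun c f hf => by
    obtain ⟨d, hd⟩ := hT f hf
    simp only [evz_eq]
    refine Finset.sum_congr rfl fun α hα => congrArg _ (Finset.prod_congr rfl fun j _ => ?_)
    by_cases hj : j ∈ F.mov
    · simp only [(hd α hα).1 j hj, pow_zero]
    · simp only [if_neg hj]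
  exact ⟨fun ⟨_, a, b, d⟩ => ⟨a, fun f c hc => (e c f f.2).trans
    ((hE _ hs.1 _).1 (b c hc) f f.2), d⟩, fun ⟨a, b, d⟩ => ⟨hs, a, fun c hc => (hE _ hs.1 _).2
      fun f hf => (e c f hf).symm.trans (b ⟨f, hf⟩ c hc), d⟩⟩

/-- the admissible points form an analytic subset -/
theorem adm_an (hc : ch.Cuts) (hw : ∀ j i, ch.wd j i = ∑ r, F.w j r * ℓ r i) (hE : F.PolE)
    {x : ch.WF ν κ Λ} (hx : x ∈ ch.baseF ν κ F.B) : ∃ (s : ℕ) (g : ch.WF ν κ Λ → Fin s → ℂ),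
      AnalyticAt ℂ g x ∧ ∀ᶠ y in 𝓝 x, y ∈ ch.baseF ν κ F.B → (y ∈ ch.adm ν κ F ↔ g y = 0) :=
  let ⟨_, a, b⟩ := hE
  anAt_adm hc hw a (fun _ _ _ => b ▸ Iff.rfl) hx

theorem bc_closed (hc : ch.DgC i b c) {x : ch.W (Mk ν κ)} {t : ℂ} (hx : x ∈ ch.bm ν κ)
    (h : (x, t) ∈ closure {q : ch.W (Mk ν κ) × ℂ | Bc q.1 b c q.2}) : Bc x b c t := by
  obtain ⟨U, h1, h2⟩ := mem_closure_iff_ultrafilter.1 h
  have h3 : ∀ᶠ q in U.toFilter, Bc q.1 b c q.2 := h1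
  have t1 : Tendsto Prod.fst U.toFilter (𝓝 x) := continuousAt_fst.mono_left h2
  have a : ∀ c₀ ∈ crv x, ∃ y : ch.W (Mk ν κ) × ℂ → V ch.M, (∀ᶠ q in U.toFilter, y q ∈ crv q.1) ∧
      Tendsto y U.toFilter (𝓝 c₀) := by
    rintro _ ⟨z₀, hz, rfl⟩
    obtain ⟨z, a, b⟩ := hc.cuts'.exists_gr (h3.mono fun _ b => b.mem.1) hx.1 t1 hz
    exact ⟨fun a => (z a).1, a.mono fun a b => ⟨_, b, rfl⟩, b.fst_nhds⟩
  have k : ∀ j, (∀ᶠ q in U.toFilter, Sc q.1 j) → ∀ {y : ch.W (Mk ν κ) × ℂ → V ch.M} {c₀},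
      c₀ ∈ crv x → (∀ᶠ q in U.toFilter, y q ∈ crv q.1) → Tendsto y U.toFilter (𝓝 c₀) →
        (∃ v, Val x j c₀ v) ∧ Tendsto (fun q => fld q.1 (y q) j) U.toFilter (𝓝 (fld x c₀ j)) :=
    fun j hj y c₀ a b d => lim_fld (Λ := Empty)
      (x := fun q : ch.W (Mk ν κ) × ℂ => ((Empty.elim : Empty → ℂ), q.1))
      (x₀ := (Empty.elim, x)) hx.1.1 (tendsto_const_nhds.prodMk_nhds t1) d a (j := j)
        ((b.and hj).mono fun _ e => ⟨e.1, e.2 _ e.1⟩)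
  have kb := @k b (h3.mono fun _ e => e.scb)
  have kc := @k c (h3.mono fun _ e => e.scc)
  have p := fun n => (h3.mono fun _ e => (e.mem.1.2.2.2.1 n).1)
  have p' := fun n => (an_mark n x).continuousAt.tendsto.comp t1
  have p₀ := fun n => (hx.1.2.2.2.1 n).1
  refine ⟨hx, fun y hy => (a y hy).elim fun _ e => (kb hy e.1 e.2).1,
    fun y hy => (a y hy).elim fun _ e => (kc hy e.1 e.2).1, fun y hy => (a y hy).elim fun _ e =>
      tendsto_nhds_unique_of_eventuallyEq ((kb hy e.1 e.2).2.mul (kc hy e.1 e.2).2)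
        (continuousAt_snd.mono_left h2) ((h3.and e.1).mono fun _ d => d.1.mul _ d.2),
    fun q => tendsto_nhds_unique_of_eventuallyEq (kb (p₀ _) (p _) (p' _)).2
      (kb (p₀ _) (p _) (p' _)).2 (h3.mono fun _ d => d.mtb q),
    fun q => tendsto_nhds_unique_of_eventuallyEq (kc (p₀ _) (p _) (p' _)).2
      (kc (p₀ _) (p _) (p' _)).2 (h3.mono fun _ d => d.mtc q)⟩

theorem locAn_main (hc : ch.Cuts) (hw : ∀ j i, ch.wd j i = ∑ r, F.w j r * ℓ r i) (hE : F.PolE)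
    (u : ν → J → ℕ) : LocAn (ch.baseF ν κ F.B) (ch.main κ F u) := by
  classical
  let N : J → Mk ν κ → ℕ := fun j => Sum.elim (fun m => u m j) 0
  have e : ∀ j, (Sum.elim (fun m => (u m j : ℤ)) 0 : Mk ν κ → ℤ) = fun m => (N j m : ℤ) :=
    fun j => funext fun m => by cases m <;> rfl
  by_cases hd : ∀ j ∉ F.mov, j ∉ F.zer → ∑ n, (N j n : ℤ) = dgz ch.m (ch.wd j)
  swap
  · exact locAn_of_not fun y a hy => hd fun j h1 h2 =>
      (e j ▸ (mem_main_iff.1 hy).2 j h1 h2).sum_eq a.2.1.2.2.1 (spt_p a.2.1)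
  refine locAn_of fun x hx => ?_
  obtain ⟨l, hl⟩ := hc.cut
  have p0 := fun k => crv_ne (hx.2.1.2.2.2.1 k).1
  obtain ⟨r, y, y1, y2⟩ := (locFam_base hl ⟨x.2, hx.2.1⟩).exists_hit
    (.of_forall fun t => t.2.2.2.1) p0
  have y3 := continuousAt_snd.eventually ((ev_sub hx.2.1 (p := fun s => (∀ k, y k s ∈ crv s) ∧
    Hit ch.o (crv s) fun k => y k s)).1 y2)
  have ya : ∀ k, AnalyticAt ℂ (fun s : ch.WF ν κ Λ => y k s.2) x := fun k =>
    AnalyticAt.comp (g := y k) (f := Prod.snd) (y1 k).1 analyticAt_snd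
  have y4 : ∀ᶠ s : ch.WF ν κ Λ in 𝓝 x, ∀ k, Off s.2.p (y k s.2) :=
    eventually_all.2 fun k => eventually_all.2 fun n => ev_not_orb
      (W.an_p analyticAt_snd n).continuousAt (ya k).continuousAt (p0 n)
      (crv_ne (y2.self_of_nhds.1 k)) ((y1 k).2.2 n)
  refine ⟨Unit, inferInstance, fun _ s => (s ∈ ch.adm ν κ F ∧ ∀ j ∉ F.mov, j ∉ F.zer →
      Mer ch.o (crv s.2) (ch.wd j) s.2.p (fun n => N j n) fun c => fld s.2 c j) ∧
    ∏ a : {j // j ∉ F.mov ∧ j ∉ F.zer} × Fin r, fld s.2 (y a.2 s.2) a.1 ≠ 0,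
    fun _ => AnAt.lc hx (.and' hx (adm_an hc hw hE hx) fun _ => .all fun j => .imp fun hj =>
      .imp fun _ => (anAt_mer hc hx.2.1 _).comp analyticAt_snd
        (.of_forall fun s a => ⟨a.1.2.1, a.2.2.1 j hj⟩)) fun h0 => holOn_prod (mem_sep hx h0) fun a =>
          holOn_fld' (mem_sep hx h0) hx.2.1 (ya a.2)
            (y3.mono fun s d hs => ⟨(d hs.1.2.1).1 _, hs.2.1.2.1 _ a.1.2.1⟩), ?_⟩
  filter_upwards [y3, y4] with s a d hs
  obtain ⟨a1, a2⟩ := a hs.2.1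
  simp only [mem_main_iff, e, exists_const, Finset.prod_ne_zero_iff, Finset.mem_univ, true_imp_iff]
  exact ⟨fun ⟨k, k'⟩ => ⟨⟨k, fun j h1 h2 => (k' j h1 h2).toMer⟩, fun a =>
    (k' _ a.1.2.1 a.1.2.2).ne _ (a1 _) (d _)⟩, fun ⟨⟨k, k'⟩, k''⟩ => ⟨k, fun j h1 h2 =>
      a2.triv hs.2.1.2.2.1 (spt_p hs.2.1) (k' j h1 h2)
        (fun n => ⟨a1 n, d n, k'' (⟨j, h1, h2⟩, n)⟩) (hd j h1 h2)⟩⟩

end Ch

end Vale.Agent.P269
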