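import Vale.Agent.P287Q.G.Spl.DictC
import Vale.Agent.P287Q.G.Glu.Gl

/-!
# Gluing on the level of the smooth spaces: definitions and presentations
-/

set_option linter.unusedSectionVars false

namespace Vale.Agent.P269

open Set Function Topology Filter Holo Base Cv

variable {S Λ R J K ι ν ν' κ ε : Type} [Fintype S] [Fintype Λ] [Fintype R] [Fintype J] [Fintype K]
  [Fintype ι] [DecidableEq ι] [Fintype ν] [Fintype ν'] [Fintype κ] [Fintype ε]

theorem apV_smul {M M' : ι → ℕ} (φ : HV M M') (t : ι → ℂ) (c : V M) :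
    apV φ (t • c) = t • apV φ c := funext fun i => map_smul (φ i) (t i) (c i)

theorem Cv.LB.Sec.eq_of_ev {X : Type} [TopologicalSpace X] {R : RS X} {L : LB R} {s s' : X → ℂ}
    {x : X} (a : L.Sec s x) (b : L.Sec s' x) (e : ∀ᶠ y in 𝓝[≠] x, s y = s' y) : s x = s' x := by
  have := R.neBot x
  rcases (a.sub b).zero_or_ne with h | h
  · exact sub_eq_zero.1 h.self_of_nhds
  · obtain ⟨y, h1, h2⟩ := (e.and h).exists
    exact (h2 (sub_eq_zero.2 h1)).elim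

open Classical in
theorem GB.exists_fa {E : J → Type} [∀ j, NormedAddCommGroup (E j)] [∀ j, NormedSpace ℂ (E j)]
    [∀ j, FiniteDimensional ℂ (E j)] (A : Set J) {m : ℕ}
    (hm : ∑ j with j ∈ A, Module.finrank ℂ (E j) = m) : ∃ (q : (∀ j, E j) →L[ℂ] Fin m → ℂ)
    (i : (Fin m → ℂ) →L[ℂ] ∀ j, E j), (∀ b, q (i b) = b) ∧ (∀ b, ∀ j ∉ A, i b j = 0) ∧
      ∀ X, ∀ j ∈ A, i (q X) j = X j := by
  have h : Module.finrank ℂ (∀ j : A, E j) = Module.finrank ℂ (Fin m → ℂ) := by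
    rw [Module.finrank_pi_fintype, Module.finrank_fin_fun, ← hm,
      Finset.sum_subtype (p := (· ∈ A)) (F := inferInstance) _ (by simp)]
  let e : (∀ j : A, E j) ≃L[ℂ] Fin m → ℂ := .ofFinrankEq h
  let q : (∀ j, E j) →L[ℂ] ∀ j : A, E j := .pi fun j => .proj j.1
  let i : (∀ j : A, E j) →L[ℂ] ∀ j, E j :=
    .pi fun j => if a : j ∈ A then .proj (⟨j, a⟩ : A) else 0
  have i1 : ∀ v (j : A), i v j = v j := fun v j =>
    (congrArg (fun T : (∀ j : A, E j) →L[ℂ] E j => T v) (dif_pos j.2) :)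
  refine ⟨e ∘L q, i ∘L e.symm, fun b => ?_, fun b j a => ?_, fun X j a => ?_⟩
  · exact (congrArg e (funext (i1 _))).trans (e.apply_symm_apply b)
  · exact (congrArg (fun T : (∀ j : A, E j) →L[ℂ] E j => T (e.symm b)) (dif_neg a) :)
  · exact (i1 _ ⟨j, a⟩).trans (congrFun (e.symm_apply_apply _) _)

namespace Ch

variable {ch : Ch ι J} {n : Nm ι J}

variable (ch n) in
/-- The hypotheses on the two charts. -/
structure GOk : Prop where
  cuts : ch.Cuts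
  tight : ch.Tight
  tight' : (ch.re n).Tight

theorem GOk.cuts' (h : GOk ch n) : (ch.re n).Cuts := ⟨h.cuts.ne, h.cuts.cut⟩

variable (ν κ) in
/-- Trivial tori at the old marked points. -/
def ιH (a : (ch.re n).A ε) : (ch.re n).A (ν ⊕ κ ⊕ ε) :=
  (a.1, a.2.1, Sum.elim 1 (Sum.elim 1 a.2.2))

/-- The action on labels that fixes the glued point. -/
noncomputable def actHL (a : (ch.re n).A ε) (w : ch.Lb n (Mk ν (κ ⊕ ε))) :
    ch.Lb n (Mk ν (κ ⊕ ε)) :=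
  (act (dup (ιH ν κ a)) w.1, fun i => w.2.1 i ∘L Ring.inverse (a.1 i), fun l => a.2.1 l ∘L w.2.2 l)

/-- The action on the labelled space that fixes the glued point. -/
noncomputable def actH (a : (ch.re n).A ε) (z : ch.WG n ν κ ε Λ) : ch.WG n ν κ ε Λ :=
  (z.1, actHL a z.2)

/-- Replacing the fields of a label. -/
def Lb.setX (w : ch.Lb n ν') (X : (ch.re n).Fld) : ch.Lb n ν' := (Ch.setX w.1 X, w.2)

/-- The labelled branches are `γ`. -/
def Brs (w : ch.Lb n (Mk ν (κ ⊕ ε))) (γ : ε → Bool → ℂ → V ch.M) : Prop :=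
  ∀ e b, ∃ δ, IsBranch ch.o (crv w.1) δ ∧ δ 0 = w.1.p (nq e b) ∧
    Nrm.Fac (fun t => apV w.2.1 (δ t)) (γ e b)

/-- The axes of the charts `σ`. -/
def axs (σ : ε → ℂ × ℂ → V ch.M) (e : ε) (b : Bool) (t : ℂ) : V ch.M :=
  σ e (cond b (0, t) (t, 0))

/-- The values of `v` at the two branches of the new pairs agree. -/
def Agr (x : ch.W (Mk ν (κ ⊕ ε))) (l : Option J) (v : ch.E l) : Prop :=
  ∀ e u u', (x.p (nq e false), u) ∈ gr x → (x.p (nq e true), u') ∈ gr x → u l v = u' l v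

/-- The lift of the field `j` to the curve of the label. -/
noncomputable def lf1 (x : ch.W ν) (w : ch.Lb n ν') (j : J) :
    Tens n.M (ch.b j) →L[ℂ] (ch.re n).E (some j) :=
  Classical.epsilon fun X => ∀ z ∈ gr w.1, ∀ μ,
    z.2 (some j) (X μ) = fld x (apV w.2.1 z.1) j * val μ z.1

variable (ch) in
/-- The dimension of the fibres of `μG`. -/
noncomputable def fG (A : Set J) : ℕ := ∑ i, ch.M i * ch.M i + ∑ l, ch.h l * ch.h l + ch.fm A

variable (ch) in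
/-- coordinates for the fields in `A` -/
theorem exists_fa (A : Set J) : ∃ (q : ch.Fld →L[ℂ] Fin (ch.fm A) → ℂ)
    (i : (Fin (ch.fm A) → ℂ) →L[ℂ] ch.Fld), (∀ b, q (i b) = b) ∧ (∀ b, ∀ j ∉ A, i b j = 0) ∧
      ∀ X, ∀ j ∈ A, i (q X) j = X j :=
  (GB.exists_fa (E := fun j => Tens ch.M (ch.b j) →L[ℂ] ch.E (some j)) (m := ch.fm A) A
    (Finset.sum_congr rfl fun j _ => by rw [finrank_clm, Module.finrank_fin_fun]) :)

theorem wedge_pbT (φ : HV n.M ch.M) (μ : Tn ch.M ch.slot) (c v : V n.M) :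
    wedge (ch := ch.re n) (P269.pbT φ _ μ) c v = wedge μ (apV φ c) (apV φ v) := by
  refine Finset.sum_congr rfl fun ε _ => congrArg _ ?_
  change μ _ = μ _
  refine congrArg μ (funext fun r => ?_)
  rcases r with r | r
  · exact apply_ite (φ ch.o) _ _ _
  · rfl

theorem wsec_apV {X : Type} [TopologicalSpace X] [T2Space X] [CompactSpace X] {R : RS X}
    {N N' : Finset (X × X)} {A : ι → LB R} {π : X → V n.M} (φ : HV n.M ch.M)
    (h : ∀ i j, (fun x => π x i j) ∈ H0 N (A i)) (P : Finset X) (μ : Tn ch.M ch.slot) (y : X) :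
    wsec A (fun y => apV φ (π y)) N' P μ y = wsec (ch := ch.re n) A π N' P (P269.pbT φ _ μ) y := by
  rw [wsec, wsec, wedge_pbT]
  exact congrArg _ (congrArg _ (funext (deriv_br_lin h y)))

theorem _root_.Vale.Agent.P269.AC.ord_glue {c : AC ν (κ ⊕ ε)} {y : c.X} :
    (Sm c.glue.N y ∧ y ∉ c.glue.P) ↔ Sm c.N y ∧ y ∉ c.P := by
  rw [AC.sm_glue, AC.mem_P_glue (c := c), and_assoc]
  simp only [not_or, not_exists, and_comm]

theorem wsec_glue {c : AC ν (κ ⊕ ε)} (A : ι → LB c.R) (π : c.X → V ch.M) (μ : Tn ch.M ch.slot)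
    (y : c.X) : wsec A π c.glue.N c.glue.P μ y = wsec A π c.N c.P μ y := by
  by_cases a : Sm c.N y ∧ y ∉ c.P
  · rw [wsec, wsec, if_pos a, if_pos (AC.ord_glue.2 a)]
  · rw [wsec, wsec, if_neg a, if_neg (mt AC.ord_glue.1 a)]

variable {x : ch.W (Mk ν κ)} {w : ch.Lb n (Mk ν (κ ⊕ ε))}

theorem Lk.gr {x : ch.W ν} {w : ch.Lb n ν'} (h : Lk x w) {z : (ch.re n).Pt} (hz : z ∈ gr w.1)
    (h0 : ∀ i, apV w.2.1 z.1 i ≠ 0) : lpt w z ∈ gr x :=
  ⟨h0, fun l μ => (congrArg (z.2 l) (h.Q l μ)).trans (hz.2 l _)⟩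

variable (x w) in
/-- A common presentation of the two curves. -/
structure GD (c : AC ν (κ ⊕ ε)) (A : ι → LB c.R) (π : c.X → V n.M)
    (u : c.X → ∀ l, (ch.re n).E l →L[ℂ] ℂ) (ξ ξ' : c.X → ℂ) : Prop where
  cr' : Cr (ch := ch.re n) c.N A w.1 π u c.p ξ'
  mark : ∀ a, π (c.p a) = w.1.p a
  cr : Cr c.glue.N A x (fun y => apV w.2.1 (π y)) (fun y l => u y l ∘L w.2.2 l) c.glue.p ξ

theorem Gl.exists_gd (h : Gl x w) : ∃ c A π u ξ ξ', GD x w c A π u ξ ξ' := by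
  obtain ⟨X, _, _, _, R, N, A, π, p, h1, h2, h3⟩ := h.par
  obtain ⟨u, p', ξ', a⟩ := h1.exists_cr (ch := ch.re n) h.mem'
  obtain rfl : p = p' := funext fun k => a.orb_mark.1 ⟨1, (h2 k).trans (one_smul _ _).symm⟩
  let c : AC ν (κ ⊕ ε) := ⟨X, R, N, p, h1.nd, a.inj, a.sm⟩
  obtain ⟨u₁, p₁, ξ, b⟩ := h3.exists_cr h.mem
  obtain rfl : c.glue.p = p₁ := funext fun k => b.orb_mark.1
    ⟨1, ((congrArg _ (h2 _)).trans (h.mark k).symm).trans (one_smul _ _).symm⟩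
  obtain rfl : (fun y l => u y l ∘L w.2.2 l) = u₁ :=
    funext fun y => b.u_eq (h.toLk.gr (a.gr y) (h3.ne y))
  exact ⟨c, A, π, u, ξ, ξ', a, h2, b⟩

theorem GD.xi_eq {c A π u ξ ξ'} (h : GD x w c A π u ξ ξ') (hl : Lk x w) {y : c.X}
    (hy : Sm c.N y ∧ y ∉ c.P) : ξ y = ξ' y := by
  obtain ⟨μ, e⟩ := exists_wedge_ne (h.cr.par.ne y) (h.cr.par.imm y)
  have a : wsec A (fun y => apV w.2.1 (π y)) c.N c.P μ y ≠ 0 := by
    rwa [wsec, if_pos hy, one_pow, one_mul]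
  exact mul_right_cancel₀ a (((congrArg _ (wsec_glue _ _ μ y).symm).trans (h.cr.Xi y μ).symm).trans
    ((congrArg (u y none) (hl.Ξ μ)).trans ((h.cr'.Xi y _).trans
      (congrArg _ (wsec_apV _ h.cr'.par.sec _ μ y).symm))))

theorem Gl.crv_eq (h : Gl x w) : crv x = apV w.2.1 '' crv w.1 := by
  obtain ⟨c, A, π, u, ξ, ξ', a⟩ := h.exists_gd
  refine Set.ext fun d => ⟨fun b => ?_, ?_⟩
  · obtain ⟨y, t, e, rfl⟩ := (a.cr.par.img d).1 b
    exact ⟨_, (a.cr'.par.img _).2 ⟨y, t, e, rfl⟩, apV_smul _ _ _⟩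
  · rintro ⟨_, ⟨z, b, rfl⟩, rfl⟩
    exact ⟨_, h.lpt_mem b, rfl⟩

theorem Gl.setX (h : Gl x w) (X : ch.Fld) (X' : (ch.re n).Fld) : Gl (setX x X) (w.setX X') :=
  ⟨⟨h.Q, h.Ξ⟩, h.mem, h.mem', h.surj, h.inj, h.mark, h.node, h.par⟩

end Ch

end Vale.Agent.P269
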