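import Vale.Agent.P287Q.G.Spl.Num
import Vale.Agent.P287Q.G.Vir.Sd

/-!
# Types of split maps, the numerical statements of the degeneration formula
-/

set_option linter.unusedSectionVars false

namespace Vale.Agent.P269

open P291Z Set Function Topology Filter Module Fock

variable {S Λ Λ₀ R J K ι ν κ α : Type} [Fintype S] [Fintype Λ] [Fintype Λ₀] [Fintype R] [Fintype J]
  [Fintype K] [Fintype ι] [DecidableEq ι] [Fintype ν] [Fintype κ]

/-- The contact orders minus one of `l` nodes with total contact order `e`. -/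
def ctc (l e : ℕ) : Finset (Fin l → ℕ) :=
  {μ ∈ Fintype.piFinset fun _ : Fin l => Finset.range e | ∑ i, (μ i + 1) = e}

/-- Types of split maps: degree and `g - 1` of the right part, number of nodes, contact orders minus
one, sides of the marked points (`true` is right). -/
abbrev STy (R α : Type) : Type := Σ q : (R → ℤ) × ℤ × ℕ, (Fin q.2.2 → ℕ) × (α → Bool)

namespace STy

section

variable (τ : STy R α)

/-- the degree of the right part -/
abbrev d : R → ℤ := τ.1.1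

/-- the arithmetic genus of the right part minus one -/
abbrev j : ℤ := τ.1.2.1

/-- the number of nodes on the divisor -/
abbrev r : ℕ := τ.1.2.2

/-- the contact orders minus one -/
abbrev μ : Fin τ.r → ℕ := τ.2.1

/-- the sides -/
abbrev s : α → Bool := τ.2.2

/-- the contact orders -/
def u : Fin τ.r → ℕ := fun e => τ.μ e + 1

/-- the number of symmetries -/
noncomputable def n : ℕ := Nat.card {σ : Equiv.Perm (Fin τ.r) // τ.μ ∘ σ = τ.μ}

/-- the coefficient -/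
noncomputable def c : ℂ := (∏ e, τ.u e : ℕ) * τ.n / τ.r.factorial

/-- the types with numerical data in `A` -/
def set [Fintype α] [DecidableEq α] (i : R) (A : Finset ((R → ℤ) × ℤ × ℕ)) : Finset (STy R α) :=
  A.sigma fun q => ctc q.2.2 (q.1 i).toNat ×ˢ Finset.univ

end

variable (τ : STy R (ν ⊕ κ))

/-- the marked points on the right part -/
def T : Set (Ch.Mk ν κ) := {n | τ.s (n.map id Prod.fst) = true}

/-- the degree of the logarithmic dualising bundle on the right part -/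
noncomputable def a : ℤ := 2 * τ.j + {n | τ.s (.inl n) = true}.ncard + τ.r

/-- split maps of type `τ`, with persistent nodes on the divisor -/
def Q (w : R → ℤ) (b c : J) : AM Λ R J ν (κ ⊕ Fin τ.r) → Prop :=
  AM.SpN w b c (extU 0 τ.u) τ.a τ.d (extT _ τ.T)

/-- split maps of type `τ`, with marked points on the divisor -/
def P (w : R → ℤ) (b c : J) : AM Λ R J (ν ⊕ Fin τ.r × Bool) κ → Prop :=
  AM.SpN w b c (extU 0 τ.u ∘ Ch.unp ν κ _) τ.a τ.d (Ch.unp ν κ _ ⁻¹' extT _ τ.T)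

/-- glued split maps of type `τ` -/
def C (w : R → ℤ) (b c : J) : AM Λ R J ν κ → Prop := AM.Ct (τ.Q w b c)

end STy

/-- The marked points of the two parts; the second branches of the nodes `ε` are on the left. -/
def mixE {ν₁ ν₂ : Type} (φ : ν₁ ⊕ ν₂ ≃ ν) (ε : Type) : (ν₁ ⊕ ε) ⊕ ν₂ ⊕ ε ≃ ν ⊕ ε × Bool where
  toFun := Sum.elim (Sum.map (fun a => φ (.inl a)) (·, true)) (Sum.map (fun a => φ (.inr a)) (·, false))
  invFun := Sum.elim (fun n => (φ.symm n).map .inl .inl) fun e =>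
    bif e.2 then .inl (.inr e.1) else .inr (.inr e.1)
  left_inv := by rintro ((_ | _) | _ | _) <;> simp
  right_inv := by
    rintro (n | ⟨_, _ | _⟩)
    · obtain ⟨_ | _, rfl⟩ := φ.surjective n <;> simp
    all_goals rfl

variable (S R ν κ) in
/-- The dimension of the stack of curves with line bundles and base fields in a fibre of a
degeneration. -/
def sdim (n₀ : ℕ) (g : ℤ) : ℤ := n₀ - Fintype.card S + 2 * g - 2 + Fintype.card ν +
  Fintype.card κ + Fintype.card R * (g - 1 + Fintype.card κ)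

/-- The fibre over `t`. -/
def Ch.tAt {ch : Ch ι J} (t : ℂ) : Set (ch.WF ν κ (Option Λ₀)) := {x | x.1 none = t}

/-- Descendant insertions and persistent nodes at labelled points. -/
noncomputable def Wt.fsL (F : Wt S Λ R J) (A : Set ((Λ → ℂ) × (J → ℂ)))
    (L₁ : List (ν × ℕ × H (F.X A))) (L₂ : List (κ × ℕ × ℕ)) : List (Fac F ν κ) :=
  (L₁.flatMap fun x => List.replicate x.2.1 (.psi (.inl x.1)) ++ [.ev (.inl x.1) A x.2.2]) ++
    L₂.flatMap fun x => List.replicate x.2.1 (.psi (.inr (x.1, false))) ++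
      List.replicate x.2.2 (.psi (.inr (x.1, true))) ++ [.dg x.1]

section alg

variable {V : Type} [AddCommGroup V] [Module ℂ V] (p : Par ℂ V)

/-- An element on the left (`false`) or on the right (`true`). -/
def sid {M : Type} [Zero M] (s : Bool) (x : M) : M × M := bif s then (0, x) else (x, 0)

/-- The monomial of insertions that are distributed to the two sides. -/
noncomputable def monS (s : ν ⊕ κ → Bool) (L₁ : List (ν × ℕ × V)) (L₂ : List (κ × ℕ × ℕ)) :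
    Fock.S ((Deg.pT p).prod (Deg.pT p)) :=
  (L₁.map fun x => Fock.ι _ (sid (s (.inl x.1)) (Finsupp.single x.2.1 x.2.2, 0))).prod *
    (L₂.map fun x => Fock.ι _ (sid (s (.inr x.1)) (0, Finsupp.single x.2 1))).prod

variable {p}

/-- The contribution of a type to the gluing formula. -/
noncomputable def STy.tm {D : Deg.Dv} (τ : STy R α) (F G : Deg.Ser (R → ℤ) (Deg.pR p D))
    (β : R → ℤ) (j : ℤ) (x : Fock.S ((Deg.pT p).prod (Deg.pT p))) : ℂ :=
  (τ.r.factorial : ℂ)⁻¹ * Deg.tp (F (β - τ.d) (j - τ.j - τ.r)) (G τ.d τ.j)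
    (Fock.map _ (Deg.isEv_ins D p p) x * (List.ofFn fun e => Deg.gam D p p (τ.μ e)).prod)

end alg

namespace Fam

/-- The special fibre. -/
abbrev sp0 (F : Fam S (Option Λ₀) R J K) (B₀ : Set (Λ₀ → ℂ)) : Fam S (Option Λ₀) R J K :=
  F.sub (slab B₀ 0) ∅

/-- The part of `T` in `O` and in the domain of the Kuranishi data. -/
abbrev cutO (F : Fam S Λ R J K) {ch : Ch ι J} (T O : Set (ch.WF ν κ Λ)) : Set (ch.WF ν κ Λ) :=
  T ∩ O ∩ ch.dom ν κ F (F.tdeg ch)

variable [DecidableEq R]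

variable (ν κ) in
/-- The open set of positive curves. -/
def posO (F : Fam S Λ R J K) (k D : ℕ) (g : ℤ) (d : R → ℤ) : Set ((F.sch ν κ k D g d).WF ν κ Λ) :=
  interior {x | x.2 ∈ Ch.base _ _ → ∀ A m, Ch.Rep ℓs A x m → m.Pos F.θ k}

variable (F : Fam S (Option Λ₀) R J K) (i : R) (b c : J) (B₀ : Set (Λ₀ → ℂ)) (Ω : Set ℂ) (k : ℕ)
  (K₀ : RD R) (n₀ : ℕ)

/-- The standing hypotheses on a degeneration. -/
structure DgS : Prop extends F.Good where
  dgn : F.Deg i b c B₀ Ω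
  reg : F.Reg K₀
  sm : ∀ l : B₀, Holo.IsMfd Subtype.val n₀ l
  big : F.Big k
  cp : CompactSpace (F.Bs (slab B₀ 0))

/-- A good neighbourhood of the solutions in a standard chart. -/
structure DgO {D : ℕ} {g : ℤ} {d : R → ℤ} (O : Set ((F.sch ν κ k D g d).WF ν κ (Option Λ₀))) :
    Prop extends F.DgS i b c B₀ Ω k K₀ n₀ where
  bd : F.BigD k D
  ok : (F.sch ν κ k D g d).Ok F (F.tdeg (F.sch ν κ k D g d)) K₀ ℓs (n₀ + 1) O
  pos : O ⊆ F.posO ν κ k D g d

variable {k}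

/-- The stratum of type `τ`. -/
abbrev stT (D : ℕ) (g : ℤ) (d : R → ℤ) (τ : STy R (ν ⊕ κ)) :
    Set ((F.sch ν κ k D g d).WF ν κ (Option Λ₀)) :=
  (F.sch ν κ k D g d).locP (F.sp0 B₀) ℓs (τ.C (F.w b) b c)

/-- The closure of the stratum of type `τ`. -/
abbrev clT (D : ℕ) (g : ℤ) (d : R → ℤ) (τ : STy R (ν ⊕ κ)) :
    Set ((F.sch ν κ k D g d).WF ν κ (Option Λ₀)) :=
  (F.sch ν κ k D g d).clP (F.sp0 B₀) ℓs (τ.C (F.w b) b c)

/-- The cocycle `θ` represents the divisor of `t` near the strata with sides in `σ` and vanishes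
near the other strata. -/
structure Cut0 {D : ℕ} {g : ℤ} {d : R → ℤ} {Y : Set ((F.sch ν κ k D g d).WF ν κ (Option Λ₀))}
    (θ : Coch (Quo (Ch.actF F.toWt) Y)) (σ : (ν ⊕ κ → Bool) → Prop) : Prop where
  cyc : supp (δ θ) = ∅
  deg : IsDeg 2 θ
  sup : supp θ ⊆ Quo.part _ Y (Ch.tAt 0)
  div : ∀ τ : STy R (ν ⊕ κ), σ τ.s → ∀ x : Holo.Sp (Ch.actF F.toWt) Y, x.val ∈ F.stT b c B₀ D g d τ →
    LocDiv (pull Holo.Sp.mk θ) (fun y => y.val.1 none) x
  van : ∀ τ : STy R (ν ⊕ κ), ¬σ τ.s → ∀ x : Holo.Sp (Ch.actF F.toWt) Y,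
    x.val ∈ F.stT b c B₀ D g d τ → x.mk ∉ supp θ

end Fam

namespace St

/-- **Specialisation** of the virtual class of a general fibre. -/
def Spc1 : Prop :=
  ∀ {R J K ν κ : Type} [Fintype R] [Fintype J] [Fintype K] [Fintype ν] [Fintype κ] [DecidableEq R]
    [DecidableEq ν] [DecidableEq κ] (F : Fam Empty (Option Empty) R J K) (i b c Ω) (k : ℕ) (K₀ n₀)
    (t : ℂ) (g : ℤ) (β : R → ℤ) (fs : List (Fac F.toWt ν κ)), F.DgS i b c univ Ω k K₀ n₀ → t ∈ Ω →
    t ≠ 0 → F.Fs 0 fs → ∀ᶠ A in atTop, ∀ᶠ D in atTop,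
      (F.sub (slab univ t) ∅).intM k D g β 0 fs =
        ∑ τ ∈ STy.set i A, τ.c * (F.sp0 univ).intQ k D g β (τ.C (F.w b) b c) fs

/-- **The divisors `b = 0` and `c = 0` at a marked point commute.** -/
def Spc2 : Prop :=
  ∀ {S Λ₀ R J K ν κ : Type} [Fintype S] [Fintype Λ₀] [Fintype R] [Fintype J] [Fintype K] [Fintype ν]
    [Fintype κ] [DecidableEq R] [DecidableEq ν] [DecidableEq κ] (F : Fam S (Option Λ₀) R J K)
    (i b c B₀ Ω) (k : ℕ) (K₀ n₀) (g : ℤ) (β : R → ℤ) (n : ν) (fs : List (Fac F.toWt ν κ)),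
    F.DgS i b c B₀ Ω k K₀ n₀ → F.Fs 0 fs → ∀ᶠ A in atTop, ∀ᶠ D in atTop,
      ∑ τ ∈ STy.set i A with τ.s (.inl n) = false, τ.c * (F.sp0 B₀).intQ k D g β (τ.C (F.w b) b c)
        (.ev (.inl n) _ (F.lc F.cone (F.wt c) (F.w c)) :: fs) =
      ∑ τ ∈ STy.set i A with τ.s (.inl n) = true, τ.c * (F.sp0 B₀).intQ k D g β (τ.C (F.w b) b c)
        (.ev (.inl n) _ (F.lc F.cone (F.wt b) (F.w b)) :: fs)

/-- **The contribution of one type.** -/
def Trm : Prop :=
  ∀ {S Λ₀ R J K N ν κ : Type} [Fintype S] [Fintype Λ₀] [Fintype R] [Fintype J] [Fintype K]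
    [Fintype N] [Fintype ν] [Fintype κ] [DecidableEq R] [DecidableEq J]
    (F : Fam S (Option Λ₀) R J K) (i b c B₀ Ω) (k : ℕ) (K₀ n₀) (D : Deg.Dv)
    (i' : D.H →ₗ[ℂ] H (F.X (F.sub (slab B₀ 0) {b, c}).cone)) {V : Type} [AddCommGroup V]
    [Module ℂ V] (p : Fock.Par ℂ V) (w : V →ₗ[ℂ] H (F.X F.cone)) (e f : N → H (F.Bs (slab B₀ 0)))
    (β : R → ℤ) (j : ℤ) (L₁ : List (ν × ℕ × V)) (L₂ : List (κ × ℕ × ℕ)) (τ : STy R (ν ⊕ κ)),
    F.DgS i b c B₀ Ω k K₀ n₀ → IsEv D.p (parH _) i' →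
    (F.sub (slab B₀ 0) {b, c}).IsCas (i' ∘ D.fr.e) (i' ∘ D.fr.f) → IsEv p (parH _) w →
    F.CasB _ e f → LG.Enum L₁ → LG.Enum L₂ → ∀ᶠ E in atTop,
      τ.c * (F.sp0 B₀).intQ k E (j + 1 - Fintype.card κ) β (τ.C (F.w b) b c)
        (F.fsL _ (L₁.map (Prod.map id (Prod.map id w))) L₂) =
      ∑ q, τ.tm ((F.sub (slab B₀ 0) {b}).serR k (F.exB (e q)) p w (Pi.single c 1) D i')
        ((F.sub (slab B₀ 0) {c}).serR k (F.exB (f q)) p w (Pi.single b 1) D i') β j
        (monS p τ.s L₁ L₂)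

end St

end Vale.Agent.P269
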