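import Vale.Agent.P287Q.G.Spl.DictA

/-!
# Split maps in a chart
-/

set_option linter.unusedSectionVars false

namespace Vale.Agent.P269

open Set Function Topology Filter Holo Base Cv

namespace Cv

variable {X : Type} [TopologicalSpace X] [T2Space X] [CompactSpace X] {R : RS X}
  {ι : Type} [Fintype ι] {N : Finset (X × X)} {A : ι → LB R} {y y' z : X}

section

variable {M : ι → ℕ} {o : ι} {C : Set (V M)} {π : X → V M} {γ δ : ℂ → V M}

theorem dc_orb (h : Nrm.Fac (br A π y) γ) : Base.Orb (π y) (γ 0) := by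
  obtain ⟨s, φ, -, -, h1, h2, -, h3⟩ := h
  exact ⟨s 0, h1, by rw [h3.self_of_nhds, h2, br_zero]⟩

theorem dc_refl (γ : ℂ → V M) : Nrm.Fac γ γ :=
  ⟨fun _ => 1, id, analyticAt_const, analyticAt_id, fun _ => one_ne_zero, rfl, by simp,
    .of_forall fun _ => (one_smul _ _).symm⟩

theorem dc_branch (hC : IsNodal o C) (a : IsBranch o C γ) (h : Nrm.Fac γ δ) : IsBranch o C δ := by
  have e := h.J_eq (o := o) a.holo
  obtain ⟨s, φ, a1, a2, a3, a4, a5, a6⟩ := h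
  have h0 : Tendsto φ (𝓝 0) (𝓝 0) := by simpa only [ContinuousAt, a4] using a2.continuousAt
  refine ⟨(Dict.an_smul a1 (a.holo.comp_of_eq a2 a4)).congr (EventuallyEq.symm a6), ?_,
    Nrm.li_of_wd fun k => ?_⟩
  · filter_upwards [a6, h0.eventually a.mem, eventually_all.2 fun i =>
      (continuousAt_pi.1 a1.continuousAt i).eventually_ne (a3 i)] with z b1 b2 b3
    exact b1 ▸ hC.cone _ b3 _ b2
  · obtain ⟨r, -, b⟩ := Nrm.exists_of_pr (Nrm.wd_ne a.imm) (congrArg Prod.snd e).symm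
    exact Nrm.wd_ne a.imm (by rw [b, k, smul_zero])

namespace Par

variable (h : Par o C N A π)
include h

theorem dc_fac (a : IsBranch o C γ) : ∃ y, Nrm.Fac (br A π y) γ :=
  let ⟨y, s, φ, h1, h2, h3, h4⟩ := h.factor_branch a
  ⟨y, s, φ, h1, h3, h2, h4⟩

theorem dc_rel (e : Base.Orb (π y) (π z)) : y = z ∨ Jn N y z :=
  let ⟨t, _, e⟩ := e; h.inj y z t e

theorem dc_J (a : Nrm.Fac (br A π y) γ) : Nrm.J o γ 0 = Nrm.J o (br A π y) 0 :=
  a.J_eq (an_br h.sec y)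

theorem dc_ne (j : Jn N y y') : Nrm.J o (br A π y) 0 ≠ Nrm.J o (br A π y') 0 :=
  j.elim (fun a => Nrm.ne_of_isCross (h.isCross a)) fun a => (Nrm.ne_of_isCross (h.isCross a)).symm

theorem dc_uniq (a : Nrm.Fac (br A π y) γ) (b : Nrm.Fac (br A π y') γ) : y = y' :=
  (h.dc_rel ((dc_orb a).trans (dc_orb b).symm)).resolve_right fun j =>
    h.dc_ne j ((h.dc_J a).symm.trans (h.dc_J b))

theorem dc_cross (j : Jn N y y') (a : Nrm.Fac (br A π y) γ) (b : Nrm.Fac (br A π y') δ)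
    (e : δ 0 = γ 0) : IsCross o C (γ 0) γ δ :=
  Nrm.isCross_of_ne (dc_branch h.isNodal (h.isBranch y) a) (dc_branch h.isNodal (h.isBranch y') b) e
    (by rw [h.dc_J a, h.dc_J b]; exact h.dc_ne j)

theorem dc_jn {c : V M} (hc : IsCross o C c γ δ) (a : Nrm.Fac (br A π y) γ)
    (b : Nrm.Fac (br A π y') δ) : Jn N y y' := by
  refine (h.dc_rel ((dc_orb a).trans ?_)).resolve_left fun e =>
    Nrm.ne_of_isCross hc (by rw [h.dc_J a, h.dc_J b, e])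
  rw [hc.2.2.1, ← hc.2.2.2.1]
  exact (dc_orb b).symm

end Par

end

variable {J ν : Type} [DecidableEq ι] [Fintype J] [Fintype ν] {ch : Ch ι J} {x : ch.W ν}
  {π : X → V ch.M} {u : X → ∀ l, ch.E l →L[ℂ] ℂ} {p : ν → X} {ξ s : X → ℂ} {j : J}
  {γ : ℂ → V ch.M}

/-- the order of a field along a reparametrised branch -/
theorem Cr.dc_vz (h : Cr N A x π u p ξ) (a : Ind x π u j s) (f : Nrm.Fac (br A π y) γ) {k : ℕ} :
    (bz A (ch.wd j)).ord s y = k ↔ ∃ c ≠ 0, Vz k (fun t => Ch.fld x (γ t) j) c := by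
  obtain ⟨r, φ, a1, a3, a2, a4, a5, a6⟩ := f
  have b : AnalyticAt ℂ (fun t => ∏ i, r t i ^ ch.wd j i) 0 :=
    Finset.analyticAt_fun_prod _ fun i _ => (analyticAt_pi_iff.1 a1 i).zpow (a2 i)
  have e : (fun t => Ch.fld x (γ t) j) =ᶠ[𝓝 0]
      (fun t => ∏ i, r t i ^ ch.wd j i) * ((bz A (ch.wd j)).loc s y ∘ φ) := by
    filter_upwards [a6, eventually_all.2 fun i =>
      (analyticAt_pi_iff.1 a1 i).continuousAt.eventually_ne (a2 i)] with t d e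
    rw [d]
    exact h.par.loc_bz (f := fun c => Ch.fld x c j) (fun y t => h.fld_smul a y) y _ e
  have d : AnalyticAt ℂ ((bz A (ch.wd j)).loc s y) (φ 0) := by rw [a4]; exact (h.ind_mem a).1 y
  rw [← Vz.order ((b.mul (d.comp a3)).congr e.symm), analyticOrderAt_congr e,
    analyticOrderAt_mul b (d.comp a3), b.analyticOrderAt_eq_zero.2
    (Finset.prod_ne_zero_iff.2 fun i _ => zpow_ne_zero _ (a2 i)), zero_add,
    analyticOrderAt_comp_of_deriv_ne_zero a3 a5, a4, LB.ord]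

end Cv

variable {S Λ R J K ι ν ν' κ κ' ε ε' : Type} [Fintype S] [Fintype Λ] [Fintype R] [Fintype J]
  [Fintype K] [Fintype ι] [DecidableEq ι] [Fintype ν] [Fintype ν'] [Fintype κ] [Fintype κ']
  [Fintype ε] [Fintype ε']

namespace Ch

variable {ch : Ch ι J} {F : Fam S Λ R J K} {ℓ : R → ι → ℤ} {i : ι} {b c : J} {A : Set J}
  {x : ch.WF ν κ Λ} {m : AM Λ R J ν κ} {B : ι → LB m.R} {π : m.X → V ch.M} {u₀ s}
  {P : AM Λ R J ν κ → Prop} {u : ε → ℕ} {σ : ε → ℂ × ℂ → V ch.M} {n : ε × Bool → m.X}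

theorem Dg.w_c (hc : ch.Dg F.toWt ℓ i b c) : F.w c = -F.w b := by
  classical
  obtain ⟨v, v1, v2, -⟩ := hc.lat.dual
  have e : ∀ j r, ∑ o, ch.wd j o * v (some r) o = F.w j r := fun j r => by
    simp only [hc.lat.wd, Finset.sum_mul, mul_assoc]
    rw [Finset.sum_comm, Finset.sum_eq_single r (fun r' _ hr => ?_) (by simp), ← Finset.mul_sum]
    · exact (congrArg _ (v1 (some r))).trans (mul_one _)
    · rw [← Finset.mul_sum]
      exact mul_eq_zero_of_right _ (v2 (some r') (some r) fun e => hr (Option.some.inj e).symm)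
  funext r
  rw [Pi.neg_apply, ← e, ← e, hc.wc, ← Finset.sum_neg_distrib]
  simp

theorem dc_mov (hN : F.Nodal b c) {j : J} : j ∉ F.mov ↔ j = b ∨ j = c := by
  rw [hN.mov]; exact not_not

theorem Dg.nb (hc : ch.Dg F.toWt ℓ i b c) (hN : F.Nodal b c) (hx : x ∈ ch.adm ν κ F)
    (h : Rep ℓ F.movᶜ x m) : m.Nb (F.w b) b c := by
  obtain ⟨B, π, u, s, d⟩ := h.exists_data hx.1.2.1
  have hb : b ∈ F.movᶜ := (dc_mov hN).2 (.inl rfl)
  have hc' : c ∈ F.movᶜ := (dc_mov hN).2 (.inr rfl)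
  refine ⟨d.sec (W := F.toWt) hc.lat.wd hb, hc.w_c ▸ d.sec (W := F.toWt) hc.lat.wd hc', fun z => ?_,
    (d.mt_iff hb).1 (hx.2.2.2.2 b hb), (d.mt_iff hc').1 (hx.2.2.2.2 c hc')⟩
  rw [← d.cr.fld_π (d.ind b hb), ← d.cr.fld_π (d.ind c hc')]
  exact (hN.E _ hx.1.1 _).1 (hx.2.2.1 _ (d.cr.par.mem z))

theorem mem_locP (hw : ∀ j i, ch.wd j i = ∑ r, F.w j r * ℓ r i) (hP : AM.IvtA F.toWt F.movᶜ P)
    (hx : x ∈ ch.adm ν κ F) (h : Rep ℓ F.movᶜ x m) : x ∈ ch.locP F ℓ P ↔ P m :=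
  ⟨fun ⟨_, _, a, e⟩ => hP _ _ (a.iso hx.1.2.1 hw h) e, fun e => ⟨hx, m, h, e⟩⟩

theorem actF_mem_locP (hF : F.Inv) (hP : AM.IvtA F.toWt F.movᶜ P) (hx : x ∈ ch.locP F ℓ P)
    {a : ch.AF ν κ S} (ha : IsUnit a) : actF F.toWt a x ∈ ch.locP F ℓ P :=
  let ⟨h, _, d, e⟩ := hx
  ⟨actF_mem_adm hF ha h, _, d.actF h.1.2.1 ha, hP _ _ (AM.iso_scl (isUnit_S ha)) e⟩

theorem dc_val {y : ch.W ν'} {X : ch.Fld} {j : J} (e : X j = y.X j) :
    Val (setX y X) j = Val y j := by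
  funext c v
  change (∀ u, (c, u) ∈ gr y → ∀ μ, u (some j) (X j μ) = v * val μ c) = _
  rw [e, Val]

theorem dc_fld {y : ch.W ν'} {X : ch.Fld} {j : J} (e : X j = y.X j) (c : V ch.M) :
    fld (setX y X) c j = fld y c j := by rw [fld, dc_val e, fld]

theorem stb_adm (hF : F.Inv) : Stb F.mov (ch.adm ν κ F) := fun _ ⟨h1, h2, h3, h4, h5⟩ _ e =>
  ⟨h1, fun j hj => (dc_val (e j hj)).symm ▸ h2 j hj,
    fun c hc => hF.baseE _ _ _ (fun j hj => (dc_fld (e j hj) c).symm) (h3 c hc),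
    fun j hj => (e j (disjoint_left.1 hF.zer_base hj)).trans (h4 j hj),
    fun j hj q => (dc_fld (e j hj) _).trans ((h5 j hj q).trans (dc_fld (e j hj) _).symm)⟩

theorem stb_main (hF : F.Inv) (u : ν → J → ℕ) : Stb F.mov (ch.main κ F u) := fun x h X e =>
  ⟨stb_adm hF x h.1 X e, fun j hj hz γ hγ =>
    (congrArg (analyticOrderAt · 0) (funext fun t => dc_fld (e j hj) (γ t))).trans (h.2 j hj hz γ hγ)⟩

theorem stb_locP (hF : F.Inv) : Stb F.mov (ch.locP F ℓ P) :=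
  fun x ⟨h, m, ⟨a, B, π, d, f, g⟩, k⟩ X e => ⟨stb_adm hF x h X e, m,
    ⟨a, B, π, ⟨d.par, d.mark, d.triv, d.xi⟩, f, fun j hj => (dc_val (e j hj)).symm ▸ g j hj⟩, k⟩

theorem mem_adm_nodal (hN : F.Nodal b c) : x ∈ ch.adm ν κ F ↔ x.1 ∈ F.B ∧ Bc x.2 b c 0 := by
  have hb : b ∉ F.mov := (dc_mov hN).2 (.inl rfl)
  have hc : c ∉ F.mov := (dc_mov hN).2 (.inr rfl)
  refine ⟨fun ⟨h1, h2, h3, _, h5⟩ => ⟨h1.1, (mem_baseF.1 h1).2, h2 b hb, h2 c hc,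
    fun y hy => (hN.E _ h1.1 _).1 (h3 y hy), h5 b hb, h5 c hc⟩, fun ⟨h1, h2⟩ =>
    ⟨mem_baseF.2 ⟨h1, h2.mem⟩, fun j hj => ?_, fun y hy => (hN.E _ h1 _).2 (h2.mul y hy),
      fun j hj => absurd hj (hN.zer ▸ notMem_empty j), fun j hj => ?_⟩⟩
  · obtain rfl | rfl := (dc_mov hN).1 hj
    exacts [h2.scb, h2.scc]
  · obtain rfl | rfl := (dc_mov hN).1 hj
    exacts [h2.mtb, h2.mtc]

/-- finitely many types -/
theorem Dg.exists_deg (_hc : ch.Dg F.toWt ℓ i b c) (h : RepD ℓ A x m B π u₀ s) {U : Set m.X}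
    (hU : IsClopen U) : ∃ α : ι → ℤ, (∀ o, 0 ≤ α o ∧ α o ≤ ch.m o) ∧
      ch.k * degOn m.ω U = ∑ o, ch.χ o * α o ∧ ∀ r, degOn (m.L r) U = ∑ o, ℓ r o * α o := by
  refine ⟨fun o => degOn (B o) U, fun o => ⟨(h.cr.par.ge_zero o).nonneg U, ?_⟩, ?_, fun r => ?_⟩
  · rw [← h.cr.deg_eq, ← degOn_add_compl hU]
    exact le_add_of_nonneg_right ((h.cr.par.ge_zero o).nonneg _)
  · rw [← degOn_pow, ← h.crep.eqv.degOn, degOn_bz]
  · rw [← (h.L r).degOn, degOn_bz]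

theorem RepD.exists_axes (h : RepD ℓ A x m B π u₀ s)
    (hx : ∀ e, IsCross ch.o (crv x.2) (σ e 0) (fun z => σ e (z, 0)) fun z => σ e (0, z))
    (hi : ∀ e e', Base.Orb (σ e 0) (σ e' 0) → e = e') :
    ∃ n : ε × Bool → m.X, m.Nds n ∧ Axes B π n σ := by
  choose y hy using fun e => h.cr.par.dc_fac (hx e).1
  choose y' hy' using fun e => h.cr.par.dc_fac (hx e).2.1
  have j := fun e => h.cr.par.dc_jn (hx e) (hy e) (hy' e)
  have o : ∀ a : ε × Bool, Base.Orb (π (bif a.2 then y' a.1 else y a.1)) (σ a.1 0) := by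
    rintro ⟨e, _ | _⟩
    exacts [dc_orb (hy e), dc_orb (hy' e)]
  refine ⟨fun a => bif a.2 then y' a.1 else y a.1, ⟨fun a a' e => ?_, j⟩, fun e => ⟨hy e, hy' e⟩⟩
  have k := hi _ _ ((o a).symm.trans ((congrArg π e).symm ▸ o a'))
  obtain ⟨a, _ | _⟩ := a <;> obtain ⟨a', _ | _⟩ := a' <;> obtain rfl : a = a' := k
  exacts [rfl, absurd e ((j a).ne m.nd), absurd e.symm ((j a).ne m.nd), rfl]

theorem RepD.axes_unique (h : RepD ℓ A x m B π u₀ s) {n' : ε × Bool → m.X} (a : Axes B π n σ)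
    (a' : Axes B π n' σ) : n = n' := by
  funext ⟨e, k⟩
  cases k
  exacts [h.cr.par.dc_uniq (a e).1 (a' e).1, h.cr.par.dc_uniq (a e).2 (a' e).2]

theorem RepD.dc_inj (h : RepD ℓ A x m B π u₀ s) (hn : m.Nds n) {e e' : ε}
    (k : Base.Orb (π (n (e, false))) (π (n (e', false)))) : e = e' := by
  rcases h.cr.par.dc_rel k with j | j
  · exact congrArg Prod.fst (hn.inj j)
  · exact congrArg Prod.fst (hn.inj ((hn.jn e).unique m.nd j))

/-- the branches at given nodes -/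
theorem RepD.exists_cross (h : RepD ℓ A x m B π u₀ s) (hn : m.Nds n) : ∃ γ δ : ε → ℂ → V ch.M,
    (∀ e, IsCross ch.o (crv x.2) (γ e 0) (γ e) (δ e) ∧ Nrm.Fac (br B π (n (e, false))) (γ e) ∧
      Nrm.Fac (br B π (n (e, true))) (δ e)) ∧ ∀ e e', Base.Orb (γ e 0) (γ e' 0) → e = e' :=
  ⟨fun e => br B π (n (e, false)), fun e => br B π (n (e, true)), fun e =>
    ⟨h.cr.par.dc_cross (hn.jn e) (dc_refl _) (dc_refl _) ((br_zero _).trans
      ((h.cr.par.π_eq (.inr (hn.jn e))).symm.trans (br_zero _).symm)), dc_refl _, dc_refl _⟩,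
    fun _ _ k => h.dc_inj hn ((dc_orb (dc_refl _)).trans (k.trans (dc_orb (dc_refl _)).symm))⟩

theorem RepD.dc_off (h : RepD ℓ A x m B π u₀ s) (hn : m.Nds n) (ax : Axes B π n σ) {z : m.X} :
    Off (fun e => σ e (0, 0)) (π z) ↔ z ∉ range n := by
  refine ⟨fun a ⟨⟨e, k⟩, hk⟩ => a e ?_, fun a e k => a ?_⟩
  · subst hk
    cases k
    exacts [(dc_orb (ax e).1).symm, (dc_orb (ax e).2).symm]
  · rcases h.cr.par.dc_rel ((dc_orb (ax e).1).trans k) with j | j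
    exacts [⟨_, j⟩, hn.mem_range j ⟨_, rfl⟩]

variable (hc : ch.Dg F.toWt ℓ i b c) (hb : b ∈ A) (hc' : c ∈ A) (h : RepD ℓ A x m B π u₀ s)
  (hn : m.Nds n) (ax : Axes B π n σ)
include hc hb hc' h ax

theorem dc_vzb (e : ε) {k : ℕ} : (bz m.L (F.w b)).ord (m.y b) (n (e, false)) = k ↔
    ∃ a ≠ 0, Vz k (fun z => fld x.2 (σ e (z, 0)) b) a := by
  rw [← (h.eqv_wd (W := F.toWt) hc.lat.wd b).ord]
  exact h.cr.dc_vz (h.ind b hb) (ax e).1

theorem dc_vzc (e : ε) {k : ℕ} : (bz m.L (-F.w b)).ord (m.y c) (n (e, true)) = k ↔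
    ∃ a ≠ 0, Vz k (fun z => fld x.2 (σ e (0, z)) c) a := by
  rw [← hc.w_c, ← (h.eqv_wd (W := F.toWt) hc.lat.wd c).ord]
  exact h.cr.dc_vz (h.ind c hc') (ax e).2

theorem gd_of_spl (nb : m.Nb (F.w b) b c) (hu : ∀ e, u e ≠ 0)
    (hs : (m.cut hn).Spl (F.w b) b c (extU 0 u)) :
    ∃ a a', Gd x.2 b c u (fun e z => σ e (z, 0)) (fun e z => σ e (0, z)) a a' := by
  have nb' := nb.cut hn
  have h1 : ∀ e, ∃ a ≠ 0, Vz (u e) (fun z => fld x.2 (σ e (z, 0)) b) a := fun e => by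
    refine (dc_vzb hc hb hc' h ax e).1 ?_
    have k : (m.cut hn).p (.inr (.inr e, false)) ∈ (m.cut hn).sb b := by_contra fun k =>
      hu e (by simpa [extU] using (hs.ord_c nb' k).1)
    exact (hs.ord_b nb' k).2
  have h2 : ∀ e, ∃ a ≠ 0, Vz (u e) (fun z => fld x.2 (σ e (0, z)) c) a := fun e => by
    refine (dc_vzc hc hb hc' h ax e).1 ?_
    have k : (m.cut hn).p (.inr (.inr e, true)) ∉ (m.cut hn).sb b := fun k =>
      hu e (by simpa [extU] using (hs.ord_b nb' k).1)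
    exact (hs.ord_c nb' k).2.trans (by simp [extU])
  choose a ha using h1
  choose a' ha' using h2
  refine ⟨a, a', h.cr.mem, fun _ => h.exists_val hb, fun _ => h.exists_val hc', fun y hy => ?_,
    fun e => h.cr.par.dc_cross (hn.jn e) (ax e).1 (ax e).2 rfl, fun e e' k => h.dc_inj hn
      ((dc_orb (ax e).1).trans (k.trans (dc_orb (ax e').1).symm)), hu, ha, ha', fun y hy ho => ?_⟩
  · obtain ⟨z, t, ht, rfl⟩ := h.mem_crv.1 hy
    rw [h.cr.fld_smul (h.ind b hb) z ht, h.cr.fld_smul (h.ind c hc') z ht, mul_mul_mul_comm, nb.mul,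
      mul_zero]
  · obtain ⟨z, t, ht, rfl⟩ := h.mem_crv.1 hy
    rw [h.cr.fld_smul (h.ind b hb) z ht, h.cr.fld_smul (h.ind c hc') z ht]
    have k := (h.dc_off hn ax).1 (ho.orb (Base.Orb.symm ⟨t, ht, rfl⟩))
    exact (not_and_or.1 (mt (hs.zero_iff nb hu).1 k)).imp (mul_ne_zero (prod_zpow_ne ht _))
      (mul_ne_zero (prod_zpow_ne ht _))

theorem spl_of_gd (nb : m.Nb (F.w b) b c) {a a' : ε → ℂ}
    (hg : Gd x.2 b c u (fun e z => σ e (z, 0)) (fun e z => σ e (0, z)) a a') :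
    (m.cut hn).Spl (F.w b) b c (extU 0 u) := by
  have k : ∀ z ∉ range n, m.y b z ≠ 0 ∨ m.y c z ≠ 0 := fun z hz => by
    rw [← h.cr.fld_π (h.ind b hb), ← h.cr.fld_π (h.ind c hc')]
    exact hg.ne _ (h.cr.par.mem z) ((h.dc_off hn ax).2 hz)
  have k1 : ∀ z ∈ m.sb b, z ∉ range n → m.y b z ≠ 0 := fun z h1 h2 =>
    (k z h2).resolve_right (not_not.2 (nb.eq_zero.1 h1))
  have k2 : ∀ z ∉ m.sb b, z ∉ range n → m.y c z ≠ 0 := fun z h1 h2 =>
    (k z h2).resolve_left (not_not.2 (nb.eq_zero.2 h1))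
  have p0 : ∀ q, m.p q ∉ range n := fun q ⟨r, e⟩ => hn.not_sm r (e ▸ m.sm q)
  have um : ∀ z, (m.cut hn).Um z → z ∉ range n := fun z hz ⟨⟨e, r⟩, d⟩ =>
    hz (.inr (.inr e, r)) d.symm
  have ob := fun e => (dc_vzb hc hb hc' h ax e).2 ⟨_, hg.vzb e⟩
  have oc := fun e => (dc_vzc hc hb hc' h ax e).2 ⟨_, hg.vzc e⟩
  refine (AM.spl_of (nb.cut hn) (Y := m.sb b) ⟨nb.clopen, fun z hz z' j => ?_⟩ (fun q hq => ?_)
    (fun q hq => ?_) (fun z hz e => k1 z hz (um z e)) fun z hz e => k2 z hz (um z e)).1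
  · obtain ⟨j, r⟩ := (AC.jn_cut hn).1 j
    exact subset_closure fun e => k1 z hz r (((mem_H0_iff.1 nb.b_mem).2 _ _ j).trans e)
  · rcases q with q | ⟨q | e, _ | _⟩
    · exact ⟨le_rfl, (LB.ord_eq_zero (nb.b_mem.1 _)).2 (k1 _ hq (p0 _))⟩
    · exact ⟨le_rfl, (LB.ord_eq_zero (nb.b_mem.1 _)).2 (k1 _ hq (p0 _))⟩
    · exact ⟨le_rfl, (LB.ord_eq_zero (nb.b_mem.1 _)).2 (k1 _ hq (p0 _))⟩
    · exact ⟨Int.natCast_nonneg _, ob e⟩
    · exact absurd ((oc e).symm.trans (LB.ord_eq_top.2 (Eventually.mono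
        (nb.clopen.isOpen.mem_nhds hq) fun _ => nb.eq_zero.1))) (ENat.natCast_ne_top _)
  · rcases q with q | ⟨q | e, _ | _⟩
    · exact ⟨le_rfl, (LB.ord_eq_zero (nb.c_mem.1 _)).2 (k2 _ hq (p0 _))⟩
    · exact ⟨le_rfl, (LB.ord_eq_zero (nb.c_mem.1 _)).2 (k2 _ hq (p0 _))⟩
    · exact ⟨le_rfl, (LB.ord_eq_zero (nb.c_mem.1 _)).2 (k2 _ hq (p0 _))⟩
    · exact absurd ((ob e).symm.trans (LB.ord_eq_top.2 (Eventually.mono
        (nb.clopen.compl.isOpen.mem_nhds hq) fun _ => nb.eq_zero.2))) (ENat.natCast_ne_top _)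
    · exact ⟨by simp [extU], (oc e).trans (by simp [extU])⟩

end Ch

end Vale.Agent.P269
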