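import Vale.Agent.P287Q.G.Spl.Geo2
import Vale.Agent.P269.Spl.DictA0
import Vale.Agent.P269.Pt.Glue
import Vale.Agent.P269.Pt.Bnd

/-!
# Split maps: pointwise theory
-/

set_option linter.unusedSectionVars false

namespace Vale.Agent.P269

open Set Function Topology Filter Holo Base Cv

variable {S Λ R J K ι ν ν' κ κ' ε ε' : Type} [Fintype S] [Fintype Λ] [Fintype R] [Fintype J]
  [Fintype K] [Fintype ι] [DecidableEq ι] [Fintype ν] [Fintype ν'] [Fintype κ] [Fintype κ']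
  [Fintype ε] [Fintype ε']

namespace AM

variable {W : Wt S Λ R J} {A : Set J} {w d d' : R → ℤ} {b c : J} {a a' : ℤ}
  {U : Ch.Mk ν κ → ℤ} {T T' : Set (Ch.Mk ν κ)} {m m' : AM Λ R J ν κ} {u : ε → ℕ} {u' : ε' → ℕ}
  {n : ε × Bool → m.X} {n' : ε' × Bool → m.X} {B : m.X → ℂ} {z z' : m.X}

theorem Nb.symm (h : m.Nb w b c) : m.Nb (-w) c b :=
  ⟨h.c_mem, (neg_neg w).symm ▸ h.b_mem, fun z => (mul_comm _ _).trans (h.mul z), h.mtc, h.mtb⟩

theorem Lv.symm (l : m.Lv w b c U B) : m.Lv (-w) c b (-U) B⁻¹ :=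
  ⟨by rw [DA.bz_neg, ← DA.inv_div]; exact H0.inv_mem l.mem l.ne, fun z => inv_ne_zero (l.ne z),
    fun q a b => congrArg (·⁻¹) (l.mt q (neg_eq_zero.1 a) (neg_eq_zero.1 b)),
    fun z a b => inv_eq_of_mul_eq_one_right (l.eqc z a b),
    fun z a b => by rw [← l.eqb z a b]; exact inv_mul_cancel₀ (l.ne z)⟩

theorem Spl.symm (h : m.Spl w b c U) : m.Spl (-w) c b (-U) :=
  ⟨let ⟨_, l⟩ := h.1; ⟨_, l.symm⟩, fun z a => (h.2 z a).symm⟩

theorem mem_sb (h : m.y b z ≠ 0) : z ∈ m.sb b := subset_closure h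

theorem um_of_jn (h : Jn m.N z z') : m.Um z := fun k e => h.not_sm (e ▸ m.sm k)

theorem not_um (h : ¬m.Um z) : ∃ k, z = m.p k := by_contra fun a => h fun k e => a ⟨k, e⟩

theorem ev_um (z : m.X) : ∀ᶠ y in 𝓝[≠] z, m.Um y := MerP.ev_off m.p z

theorem Nb.sb_eq (h : m.Nb w b c) : m.sb b = Gen (m.y b) := DA.closure_ne h.b_mem.1

theorem Nb.clopen (h : m.Nb w b c) : IsClopen (m.sb b) := h.sb_eq ▸ isClopen_gen h.b_mem.1

theorem Nb.disj (h : m.Nb w b c) (a : z ∈ m.sb b) : z ∉ m.sb c := fun e => by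
  have := m.R.neBot z
  rw [h.sb_eq] at a
  rw [h.symm.sb_eq] at e
  obtain ⟨y, a, e⟩ := ((mem_gen.1 a).and (mem_gen.1 e)).exists
  exact mul_ne_zero a e (h.mul y)

theorem Nb.eq_zero (h : m.Nb w b c) {z : m.X} :
    (z ∈ m.sb b → m.y c z = 0) ∧ (z ∉ m.sb b → m.y b z = 0) :=
  ⟨fun a => by_contra fun e => h.disj a (mem_sb e), fun a => by_contra fun e => a (mem_sb e)⟩

section lv

variable (h : m.Nb w b c) (l : m.Lv w b c U B)
include h l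

theorem Lv.ev (a : z ∈ m.sb b) : ∀ᶠ y in 𝓝[≠] z, B y = m.y b y :=
  ((ev_um z).and (mem_gen.1 (h.sb_eq ▸ a))).mono fun y e => l.eqb y e.1 e.2

theorem Lv.b_ne (a : z ∈ m.sb b) (e : m.Um z) : m.y b z ≠ 0 :=
  DA.eq_off (h.b_mem.1 z) (l.mem.1 z) e (l.ev h a) ▸ l.ne z

theorem Lv.ord_b {k : Ch.Mk ν κ} (hk : m.p k ∈ m.sb b) :
    0 ≤ U k ∧ (bz m.L w).ord (m.y b) (m.p k) = (U k).toNat :=
  DA.ord_at m.inj (h.b_mem.1 _) (l.mem.1 _) (l.ne _) (l.ev h hk)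

theorem Lv.b_ne' {k : Ch.Mk ν κ} (hk : U k = 0) : m.y b (m.p k) ≠ 0 ↔ m.p k ∈ m.sb b :=
  ⟨mem_sb, fun a => (LB.ord_eq_zero (h.b_mem.1 _)).1 (by simp [(l.ord_b h a).2, hk])⟩

theorem Lv.sat : m.Sat (m.sb b) :=
  ⟨h.clopen, fun x a y e => mem_sb ((mem_H0_iff.1 h.b_mem).2 x y e ▸ l.b_ne h a (um_of_jn e))⟩

theorem Lv.mt_sb {q : κ} (a : U (.inr (q, false)) = 0) (e : U (.inr (q, true)) = 0) :
    m.p (.inr (q, false)) ∈ m.sb b ↔ m.p (.inr (q, true)) ∈ m.sb b := by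
  rw [← l.b_ne' h a, ← l.b_ne' h e, h.mtb q]

end lv

section inv

variable {e : m.X ≃ m'.X} {t : R → m.X → ℂ} {τ : S → ℂ}

theorem IsoD.y_eq (i : IsoD W A m m' e t τ) {j : J} (hj : j ∈ A) (x : m.X) :
    m'.y j (e x) = (∏ i, τ i ^ W.wt j i) * (∏ i, t i x ^ W.w j i) * m.y j x := i.y j hj x

theorem IsoD.y_ne (i : IsoD W A m m' e t τ) {j : J} (hj : j ∈ A) (x : m.X) :
    m'.y j (e x) ≠ 0 ↔ m.y j x ≠ 0 := by
  rw [i.y_eq hj, mul_ne_zero_iff_left (mul_ne_zero (prod_zpow_ne (isUnit_pi_iff.1 i.unit) _)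
    (prod_zpow_ne (i.ne · x) _))]

theorem IsoD.um (i : IsoD W A m m' e t τ) : m'.Um (e z) ↔ m.Um z := by
  simp only [Um, ← i.mark, e.injective.ne_iff]

theorem IsoD.sb (i : IsoD W A m m' e t τ) (hb : b ∈ A) : m'.sb b = e '' m.sb b := by
  rw [← e.preimage_eq_iff_eq_image, AM.sb, AM.sb,
    i.liso.isOpenMap.preimage_closure_eq_closure_preimage i.liso.cont]
  exact congrArg _ (Set.ext (i.y_ne hb))

theorem IsoD.degOn_ω (i : IsoD W A m m' e t τ) (V : Set m.X) :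
    degOn m'.ω (e '' V) = degOn m.ω V := by
  by_cases a : IsClopen V
  · obtain ⟨v, -, f, g, -⟩ := AC.exists_omega i.liso i.node i.mark
    rw [← i.liso.degOn_pb e.injective a, eq_comm, ← sub_eq_zero, ← degOn_div]
    exact degOn_of_ne (fun x _ => f.1 x) fun x _ => g x
  · rw [degOn, degOn, dif_neg a, dif_neg fun b => a ((CmpP.clopen i).1 b)]

variable (hb : b ∈ A) (hc : c ∈ A) (wb : W.w b = w) (wc : W.w c = -w)
include hb hc wb wc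

theorem ivtA_nb : IvtA W A fun m : AM Λ R J ν κ => m.Nb w b c := fun _ _ i h =>
  ⟨wb ▸ i.sec_mem hb (wb ▸ h.b_mem), wc ▸ i.sec_mem hc (wc ▸ h.c_mem), by
    obtain ⟨e, t, τ, i⟩ := iso_iff.1 i
    exact e.surjective.forall.2 fun x => by_contra fun a => mul_ne_zero
      ((i.y_ne hb x).1 (left_ne_zero_of_mul a)) ((i.y_ne hc x).1 (right_ne_zero_of_mul a))
        (h.mul x), i.mt hb h.mtb, i.mt hc h.mtc⟩

theorem IsoD.lv (i : IsoD W A m m' e t τ) (h : m.Nb w b c) (l : m.Lv w b c U B) :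
    ∃ B', m'.Lv w b c U B' := by
  classical
  obtain ⟨v, v1, v2, v3, v4⟩ := DA.exists_div (u := U) i.liso e.injective m.inj
  have hα := prod_zpow_ne (isUnit_pi_iff.1 i.unit) (W.wt b)
  have hβ := prod_zpow_ne (isUnit_pi_iff.1 i.unit) (W.wt c)
  have ht := fun x => prod_zpow_ne (i.ne · x) w
  obtain ⟨k, hk⟩ : ∃ k : m.X → ℂ, k = (m.sb b).piecewise (fun _ => ∏ i, τ i ^ W.wt b i)
    ((m.sb c).piecewise (fun _ => (∏ i, τ i ^ W.wt c i)⁻¹) 1) := ⟨_, rfl⟩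
  have k0 : ∀ x y, (x ∈ m.sb b ↔ y ∈ m.sb b) → (x ∈ m.sb c ↔ y ∈ m.sb c) → k x = k y :=
    fun x y a a' => by simp only [hk, piecewise, a, a', Pi.one_apply]
  have k1 : k ∈ H0 m.N (1 : LB m.R) := mem_H0_iff.2 ⟨hk ▸ LB.piecewise_mem h.clopen
    (fun _ _ => LB.sec_one.2 (RS.hol_const _)) fun x _ => LB.piecewise_mem h.symm.clopen
      (fun _ _ => LB.sec_one.2 (RS.hol_const _)) (fun x _ => LB.one_mem x) x,
    fun x y a => k0 x y ((l.sat h).jn a) ((l.symm.sat h.symm).jn a)⟩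
  have k2 : ∀ x, k x ≠ 0 := fun x => by
    simp only [hk, piecewise]
    split_ifs
    exacts [hα, inv_ne_zero hβ, one_ne_zero]
  have s := H0.mul_mem (H0.mul_mem (H0.mul_mem l.mem (mem_H0_iff.2 ⟨v1, fun x y a => by
    rw [v3 x (um_of_jn a), v3 y (um_of_jn a.symm)]⟩))
      (bz_cmp (fun r => ⟨i.mem r, i.ne r, i.mt r⟩) w)) k1
  simp only [i.mark] at s
  rw [div_mul_div_cancel, mul_one, mul_comm (_ / _ : LB m.R), div_mul_div_cancel, ← map_div] at s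
  refine ⟨fun x => (B * v * (fun x => ∏ i, t i x ^ w i) * k) (e.symm x),
    (i.liso.mem0_iff i.node).1 (by simpa only [e.symm_apply_apply] using s), fun x =>
      mul_ne_zero (mul_ne_zero (mul_ne_zero (l.ne _) (v2 _)) (ht _)) (k2 _), fun q a a' => ?_,
    e.surjective.forall.2 fun x a a' => ?_, e.surjective.forall.2 fun x a a' => ?_⟩
  · simp only [← i.mark, e.symm_apply_apply, Pi.mul_apply, l.mt q a a', v4 _ a, v4 _ a',
      fun r => i.mt r q, k0 _ _ (l.mt_sb h a a')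
        (l.symm.mt_sb h.symm (neg_eq_zero.2 a) (neg_eq_zero.2 a'))]
  · rw [i.um] at a
    rw [i.y_ne hb] at a'
    simp only [e.symm_apply_apply, Pi.mul_apply, l.eqb x a a', v3 x a, i.y_eq hb, wb, hk,
      piecewise_eq_of_mem _ _ _ (mem_sb a')]
    ring
  · rw [i.um] at a
    rw [i.y_ne hc] at a'
    simp only [e.symm_apply_apply, Pi.mul_apply, v3 x a, i.y_eq hc, wc, hk, Pi.neg_apply, zpow_neg,
      piecewise_eq_of_notMem _ _ _ (h.symm.disj (mem_sb a')), piecewise_eq_of_mem _ _ _ (mem_sb a'),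
      Finset.prod_inv_distrib]
    refine Eq.trans ?_ (l.eqc x a a')
    field_simp [ht x]

theorem ivtA_spl : IvtA W A (SpU w b c U : AM Λ R J ν κ → Prop) := fun m m' i h => by
  refine ⟨ivtA_nb hb hc wb wc m m' i h.1, ?_⟩
  obtain ⟨e, t, τ, i⟩ := iso_iff.1 i
  obtain ⟨h, ⟨B, l⟩, f⟩ := h
  exact ⟨i.lv hb hc wb wc h l, e.surjective.forall.2 fun x a =>
    (f x (i.um.1 a)).imp (i.y_ne hb x).2 (i.y_ne hc x).2⟩

theorem ivtA_gh : IvtA W A (GhN w b c U : AM Λ R J ν κ → Prop) := fun m m' i h => by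
  refine ⟨ivtA_nb hb hc wb wc m m' i h.1, ?_⟩
  obtain ⟨e, t, τ, i⟩ := iso_iff.1 i
  obtain ⟨h, ⟨B, l⟩, x, f, g, g'⟩ := h
  exact ⟨i.lv hb hc wb wc h l, e x, i.um.2 f, by rw [i.y_eq hb, g, mul_zero],
    by rw [i.y_eq hc, g', mul_zero]⟩

omit hc wb wc in
theorem ivtA_sd : IvtA W A fun m : AM Λ R J ν κ => m.Sd b a d T := fun m m' i h => by
  obtain ⟨e, t, τ, i⟩ := iso_iff.1 i
  simpa only [Sd, i.sb hb, i.degOn_ω, i.degOn_L, ← i.mark, e.injective.mem_set_image] using h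

theorem ivtA_spN : IvtA W A (SpN w b c U a d T : AM Λ R J ν κ → Prop) := fun m m' i h =>
  have k := ivtA_spl hb hc wb wc m m' i ⟨h.1, h.2.1⟩
  ⟨k.1, k.2, ivtA_sd hb m m' i h.2.2⟩

end inv

theorem IvtA.ct {P : AM Λ R J ν (κ ⊕ ε) → Prop} (h : IvtA W A P) : IvtA W A (Ct P) :=
  fun _ _ i ⟨_, a, b⟩ =>
    let ⟨_, _, _, i⟩ := iso_iff.1 i
    ⟨_, i.nds a, h _ _ (i.cut a (i.nds a) fun _ => rfl).iso b⟩

theorem Nb.cut (h : m.Nb w b c) (hn : m.Nds n) : (m.cut hn).Nb w b c :=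
  ⟨((AC.mem_H0_cut hn).1 h.b_mem).1, ((AC.mem_H0_cut hn).1 h.c_mem).1, h.mul,
    (AC.mt_cut hn).2 ⟨h.mtb, ((AC.mem_H0_cut hn).1 h.b_mem).2⟩,
    (AC.mt_cut hn).2 ⟨h.mtc, ((AC.mem_H0_cut hn).1 h.c_mem).2⟩⟩

theorem Nb.of_cut {hn : m.Nds n} (h : (m.cut hn).Nb w b c) : m.Nb w b c :=
  ⟨(AC.mem_H0_cut hn).2 ⟨h.b_mem, ((AC.mt_cut hn).1 h.mtb).2⟩,
    (AC.mem_H0_cut hn).2 ⟨h.c_mem, ((AC.mt_cut hn).1 h.mtc).2⟩, h.mul, ((AC.mt_cut hn).1 h.mtb).1,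
    ((AC.mt_cut hn).1 h.mtc).1⟩

section spl

variable (h : m.Nb w b c) (hs : m.Spl w b c U)
include h hs

theorem Spl.sat : m.Sat (m.sb b) := let ⟨_, l⟩ := hs.1; l.sat h

theorem Spl.sb_c : m.sb c = (m.sb b)ᶜ := by
  refine Subset.antisymm (fun z => h.symm.disj) fun z a => ?_
  rw [h.sb_eq, mem_compl_iff, (h.b_mem.1 z).not_mem_gen] at a
  rw [h.symm.sb_eq]
  exact ((ev_um z).and (a.filter_mono nhdsWithin_le_nhds)).mono fun y e =>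
    (hs.2 y e.1).resolve_left (not_not.2 e.2)

theorem Spl.ord_b {k : Ch.Mk ν κ} (hk : m.p k ∈ m.sb b) :
    0 ≤ U k ∧ (bz m.L w).ord (m.y b) (m.p k) = (U k).toNat := let ⟨_, l⟩ := hs.1; l.ord_b h hk

theorem Spl.ord_c {k : Ch.Mk ν κ} (hk : m.p k ∉ m.sb b) :
    U k ≤ 0 ∧ (bz m.L (-w)).ord (m.y c) (m.p k) = (-U k).toNat :=
  (hs.symm.ord_b h.symm ((hs.sb_c h).ge hk)).imp_left neg_nonneg.1

theorem Spl.b_ne {k : Ch.Mk ν κ} (hk : U k = 0) : m.y b (m.p k) ≠ 0 ↔ m.p k ∈ m.sb b :=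
  let ⟨_, l⟩ := hs.1; l.b_ne' h hk

theorem Spl.ne_iff {k : Ch.Mk ν κ} : U k = 0 ↔ m.y b (m.p k) ≠ 0 ∨ m.y c (m.p k) ≠ 0 := by
  refine ⟨fun a => ?_, fun a => a.elim (fun a => ?_) fun a => ?_⟩
  · rw [hs.b_ne h a, hs.symm.b_ne h.symm (neg_eq_zero.2 a), hs.sb_c h]
    exact em _
  · obtain ⟨e, f⟩ := hs.ord_b h (mem_sb a)
    rw [(LB.ord_eq_zero (h.b_mem.1 _)).2 a, eq_comm, Nat.cast_eq_zero] at f
    omega
  · obtain ⟨e, f⟩ := hs.ord_c h (h.symm.disj (mem_sb a))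
    rw [(LB.ord_eq_zero (h.c_mem.1 _)).2 a, eq_comm, Nat.cast_eq_zero] at f
    omega

open Classical in
theorem Spl.deg : degOn (bz m.L w) (m.sb b) = ∑ k with m.p k ∈ m.sb b, U k ∧
    degOn (bz m.L w) (m.sb b)ᶜ = ∑ k with m.p k ∉ m.sb b, U k :=
  let ⟨_, l⟩ := hs.1
  ⟨DA.degOn_eq h.clopen l.mem.1 l.ne, (DA.degOn_eq h.clopen.compl l.mem.1 l.ne).trans
    (Finset.sum_congr (Finset.ext fun _ => by simp) fun _ _ => rfl)⟩

theorem Spl.not_gh : ¬m.Gh w b c U := fun ⟨_, z, a, e, f⟩ => (hs.2 z a).elim (· e) (· f)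

end spl

open Classical in
/-- a criterion -/
theorem spl_of (h : m.Nb w b c) {Y : Set m.X}
    (hY : m.Sat Y) (hb : ∀ k, m.p k ∈ Y → 0 ≤ U k ∧ (bz m.L w).ord (m.y b) (m.p k) = (U k).toNat)
    (hc : ∀ k, m.p k ∉ Y → U k ≤ 0 ∧ (bz m.L (-w)).ord (m.y c) (m.p k) = (-U k).toNat)
    (h1 : ∀ z ∈ Y, m.Um z → m.y b z ≠ 0) (h2 : ∀ z ∉ Y, m.Um z → m.y c z ≠ 0) :
    m.Spl w b c U ∧ m.sb b = Y := by
  have g1 : Y ⊆ m.sb b := fun z a => h.sb_eq ▸ ((ev_um z).and (mem_nhdsWithin_of_mem_nhds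
    (hY.1.isOpen.mem_nhds a))).mono fun y e => h1 y e.2 e.1
  have g2 : Yᶜ ⊆ m.sb c := fun z a => h.symm.sb_eq ▸ ((ev_um z).and (mem_nhdsWithin_of_mem_nhds
    (hY.1.compl.isOpen.mem_nhds a))).mono fun y e => h2 y e.2 e.1
  have g : m.sb b = Y := Subset.antisymm (fun z a => by_contra fun e => h.disj a (g2 e)) g1
  obtain ⟨B, b1, b2, b3⟩ := DA.exists_lv m.inj h.b_mem.1 hb
  obtain ⟨C, c1, c2, c3⟩ := DA.exists_lv (u := -U) (Y := Yᶜ) m.inj h.c_mem.1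
    fun k a => (hc k a).imp_left neg_nonneg.2
  have b4 : ∀ z ∈ Y, B z ≠ 0 := fun z a => (_root_.em (m.Um z)).elim (fun e => b2 z e ▸ h1 z a e)
    fun e => by
      obtain ⟨k, rfl⟩ := not_um e
      exact (b3 k a).1
  have c4 : ∀ z ∉ Y, C z ≠ 0 := fun z a => (_root_.em (m.Um z)).elim (fun e => c2 z e ▸ h2 z a e)
    fun e => by
      obtain ⟨k, rfl⟩ := not_um e
      exact (c3 k a).1
  have eY : ∀ z ∈ Y, Y.piecewise B C⁻¹ z = B z := fun z => piecewise_eq_of_mem _ _ _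
  have eN : ∀ z ∉ Y, Y.piecewise B C⁻¹ z = (C z)⁻¹ := fun z => piecewise_eq_of_notMem _ _ _
  have hk : ∀ k, U k = 0 → (m.p k ∈ Y ↔ m.y b (m.p k) ≠ 0) := fun k a =>
    ⟨fun e => (b3 k e).2 a ▸ (b3 k e).1, fun e => g ▸ mem_sb e⟩
  refine ⟨⟨⟨Y.piecewise B C⁻¹, mem_H0_iff.2 ⟨LB.piecewise_mem hY.1 b1 fun z a => ?_,
    fun x y a => ?_⟩, fun z => ?_, fun q a a' => ?_, fun z a a' => ?_, fun z a a' => ?_⟩,
    fun z a => (_root_.em (z ∈ Y)).imp (h1 z · a) (h2 z · a)⟩, g⟩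
  · simpa only [DA.inv_div, DA.bz_neg, neg_neg, inv_inv] using (c1 z a).inv (c4 z a)
  · by_cases e : x ∈ Y
    · rw [eY x e, eY y ((hY.jn a).1 e), b2 x (um_of_jn a), b2 y (um_of_jn a.symm),
        (mem_H0_iff.1 h.b_mem).2 x y a]
    · rw [eN x e, eN y (mt (hY.jn a).2 e), c2 x (um_of_jn a), c2 y (um_of_jn a.symm),
        (mem_H0_iff.1 h.c_mem).2 x y a]
  · by_cases e : z ∈ Y
    exacts [eY z e ▸ b4 z e, eN z e ▸ inv_ne_zero (c4 z e)]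
  · have f : m.p (.inr (q, false)) ∈ Y ↔ m.p (.inr (q, true)) ∈ Y := by
      rw [hk _ a, hk _ a', h.mtb q]
    by_cases e : m.p (.inr (q, false)) ∈ Y
    · rw [eY _ e, eY _ (f.1 e), (b3 _ e).2 a, (b3 _ (f.1 e)).2 a', h.mtb q]
    · rw [eN _ e, eN _ (mt f.2 e), (c3 _ e).2 (neg_eq_zero.2 a),
        (c3 _ (mt f.2 e)).2 (neg_eq_zero.2 a'), h.mtc q]
  · rw [eY z (g ▸ mem_sb a'), b2 z a]
  · rw [eN z (g ▸ h.symm.disj (mem_sb a')), c2 z a, inv_mul_cancel₀ a']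

/-- on a ghost component both fields vanish -/
theorem Gh.exists_ev (h : m.Nb w b c) (hg : m.Gh w b c U) :
    ∃ z, ∀ᶠ y in 𝓝 z, m.y b y = 0 ∧ m.y c y = 0 :=
  let ⟨⟨_, l⟩, z, a, e, f⟩ := hg
  ⟨z, ((h.b_mem.1 z).not_mem_gen.1 fun g => l.b_ne h (h.sb_eq ▸ g) a e).and
    ((h.c_mem.1 z).not_mem_gen.1 fun g => l.symm.b_ne h.symm (h.symm.sb_eq ▸ g) a f)⟩

section cut

variable {hn : m.Nds n} {hn' : m.Nds n'}

theorem degOn_cut_ω (V : Set m.X) : degOn (m.toAC.cut hn).ω V = degOn m.ω V :=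
  let ⟨_, a, b, _⟩ := AC.cut_ω hn
  sub_eq_zero.1 ((degOn_div _ _ V).symm.trans (degOn_of_ne (fun x _ => a.1 x) fun x _ => b x))

theorem sd_cut : (m.cut hn).Sd b a d (extT ε T) ↔ m.Sd b a d T ∧
    ∀ e, n (e, false) ∈ m.sb b ∧ n (e, true) ∉ m.sb b := by
  rw [Sd, Sd, degOn_cut_ω (hn := hn), and_assoc, and_assoc]
  refine and_congr_right fun _ => and_congr_right fun _ => ⟨fun f => ⟨?_, fun e =>
    ⟨(f (.inr (.inr e, false))).2 rfl, fun g => Bool.noConfusion ((f (.inr (.inr e, true))).1 g)⟩⟩,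
    fun f => ?_⟩
  · rintro (k | ⟨q, s⟩)
    exacts [f (.inl k), f (.inr (.inl q, s))]
  · rintro (k | ⟨q | e, _ | _⟩)
    exacts [f.1 (.inl k), f.1 (.inr (q, false)), f.1 (.inr (q, true)), iff_of_true (f.2 e).1 rfl,
      iff_of_false (f.2 e).2 Bool.noConfusion]

/-- relabelling the new nodes -/
theorem SpT.perm (σ : ε' ≃ ε) (hs : (m.cut hn).SpT w b c (extU U u) a d (extT ε T)) :
    ∃ hn' : m.Nds fun x : ε' × Bool => n (σ x.1, x.2),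
      (m.cut hn').SpT w b c (extU U (u ∘ σ)) a d (extT ε' T) := by
  have hn' : m.Nds fun x : ε' × Bool => n (σ x.1, x.2) :=
    ⟨hn.inj.comp (σ.prodCongr (Equiv.refl Bool)).injective, fun e => hn.jn _⟩
  let φ : Ch.Mk ν (κ ⊕ ε') ≃ Ch.Mk ν (κ ⊕ ε) :=
    (Equiv.refl ν).sumCongr (((Equiv.refl κ).sumCongr σ).prodCongr (Equiv.refl Bool))
  have hp : ∀ k, (m.cut hn').p k = (m.cut hn).p (φ k) := by rintro (k | ⟨q | e, s⟩) <;> rfl
  have hU : ∀ k, extU U (u ∘ σ) k = extU U u (φ k) := by rintro (k | ⟨q | e, s⟩) <;> rfl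
  have um : ∀ z, (m.cut hn').Um z → (m.cut hn).Um z := fun z a =>
    φ.surjective.forall.2 fun k => hp k ▸ a k
  have hr : (range fun x : ε' × Bool => n (σ x.1, x.2)) = range n :=
    (σ.prodCongr (Equiv.refl Bool)).surjective.range_comp n
  obtain ⟨⟨⟨B, l⟩, f⟩, g⟩ := hs
  refine ⟨hn', ⟨⟨B, ?_, l.ne, ?_, fun z a => l.eqb z (um z a), fun z a => l.eqc z (um z a)⟩,
    fun z a => f z (um z a)⟩, sd_cut.2 ⟨(sd_cut.1 g).1, fun e => (sd_cut.1 g).2 _⟩⟩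
  · have := l.mem
    rw [← φ.prod_comp, ← H0_congr (N := (m.cut hn').N) fun x y => by
      rw [AC.jn_cut hn, AC.jn_cut hn', hr]] at this
    rwa [← Finset.prod_congr rfl fun k _ =>
      congrArg₂ (fun x y => m.R.pt x ^ y) (hp k) (hU k)] at this
  · rintro (q | e)
    exacts [l.mt (.inl q), l.mt (.inr (σ e))]

variable (h : m.Nb w b c) (hu : ∀ e, u e ≠ 0)
include h hu

/-- the new nodes are the common zeros -/
theorem Spl.zero_iff (hs : (m.cut hn).Spl w b c (extU 0 u)) {z : m.X} :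
    m.y b z = 0 ∧ m.y c z = 0 ↔ z ∈ range n := by
  have k : ∀ k, extU 0 u k ≠ 0 ↔ m.y b ((m.cut hn).p k) = 0 ∧ m.y c ((m.cut hn).p k) = 0 :=
    fun k => by rw [Ne, hs.ne_iff (h.cut hn), not_or, not_not, not_not]
  refine ⟨fun a => ?_, ?_⟩
  · obtain ⟨l, rfl⟩ := not_um fun e => (hs.2 z e).elim (· a.1) (· a.2)
    have := (k l).2 a
    rcases l with l | ⟨q | e, s⟩
    exacts [(this rfl).elim, (this rfl).elim, ⟨(e, s), rfl⟩]
  · rintro ⟨⟨e, s⟩, rfl⟩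
    exact (k (.inr (.inr e, s))).1 (by cases s <;> simp [extU, hu])

theorem Spl.exists_spT (hs : (m.cut hn).Spl w b c (extU 0 u)) :
    ∃ a d T, (m.cut hn).SpT w b c (extU 0 u) a d (extT ε T) :=
  ⟨_, _, {k | m.p k ∈ m.sb b}, hs, sd_cut.2 ⟨⟨rfl, fun _ => rfl, fun _ => Iff.rfl⟩, fun e =>
    ⟨by_contra fun a => by
      simpa [extU, hu] using (hs.ord_c (h.cut hn) (k := .inr (.inr e, false)) a).1, fun a => by
      simpa [extU, hu] using (hs.ord_b (h.cut hn) (k := .inr (.inr e, true)) a).1⟩⟩⟩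

theorem SpT.exists_map (hu' : ∀ e, u' e ≠ 0)
    (hs : (m.cut hn).SpT w b c (extU 0 u) a d (extT ε T))
    (hs' : (m.cut hn').SpT w b c (extU 0 u') a' d' (extT ε' T')) (e' : ε') :
    ∃ e, n' (e', false) = n (e, false) := by
  obtain ⟨⟨e, _ | _⟩, f⟩ := (hs.1.zero_iff h hu).1 ((hs'.1.zero_iff h hu').2 ⟨(e', false), rfl⟩)
  exacts [⟨e, f.symm⟩, (((sd_cut.1 hs.2).2 e).2 (f ▸ ((sd_cut.1 hs'.2).2 e').1)).elim]

/-- **the type is unique** -/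
theorem SpT.unique (hu' : ∀ e, u' e ≠ 0) (hs : (m.cut hn).SpT w b c (extU 0 u) a d (extT ε T))
    (hs' : (m.cut hn').SpT w b c (extU 0 u') a' d' (extT ε' T')) : a = a' ∧ d = d' ∧ T = T' ∧
      ∃ σ : ε' ≃ ε, (∀ e s, n' (e, s) = n (σ e, s)) ∧ u' = u ∘ σ := by
  obtain ⟨⟨a1, a2, a3⟩, a4⟩ := sd_cut.1 hs.2
  obtain ⟨⟨b1, b2, b3⟩, b4⟩ := sd_cut.1 hs'.2
  choose σ hσ using hs.exists_map h hu hu' hs'
  refine ⟨a1.symm.trans b1, funext fun r => (a2 r).symm.trans (b2 r),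
    Set.ext fun k => (a3 k).symm.trans (b3 k), Equiv.ofBijective σ ⟨fun e e' f => ?_, fun e => ?_⟩,
    fun e s => ?_, funext fun e => ?_⟩
  · exact congrArg Prod.fst (hn'.inj ((hσ e).trans (f ▸ (hσ e').symm)))
  · obtain ⟨e', f⟩ := hs'.exists_map h hu' hu hs e
    exact ⟨e', congrArg Prod.fst (hn.inj ((hσ e').symm.trans f.symm))⟩
  · cases s
    exacts [hσ e, (hn'.jn e).unique m.nd (hσ e ▸ hn.jn _)]
  · have f := (hs'.1.ord_b (h.cut hn') (k := .inr (.inr e, false)) (b4 e).1).2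
    have g := (hs.1.ord_b (h.cut hn) (k := .inr (.inr (σ e), false)) (a4 _).1).2
    rw [AC.cut_p_new hn', hσ] at f
    exact show u' e = u (σ e) by simpa [extU] using f.symm.trans g

theorem SpT.sum (hs : (m.cut hn).SpT w b c (extU 0 u) a d (extT ε T)) :
    ∑ r, w r * d r = ∑ e, (u e : ℤ) ∧ ∀ q, .inr (q, false) ∈ T ↔ .inr (q, true) ∈ T := by
  obtain ⟨⟨-, a2, a3⟩, a4⟩ := sd_cut.1 hs.2
  obtain ⟨B, l⟩ := hs.1.1
  refine ⟨?_, fun q => by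
    rw [← a3, ← a3]; exact l.mt_sb (h.cut hn) (q := .inl q) rfl rfl⟩
  have := (hs.1.deg (h.cut hn)).1
  rw [bz, degOn_prod, Finset.sum_filter] at this
  simp only [degOn_zpow, Fintype.sum_sum_type, Fintype.sum_prod_type, Fintype.sum_bool,
    extU, Pi.zero_apply, ite_self, Finset.sum_const_zero, zero_add, add_zero] at this
  simp only [← a2]
  refine this.trans (Finset.sum_congr rfl fun e _ => ?_)
  exact (congrArg₂ (· + ·) (if_neg (a4 e).2) (if_pos (a4 e).1)).trans (by simp)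

end cut

end AM

end Vale.Agent.P269
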