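import Vale.Agent.P287Q.G.Spl.GBd
import Vale.Agent.P287Q.G.Glu.Act

/-!
# Gluing on the level of the smooth spaces: the actions
-/

set_option linter.unusedSectionVars false

namespace Vale.Agent.P269

open Set Function Topology Filter Holo Base Cv

variable {S Λ R J K ι ν ν' κ ε : Type} [Fintype S] [Fintype Λ] [Fintype R] [Fintype J] [Fintype K]
  [Fintype ι] [DecidableEq ι] [Fintype ν] [Fintype ν'] [Fintype κ] [Fintype ε]

namespace Ch

variable {ch : Ch ι J} {n : Nm ι J} {W : Wt S Λ R J} {F : Fam S Λ R J K} {j : J}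
  {x : ch.W (Mk ν κ)} {w : ch.Lb n (Mk ν (κ ⊕ ε))} {a : (ch.re n).A ε}
  {T : Set ((ch.re n).WF ν (κ ⊕ ε) Λ)}

theorem Lk.actLb' {x : ch.W ν} {w : ch.Lb n ν'} (h : Lk x w) {s : ch.A ν} {s' : (ch.re n).A ν'}
    (hs : IsUnit s) (hs' : IsUnit s') (c : J → ℂ) :
    Lk (Ch.act s (scl c x)) (Ch.actLb c s s' w) := h.actLb hs hs'

theorem Mt.actLb {x : ch.W ν} {w : ch.Lb n ν'} (h : Mt x w j) {s : ch.A ν} {s' : (ch.re n).A ν'}
    (hs : IsUnit s) (hs' : IsUnit s') (c : J → ℂ) :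
    Mt (Ch.act s (scl c x)) (Ch.actLb c s s' w) j :=
  mm_eq_zero.1 ((mm_actLb hs hs' {j}).trans ((congrArg _ (mm_eq_zero.2 fun _ e => e ▸ h)).trans
    (ρM_zero _ _ _))) j rfl

theorem Gl.actLb' (h : Gl x w) {s : ch.A (Mk ν κ)} {s' : (ch.re n).A (Mk ν (κ ⊕ ε))}
    (hs : IsUnit s) (hs' : IsUnit s') (e : ∀ q, s'.2.2 (inc q) = s.2.2 q)
    (e' : ∀ q, s'.2.2 (nq q false) = s'.2.2 (nq q true)) (c : J → ℂ) :
    Gl (Ch.act s (scl c x)) (Ch.actLb c s s' w) := h.actLb hs hs' e e'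

theorem isUnit_ιH (ha : IsUnit a) : IsUnit (ιH ν κ a) :=
  let ⟨h1, h2, h3⟩ := Cv.isUnit_iff.1 ha
  Cv.isUnit_iff.2 ⟨h1, h2, by
    rintro (q | q | q) i
    exacts [one_ne_zero, one_ne_zero, h3 q i]⟩

theorem actHL_eq (a : (ch.re n).A ε) (w : ch.Lb n (Mk ν (κ ⊕ ε))) :
    actHL a w = actLb 1 (1 : ch.A (Mk ν κ)) (dup (ιH ν κ a)) w :=
  Prod.ext (congrArg (act _) (scl_one w.1).symm) (Prod.ext rfl
    (funext fun l => (congrArg (fun T => a.2.1 l ∘L w.2.2 l ∘L T) (Ring.inverse_one _)).symm))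

theorem GBa.act_scl (x : ch.W ν') : act 1 (scl 1 x) = x := (act_one _).trans (scl_one x)

theorem Gl.actHL (h : Gl x w) (ha : IsUnit a) : Gl x (actHL a w) := by
  have := h.actLb' (s := 1) isUnit_one (isUnit_dup (isUnit_ιH ha)) (by rintro (q | q) <;> rfl)
    (fun _ => rfl) 1
  rwa [GBa.act_scl, ← actHL_eq] at this

theorem Mt.actHL (h : Mt x w j) (ha : IsUnit a) : Mt x (actHL a w) j := by
  have := h.actLb (s := 1) isUnit_one (isUnit_dup (isUnit_ιH (ν := ν) (κ := κ) ha)) 1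
  rwa [GBa.act_scl, ← actHL_eq] at this

theorem GBa.cS_one (W : Wt S Λ R J) : W.cS 1 = 1 :=
  funext fun _ => Finset.prod_eq_one fun _ _ => one_zpow _

theorem θG_ιH (a : (ch.re n).A ε) :
    θG (((1, a) : ch.AF ν κ S × (ch.re n).A ε) : ch.AG n ν κ ε S) = (1, ιH ν κ a) :=
  Prod.ext rfl (Prod.ext rfl (Prod.ext rfl (funext (by rintro (q | q | q) <;> rfl))))

variable (W) in
theorem actG_one (a : (ch.re n).A ε) (z : ch.WG n ν κ ε Λ) :
    actG W ((1, a) : ch.AF ν κ S × (ch.re n).A ε) z = actH a z :=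
  Prod.ext (actF_one _) ((congrArg₂ (fun c (s : (ch.re n).AF ν (κ ⊕ ε) S) =>
    actLb c (1 : ch.A (ν ⊕ κ)) (dup s.2) z.2) (GBa.cS_one W) (θG_ιH a)).trans (actHL_eq a z.2).symm)

variable (W) in
theorem μG_actG' (a : ch.AG n ν κ ε S) (z : ch.WG n ν κ ε Λ) :
    μG (actG W a z) = actF W (θG a) (μG z) := μG_actG

variable (W) in
theorem μG_actH (a : (ch.re n).A ε) (z : ch.WG n ν κ ε Λ) :
    μG (actH a z) = actF W (1, ιH ν κ a) (μG z) :=
  ((congrArg μG (actG_one W a z)).symm.trans (μG_actG' W _ z)).trans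
    (congrArg (actF W · (μG z)) (θG_ιH a))

/-- The inclusion of the small group. -/
noncomputable def GBa.inr (S : Type) (a : (ch.re n).A ε) : ch.AG n ν κ ε S := ((1 : ch.AF ν κ S), a)

theorem GBa.unit (ha : IsUnit a) : IsUnit (GBa.inr S a : ch.AG n ν κ ε S) :=
  AP.isUnit_iff.2 ⟨isUnit_one, ha⟩

theorem GBa.ivt {Z : Set (ch.WG n ν κ ε Λ)} (h : Ivt (actG W) Z) :
    Ivt (actH : (ch.re n).A ε → _) Z := fun a ha z hz =>
  actG_one W a z ▸ h _ (GBa.unit ha) z hz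

instance isActG_univ : IsAct (actG W) (univ : Set (ch.WG n ν κ ε Λ)) := isAct_actG

theorem GBa.isActH (W : Wt S Λ R J) :
    IsAct (actH : (ch.re n).A ε → _) (univ : Set (ch.WG n ν κ ε Λ)) := by
  have e : (actH : (ch.re n).A ε → ch.WG n ν κ ε Λ → _) = fun a z => actG W (GBa.inr S a) z :=
    funext₂ fun a z => (actG_one W a z).symm
  have m : ∀ a b : (ch.re n).A ε,
      (GBa.inr S (a * b) : ch.AG n ν κ ε S) = GBa.inr S a * GBa.inr S b :=
    fun a b => Prod.ext (mul_one (1 : ch.AF ν κ S)).symm rfl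
  rw [e]
  refine ⟨(isActG_univ (W := W)).one, fun a b ha hb z hz => ?_, fun _ _ _ _ => trivial,
    fun a ha z _ => ?_⟩
  · rw [m]
    exact (isActG_univ (W := W)).mul _ _ (GBa.unit ha) (GBa.unit hb) z hz
  · have h : AnalyticAt ℂ (fun p : (ch.re n).A ε × ch.WG n ν κ ε Λ =>
        (GBa.inr S p.1 : ch.AG n ν κ ε S)) (a, z) :=
      AP.an_iff.2 ⟨analyticAt_const (v := (1 : ch.AF ν κ S)),
        analyticAt_fst (𝕜 := ℂ) (p := (a, z))⟩
    exact an_actG h analyticAt_snd (GBa.unit ha)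

instance isActH_univ : IsAct (actH : (ch.re n).A ε → _) (univ : Set (ch.WG n ν κ ε Λ)) :=
  GBa.isActH (S := Empty) (R := Empty) ⟨fun _ _ => 0, fun _ _ => 0, fun _ _ => 0⟩

theorem ivtG_Zb (hT : Ivt (actF F.toWt) T) : Ivt (actG F.toWt) (Zb F T) := ivt_Zb hT

theorem ivtG_Zf (hT : Ivt (actF F.toWt) T) : Ivt (actG F.toWt) (Zf F T) := ivt_Zf hT

theorem ivtG_Zn (hT : Ivt (actF F.toWt) T) : Ivt (actG F.toWt) (Zn F T) := ivt_Zn hT

theorem ivtH_Zb (hT : Ivt (actF F.toWt) T) : Ivt (actH : (ch.re n).A ε → _) (Zb F T) :=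
  GBa.ivt (ivt_Zb hT)

theorem ivtH_Zf (hT : Ivt (actF F.toWt) T) : Ivt (actH : (ch.re n).A ε → _) (Zf F T) :=
  GBa.ivt (ivt_Zf hT)

theorem ivtH_Zn (hT : Ivt (actF F.toWt) T) : Ivt (actH : (ch.re n).A ε → _) (Zn F T) :=
  GBa.ivt (ivt_Zn hT)

end Ch

end Vale.Agent.P269
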