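import Vale.Agent.P287Q.G.Spl.Prj
import Vale.Agent.P269.Base.Vers

/-!
# Versal families for the projected curves
-/

set_option linter.unusedSectionVars false

namespace Vale.Agent.P269

open Set Function Topology Filter Holo Base Cv

/-- coordinates on a manifold whose last part is a given submersion -/
theorem Holo.MfdAt.exists_coord {A B : Type*} [NormedAddCommGroup A] [NormedSpace ℂ A]
    [NormedAddCommGroup B] [NormedSpace ℂ B] [FiniteDimensional ℂ B] {Z : Set A} {m : ℕ} {a : A}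
    (h : MfdAt Z m a) {τ : A → B} (hτ : AnalyticAt ℂ τ a) (h0 : τ a = 0)
    (hs : ∀ t, ∃ c, Arc Z a c ∧ deriv (fun ε => τ (c ε)) 0 = t) :
    ∃ (n : ℕ) (Ψ : (Fin n → ℂ) × B → A) (w : A → (Fin n → ℂ) × B), n + Module.finrank ℂ B = m ∧
      AnalyticAt ℂ Ψ 0 ∧ Ψ 0 = a ∧ AnalyticAt ℂ w a ∧ (∀ v, Ψ v ∈ Z) ∧
      (∀ᶠ v in 𝓝 0, w (Ψ v) = v ∧ τ (Ψ v) = v.2) ∧ ∀ᶠ s in 𝓝 a, s ∈ Z → Ψ (w s) = s := by
  obtain ⟨ha, ψ, h1, h2⟩ := h
  obtain rfl : (ψ 0).1 = a := congrArg Subtype.val h2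
  have h3 : Surjective (fderiv ℂ (fun z => τ (ψ z).1) 0) := fun t => by
    obtain ⟨c, k1, rfl⟩ := hs t
    obtain ⟨v, k2⟩ := h1.tan_eq.le (k1.mem_tan ha)
    refine ⟨v, ?_⟩
    rw [fderiv_comp_an (f := fun z => (ψ z).1) hτ h1.an]
    exact (congrArg (fderiv ℂ τ _) k2).trans (HasFDerivAt.comp_hasDerivAt_of_eq 0
      hτ.differentiableAt.hasFDerivAt k1.an.differentiableAt.hasDerivAt k1.zero.symm).deriv.symm
  have h4 := LinearMap.finrank_le_finrank_of_surjective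
    (f := (fderiv ℂ (fun z => τ (ψ z).1) 0 : (Fin m → ℂ) →ₗ[ℂ] B)) h3
  obtain ⟨σ, -, b1, -, b2, b3⟩ := h1.submersion (f := fun t => τ t.1)
    (hτ.comp (f := fun z => (ψ z).1) h1.an) h3 (Nat.sub_add_cancel h4)
  rw [h0] at b1 b2 b3
  obtain ⟨w, b4, -, b5, b6, -⟩ := b2.exists_inv
  simp only [b1] at b4 b6
  exact ⟨_, fun v => (ψ (σ v)).1, w, (Nat.sub_add_cancel h4).trans (Module.finrank_fin_fun ℂ),
    b2.an, congrArg (fun z => (ψ z).1) b1, b4, fun v => Subtype.prop _, b5.and b3,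
    (Base.ev_sub' b6).mono fun s k hs => congrArg Subtype.val (k hs)⟩

theorem Cv.Nrm.fac_cross {ι : Type} [Fintype ι] {M : ι → ℕ} {o : ι} {C : Set (V M)}
    (hC : IsNodal o C) {c : V M} {γ δ γ' δ' : ℂ → V M} (a : IsCross o C c γ δ)
    (a' : IsCross o C c γ' δ') : (Nrm.Fac γ γ' ∧ Nrm.Fac δ δ') ∨ (Nrm.Fac γ δ' ∧ Nrm.Fac δ γ') := by
  obtain ⟨γ₁, γ₂, l⟩ := Nrm.exists_loc hC (a.2.2.1 ▸ a.1.mem.self_of_nhds : c ∈ C)
  have k : ∀ {β}, IsBranch o C β → β 0 = c →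
      Nrm.J o β 0 = Nrm.J o γ₁ 0 ∨ Nrm.J o β 0 = Nrm.J o γ₂ 0 := fun d e =>
    (l.fac _ d e).imp (·.J_eq l.b1.holo) (·.J_eq l.b2.holo)
  have n := Nrm.ne_of_isCross a
  have n' := Nrm.ne_of_isCross a'
  refine Or.imp (And.imp (Nrm.fac_of_J hC a.1 a'.1) (Nrm.fac_of_J hC a.2.1 a'.2.1))
    (And.imp (Nrm.fac_of_J hC a.1 a'.2.1) (Nrm.fac_of_J hC a.2.1 a'.1)) ?_
  rcases k a.1 a.2.2.1 with h1 | h1 <;> rcases k a.2.1 a.2.2.2.1 with h2 | h2 <;>
    rcases k a'.1 a'.2.2.1 with h3 | h3 <;> rcases k a'.2.1 a'.2.2.2.1 with h4 | h4 <;>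
    simp only [h1, h2, h3, h4, ne_eq, not_true, and_self, true_or, or_true] at n n' ⊢

namespace Ch

variable {J ι ν ν' κ ε : Type} [Fintype J] [Fintype ι] [DecidableEq ι] [Fintype ν] [Fintype ν']
  [Fintype κ] [Fintype ε] {ch : Ch ι J} {i : ι} {b c : J} {h : ch.o ≠ i}

theorem isUnit_frm {g : ∀ l, ch.E l →L[ℂ] ch.E l} (hg : ∀ l, Bijective (g l)) :
    IsUnit ((1, g, 1) : ch.A ν') :=
  Cv.isUnit_iff.2 ⟨fun _ => isUnit_one, fun l => ContinuousLinearMap.isUnit_iff_bijective.2 (hg l),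
    fun _ _ => one_ne_zero⟩

theorem crv_frm {g : ∀ l, ch.E l →L[ℂ] ch.E l} (hg : IsUnit ((1, g, 1) : ch.A ν')) (x : ch.W ν') :
    crv (act (1, g, 1) x) = crv x := (Cv.crv_act hg).trans (image_id _)

theorem bm_frm {g : ∀ l, ch.E l →L[ℂ] ch.E l} (hg : IsUnit ((1, g, 1) : ch.A (Mk ν κ)))
    {x : ch.W (Mk ν κ)} (hx : x ∈ ch.bm ν κ) : act (1, g, 1) x ∈ ch.bm ν κ :=
  ⟨Cv.act_mem_base hx.1 hg, fun q => by
    rw [rsd_act hx.1 hg, rsd_act hx.1 hg, hx.2 q, mul_left_comm]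
    rfl⟩

theorem Prj.frm {x : ch.W ν'} {y : (ch.flat h).W ν'} (H : Prj x y) {g}
    (hg : IsUnit ((1, g, 1) : (ch.flat h).A ν')) : Prj x (act (1, g, 1) y) :=
  let ⟨e, X, _, _, _, R, N, A, π, u, p, ξ, _, a, d⟩ := H
  ⟨fun n => (funext fun _ => one_smul ℂ _).trans (e n), X, _, ‹_›, ‹_›, R, N, A, π, u, p, ξ, _, a,
    d.act hg⟩

theorem Prj.bm (hc : ch.DgC i b c) {x : ch.W (Mk ν κ)} {y : (ch.flat h).W (Mk ν κ)} (H : Prj x y)
    (hx : x ∈ ch.bm ν κ) : y ∈ (ch.flat h).bm ν κ :=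
  ⟨H.mem.2, fun q => by rw [H.rsd hc, H.rsd hc, hx.2 q]⟩

/-- a slice for the action of the frames -/
theorem exists_frm_slice {x : ch.W (Mk ν κ)} {m : ℕ} (hx : MfdAt (ch.bm ν κ) m x) :
    ∃ (Z : Set (ch.W (Mk ν κ))) (n : ℕ) (r : ch.W (Mk ν κ) → ch.W (Mk ν κ)),
      n + ∑ l, ch.h l * ch.h l = m ∧ MfdAt Z n x ∧ Z ⊆ ch.bm ν κ ∧ AnalyticAt ℂ r x ∧ r x = x ∧
      (∀ y ∈ Z, ∀ g, act (1, g, 1) y ∈ Z → act (1, g, 1) y = y) ∧
      ∀ᶠ y in 𝓝 x, (y ∈ ch.bm ν κ → r y ∈ Z) ∧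
        ∃ g, IsUnit ((1, g, 1) : ch.A (Mk ν κ)) ∧ r y = act (1, g, 1) y := by
  choose S hS using fun l => exists_rightInv (hx.1.1.1 l)
  let f : ch.W (Mk ν κ) → ∀ l, ch.E l →L[ℂ] ch.E l := fun y l => y.Q l ∘L S l
  have h1 : f x = 1 := funext fun l => ContinuousLinearMap.ext (hS l)
  have h2 : AnalyticAt ℂ f x := AnalyticAt.pi fun l => an_comp (an_Q l x) analyticAt_const
  have h3 : ∀ g y, f (act (1, g, 1) y) = g * f y := fun _ _ => rfl
  have h4 : ∀ l, Bijective (f x l) := fun l => h1 ▸ bijective_id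
  obtain ⟨n, h5, h6⟩ := hx.sub' (Z := {y | y ∈ ch.bm ν κ ∧ f y - 1 = 0}) (f := fun y => f y - 1)
    (.of_an (h2.sub analyticAt_const)) (sub_eq_zero.2 h1) (fun g _ => Submodule.subset_span (by
      have a1 : AnalyticAt ℂ (fun t : ℂ => 1 + t • g) 0 :=
        analyticAt_const.add (((ContinuousLinearMap.id ℂ ℂ).smulRight g).analyticAt 0)
      refine ⟨fun t => act (1, 1 + t • g, 1) x, ⟨an_act (analyticAt_const.prod
        (a1.prod analyticAt_const)) analyticAt_const, (congrArg (fun g => act (1, g, 1) x)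
          ((congrArg (1 + ·) (zero_smul ℂ g)).trans (add_zero _))).trans (act_one x),
        (eventually_all.2 fun l => eventually_bijective (analyticAt_pi_iff.1 a1 l).continuousAt
          (by simpa using bijective_id)).mono fun t a => bm_frm (isUnit_frm a) hx.1⟩, ?_⟩
      simpa [h3, h1] using ((hasDerivAt_id' (0 : ℂ)).smul_const g).deriv))
    (.of_forall fun _ => Iff.rfl)
  have h7 := finrank_pi_clm ch.E ch.E
  simp only [Module.finrank_fin_fun] at h7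
  refine ⟨_, n, fun y => act (1, fun l => (f y l).inverse, 1) y, h7 ▸ h5, h6, fun _ a => a.1,
    an_act (analyticAt_const.prod ((AnalyticAt.pi fun l => (analyticAt_clm_inverse (h4 l)).comp
      (f := fun y => f y l) (analyticAt_pi_iff.1 h2 l)).prod analyticAt_const)) analyticAt_id, ?_,
    fun y a g d => ?_, ?_⟩
  · simp only [h1]
    exact (congrArg (fun g => act (1, g, 1) x)
      (funext fun _ => ContinuousLinearMap.inverse_id)).trans (act_one x)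
  · rw [show g = 1 by simpa [h3, sub_eq_zero.1 a.2, sub_eq_zero] using d.2]
    exact act_one y
  · filter_upwards [eventually_all.2 fun l => eventually_bijective
      (analyticAt_pi_iff.1 h2 l).continuousAt (h4 l)] with y a
    have d := isUnit_frm (ν' := Mk ν κ) fun l => (isInvertible_of_bijective (a l)).inverse.bijective
    exact ⟨fun e => ⟨bm_frm d e, sub_eq_zero.2 (funext fun l => ContinuousLinearMap.ext
      (isInvertible_of_bijective (a l)).inverse_apply_self)⟩, _, d, rfl⟩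

/-- smooth points that give a frame of a factor -/
theorem exists_li_pts (ht : ch.Tight) {x : ch.W ν'} (hx : x ∈ ch.base ν') (i : ι) :
    ∃ y : Fin (ch.M i) → V ch.M, (∀ j, y j ∈ crv x ∧ ¬IsNode ch.o (crv x) (y j)) ∧
      LinearIndependent ℂ fun j => y j i := by
  obtain ⟨X, _, _, _, R, N, A, π, u, p, ξ, k⟩ := exists_cr hx
  let s : Set (Fin (ch.M i) → ℂ) := (· i) '' {y | y ∈ crv x ∧ ¬IsNode ch.o (crv x) y}
  have h1 : Submodule.span ℂ s = ⊤ := by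
    by_contra d
    obtain ⟨l, e, f⟩ := (Submodule.span ℂ s).exists_dual_map_eq_bot_of_lt_top
      (lt_top_iff_ne_top.2 d) inferInstance
    refine e (congrArg ContinuousLinearMap.toLinearMap (k.full.eq_zero (l := l.toContinuousLinearMap)
      (by exact_mod_cast (k.par.finrank_one k.cur i).trans (ht.eq hx i).symm) fun z => ?_))
    by_contra q
    obtain ⟨y, ⟨a1, a2⟩, a3⟩ := (((k.cur.nod.frequently_not_node (Empty.elim : Empty → _)
      (k.par.mem z)).and_eventually self_mem_nhdsWithin).and_eventually (mem_nhdsWithin_of_mem_nhds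
        (ContinuousAt.eventually_ne (g := fun y : V ch.M => l.toContinuousLinearMap (y i))
          (l.toContinuousLinearMap.continuous.comp (continuous_apply i)).continuousAt q))).exists
    exact a3 ((Submodule.eq_bot_iff _).1 f _ ⟨_, Submodule.subset_span ⟨y, ⟨a2, a1.2⟩, rfl⟩, rfl⟩)
  obtain ⟨f, h2, -, h3⟩ := Submodule.exists_fun_fin_finrank_span_eq ℂ s
  choose y h4 h5 using h2
  have e : ch.M i = Module.finrank ℂ (Submodule.span ℂ s) := by
    rw [h1, finrank_top, Module.finrank_fin_fun]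
  refine ⟨fun j => y (Fin.cast e j), fun j => h4 _, ?_⟩
  simp only [h5]
  exact h3.comp _ (Fin.cast_injective e)

theorem locFam_bm (hc : ch.Cuts) (x₀ : ch.bm ν κ) :
    LocFam ch.o (fun x : ch.bm ν κ => crv x.1) Subtype.val x₀ :=
  LocFam.comp (u := fun y : ch.bm ν κ => (⟨y.1, y.2.1⟩ : ch.base _)) (k := id) (hc.locFam _)
    (continuous_subtype_val.subtype_mk _).continuousAt
    (.of_forall fun _ => continuous_subtype_val.continuousAt) analyticAt_id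
    (.of_forall fun _ => rfl)

/-- **existence of versal families** -/
theorem exists_vs (hc : ch.DgC i b c) (hm : ch.m ch.o ≠ 1) (x₀ : ch.bm ν κ) {γ δ : ε → ℂ → V ch.M}
    (hx : ∀ e, IsCross ch.o (crv x₀.1) (γ e 0) (γ e) (δ e))
    (hi : ∀ e e', Base.Orb (γ e 0) (γ e' 0) → e = e') :
    ∃ (n : ℕ) (Ψ : PV n ε → (ch.flat h).W (Mk ν κ)) (k : _) (σ' : _) (σ : _), Vs x₀ Ψ k σ' σ ∧
      (n + Fintype.card ε : ℤ) = 3 * ch.g - 3 + Fintype.card (Mk ν κ) +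
        (Fintype.card ι - 2) * (ch.g - 1) + (∑ j with j ≠ i, ch.M j * ch.M j : ℕ) +
        Fintype.card (Mk ν κ) * (Fintype.card ι - 1) - Fintype.card κ ∧
      ∀ e, (Nrm.Fac (γ e) fun z => σ e (x₀, (z, 0))) ∧ Nrm.Fac (δ e) fun z => σ e (x₀, (0, z)) := by
  have hn := hc.num₀_flat (h := h) hm
  have hl : ∀ j, 4 ≤ (ch.flat h).a none j := fun j => hc.cut j.1
  have hγ : ∀ e, γ e 0 ∈ crv x₀.1 := fun e => (hx e).1.mem.self_of_nhds
  obtain ⟨pr, p1, p2⟩ := exists_prj (h := h) hc x₀.2.1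
  have H := p2.self_of_nhds x₀.2.1
  obtain ⟨N, n1, n2⟩ := hn.mfdAt H.mem.2
  have i1 : Injective fun q : κ => (.inr (q, true) : Mk ν κ) := fun _ _ e => by simpa using e
  obtain ⟨N', n3, n4⟩ := mfd_res hl hn.χ_ne n2 (n₀ := fun q => .inr (q, false)) i1 (by simp)
    (pow_ne_zero ch.k (neg_ne_zero.2 one_ne_zero)) (H.bm hc x₀.2).2
  obtain ⟨Z, N'', r, n5, n6, z1, r1, r2, z2, r3⟩ := exists_frm_slice n4
  obtain ⟨τ, t1, t2⟩ := hn.exists_tau_res H.mem.2 (n₀ := fun q => .inr (q, false)) i1 (by simp)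
    (H.bm hc x₀.2).2 (c := fun e => pj i (γ e 0)) (fun e => (H.isNode (hγ e)).2 ⟨_, _, hx e⟩)
    fun e e' a => hi e e' (H.orb (hγ e) (hγ e') a)
  obtain ⟨n, Ψ, w, n7, a1, a2, a3, a4, a5, a6⟩ := n6.exists_coord (τ := fun y e => τ e y)
    (AnalyticAt.pi fun e => (t1 e).choose_spec.2.1) (funext fun e => (t1 e).choose_spec.2.2.1)
    fun t => by
      obtain ⟨β, k1, -, k2⟩ := t2 t
      have k3 : Arc Z (pr x₀) fun s => r (β s) :=
        r2 ▸ k1.map (.of_an r1) (r3.mono fun _ a => a.1)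
      have k4 : Arc ((ch.flat h).base _) (pr x₀) fun s => r (β s) :=
        ⟨k3.an, k3.zero, k3.mem.mono fun _ a => (z1 a).1⟩
      refine ⟨_, k3, HasDerivAt.deriv (hasDerivAt_pi.2 fun e => ?_)⟩
      rw [← k2 e, ← deriv_tau_eq hl H.mem.2 (t1 e) k4 ⟨k1.an, k1.zero, k1.mem.mono fun _ a => a.1⟩
        ((k1.ev (r3.mono fun _ a _ => a.2)).mono fun _ ⟨_, a, d⟩ => d ▸ crv_frm a _)]
      exact ((t1 e).choose_spec.2.1.comp_of_eq k3.an k3.zero).differentiableAt.hasDerivAt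
  have b1 : AnalyticAt ℂ (fun x => r (pr x)) x₀.1 := r1.comp p1
  have b2 : AnalyticAt ℂ (fun x => w (r (pr x))) x₀.1 := a3.comp_of_eq b1 r2
  have b3 : w (r (pr x₀)) = 0 := by rw [r2, ← a2, a5.self_of_nhds.1]
  have b4 : ∀ᶠ x in 𝓝 x₀.1, x ∈ ch.bm ν κ → Prj x (Ψ (w (r (pr x)))) := by
    filter_upwards [p2, p1.continuousAt.tendsto.eventually r3,
      (r2 ▸ b1.continuousAt.tendsto :).eventually a6] with x e1 e2 e3 e4
    obtain ⟨g, e5, e6⟩ := e2.2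
    rw [e3 (e2.1 ((e1 e4.1).bm hc e4)), e6]
    exact (e1 e4.1).frm e5
  have hf := locFam_bm hc.cuts x₀
  have b5 : ∀ e, ∃ σ' σ, Chart (ch.flat h).o (fun v => crv (Ψ v)) id 0 σ'
      (fun v => {z : ℂ × ℂ | z.1 * z.2 = v.2 e}) ∧ Chart ch.o (fun x : ch.bm ν κ => crv x.1)
        Subtype.val x₀ σ (fun x => {z : ℂ × ℂ | z.1 * z.2 = (w (r (pr x))).2 e}) ∧
      (∀ q, pj i (σ q) = σ' (w (r (pr q.1)), q.2)) ∧ σ (x₀, 0) = γ e 0 ∧
      (Nrm.Fac (γ e) fun z => σ (x₀, (z, 0))) ∧ Nrm.Fac (δ e) fun z => σ (x₀, (0, z)) := fun e => by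
    obtain ⟨σ₀, c1, -, -, c2⟩ := t1 e
    have c3 := (Chart.comp (u := fun v => (⟨Ψ v, (z1 (a4 v)).1⟩ : (ch.flat h).base _)) (t' := 0)
      (π' := id) (k := Ψ) (by simpa only [a2] using c2) (IsInducing.subtypeVal.continuousAt_iff.2
        a1.continuousAt) a1 (.of_forall fun _ => rfl)).congrX
      (X' := fun v => {z : ℂ × ℂ | z.1 * z.2 = v.2 e})
      (a5.mono fun v a => congrArg (fun t : ε → ℂ => {z : ℂ × ℂ | z.1 * z.2 = t e}) a.2)
    have c4 := (Chart.comp (u := fun x : ch.bm ν κ => w (r (pr x))) (t' := x₀) (π' := Subtype.val)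
      (k := fun x => w (r (pr x))) (b3.symm ▸ c3) (b2.continuousAt.comp
        continuous_subtype_val.continuousAt) b2 (.of_forall fun _ => rfl)).congr
      (C' := fun x => pj i '' crv x.1) continuous_subtype_val.continuousAt
      ((continuousAt_fst.eventually ((Holo.ev_sub x₀.2).2 (b4.mono fun _ a d => a d) :
        ∀ᶠ x : ch.bm ν κ in 𝓝 x₀, Prj x.1 (Ψ (w (r (pr x)))))).mono fun q a => by rw [a.crv])
    obtain ⟨σ, c5, c6, c7⟩ := Chart.exists_lift (r := Subtype.val) (o := (ch.flat h).o) c4 hf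
      Subtype.val_injective (.of_forall fun x => hc.orb x.2.1) (hγ e) (by rw [b3, a2]; exact c1)
    have c8 := c5.isCross (τ := fun x => (w (r (pr x))).2 e) (by rw [b3]; rfl)
      (c6 ▸ crv_ne (hγ e) _)
    rcases Nrm.fac_cross x₀.2.1.2.2.1.isNodal (hx e) (c6 ▸ c8) with c9 | c9
    · exact ⟨_, σ, c3, c5, c7, c6, c9⟩
    · exact ⟨_, _, c3.swap_node continuousAt_id, c5.swap_node continuous_subtype_val.continuousAt,
        fun q => c7 _, c6, c9⟩
  choose σ' σ c1 c2 c3 c4 c5 using b5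
  refine ⟨n, Ψ, _, σ', σ, ⟨a1, b2, b3, .of_forall fun v => z1 (a4 v), b4, ?_, c1, c2,
    fun e => .of_forall fun q _ _ => c3 e q, fun e e' a => hi e e' (c4 e ▸ c4 e' ▸ a)⟩, ?_, c5⟩
  · filter_upwards [continuousAt_fst.eventually b4, continuousAt_snd.eventually a5,
      continuousAt_fst.eventually ((b3 ▸ b2.continuousAt.tendsto :).eventually a5)]
      with q e1 e2 e3 e4 e5
    obtain ⟨g, -, e6⟩ := (e1 e4).unique hc e5
    exact e3.1.symm.trans ((congrArg w (e6.trans (z2 _ (a4 _) g (e6 ▸ a4 _))).symm).trans e2.1)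
  · rw [dimB, finrank_A] at n1
    rw [Module.finrank_fintype_fun_eq_card] at n7
    rw [Finset.sum_subtype (p := fun j => j ≠ i) _ (by simp)]
    have : (Fintype.card {j // j ≠ i} : ℤ) = Fintype.card ι - 1 := by
      have : 0 < Fintype.card ι := Fintype.card_pos_iff.2 ⟨i⟩
      simp only [ne_eq, Fintype.card_subtype_compl, Fintype.card_unique]
      omega
    zify at n3 n5 n7
    push_cast at n1 ⊢
    rw [this] at n1
    simp only [Finset.univ_eq_empty, Finset.sum_empty] at n1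
    linear_combination n7 + n5 + n3 + n1

variable {x₀ : ch.bm ν κ} {n : ℕ} {Ψ : PV n ε → (ch.flat h).W (Mk ν κ)} {k : _} {σ' : _} {σ : _}

theorem Vs.locFam (hc : ch.DgC i b c) (hv : Vs x₀ Ψ k σ' σ) :
    LocFam (ch.flat h).o (fun v => crv (Ψ v)) id 0 :=
  locFam_of_hol (l := none) (fun j => hc.cut j.1) (.of_forall fun _ => continuousAt_id)
    (.of_an hv.anΨ) (hv.mem.mono fun _ a => a.1)

set_option linter.unusedVariables false in
/-- sections of the projected family lift -/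
theorem Vs.exists_lift (hc : ch.DgC i b c) (hv : Vs x₀ Ψ k σ' σ) {c₀ : V ch.M} (h0 : c₀ ∈ crv x₀.1)
    (hn : ¬IsNode ch.o (crv x₀.1) c₀) {m : PV n ε → V (ch.flat h).M} (hm : AnalyticAt ℂ m 0)
    (m0 : m 0 = pj i c₀) (mem : ∀ᶠ v in 𝓝 0, m v ∈ crv (Ψ v)) :
    ∃ z : ch.W (Mk ν κ) → V ch.M, AnalyticAt ℂ z x₀ ∧ z x₀ = c₀ ∧
      ∀ᶠ x in 𝓝 x₀.1, x ∈ ch.bm ν κ → z x ∈ crv x ∧ pj i (z x) = m (k x) := by
  obtain ⟨Λ, h1, h2, h3, h4⟩ := LocFam.exists_lam (r := Subtype.val) (o := (ch.flat h).o)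
    (locFam_bm hc.cuts x₀) Subtype.val_injective (hc.orb x₀.2.1) h0
  have h5 : AnalyticAt ℂ (fun x => (x, m (k x))) x₀.1 :=
    analyticAt_id.prod (hm.comp_of_eq hv.ank hv.k0)
  have h6 : (x₀.1, m (k x₀)) = (x₀.1, pj i c₀) := by rw [hv.k0, m0]
  refine ⟨fun x => Λ (x, m (k x)), h1.comp_of_eq h5 h6, (congrArg Λ h6).trans h2, ?_⟩
  filter_upwards [(h6 ▸ h5.continuousAt.tendsto :).eventually (Base.ev_sub h4), hv.prj,
    (hv.k0 ▸ hv.ank.continuousAt.tendsto :).eventually mem] with x e1 e2 e3 e4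
  exact ⟨e1 e4 ((e2 e4).crv ▸ e3), h3 _⟩

/-- adapted coordinates exist -/
theorem Vs.exists_cd (hc : ch.DgC i b c) (hv : Vs x₀ Ψ k σ' σ) {u γ δ a a'}
    (hg : Gd (ε := ε) x₀.1 b c u γ δ a a') : ∃ D : ch.Cd ν κ h n ε, D.Ok b c x₀ Ψ k := by
  have hC := hg.mem.2.2.1
  have H := hv.prj.self_of_nhds x₀.2
  rw [hv.k0] at H
  have h1 : ∀ y ∈ crv x₀.1, ¬IsNode ch.o (crv x₀.1) y →
      ∃ s : Bool, fld x₀.1 y (if s then b else c) ≠ 0 := fun y d e =>
    (hg.ne y d fun k f => e (hC.nod.isNode_orb ⟨_, _, hg.cross k⟩ f)).elim (⟨true, ·⟩) (⟨false, ·⟩)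
  obtain ⟨y, h2, h3⟩ := exists_li_pts hc.tight hg.mem i
  choose σ₀ h4 h5 using fun j => (hv.locFam hc).smAt (H.mem_crv (h2 j).1)
    fun e => (h2 j).2 ((H.isNode (h2 j).1).1 e)
  have h6 : ∀ j, AnalyticAt ℂ (fun v => σ₀ j (v, 0)) 0 := fun j =>
    (h5 j).an.comp_of_eq (analyticAt_id.prod analyticAt_const) rfl
  have h7 : ∀ j, ∀ᶠ v in 𝓝 0, σ₀ j (v, 0) ∈ crv (Ψ v) := fun j =>
    ((tendsto_inl 0 (0 : ℂ)).eventually (h5 j).mem).mono fun _ d => d trivial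
  choose z h8 h9 h10 using fun j => hv.exists_lift hc (h2 j).1 (h2 j).2 (h6 j) (h4 j) (h7 j)
  choose sd h11 using fun j => h1 _ (h2 j).1 (h2 j).2
  choose sp h12 using fun n => h1 _ (hg.mem.2.2.2.1 n).1 (hg.mem.2.2.2.1 n).2
  choose S hS using fun l => exists_rightInv (hg.mem.1 l)
  exact ⟨⟨z, fun j v => σ₀ j (v, 0), sd, sp, S⟩, h8, h6,
    (eventually_all.2 h10).mono fun _ d e j => d j e, eventually_all.2 h7,
    by simpa only [h9] using h3, fun j => by simpa only [h9] using h11 j, h12,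
    fun l => ⟨fun v w e => (hS l v).symm.trans (e.trans (hS l w)), fun v => ⟨v, hS l v⟩⟩⟩

end Ch

end Vale.Agent.P269
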