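import Vale.Agent.P269.Spl.Dim
import Vale.Agent.P269.Holo.Bundle
import Vale.Agent.P287Q.G.Glu.Defs

/-!
# Gluing on the level of the smooth spaces: linear algebra with parameters, products
-/

set_option linter.unusedSectionVars false

namespace Vale.Agent.P269.GB

open Set Function Topology Filter Holo Module

section lin

variable {P V V' D : Type} [NormedAddCommGroup P] [NormedSpace ℂ P] [NormedAddCommGroup V]
  [NormedSpace ℂ V] [NormedAddCommGroup V'] [NormedSpace ℂ V'] [NormedAddCommGroup D]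
  [NormedSpace ℂ D] [FiniteDimensional ℂ V] [FiniteDimensional ℂ V'] [FiniteDimensional ℂ D]
  {p₀ : P}

/-- the maps that kill a moving subspace -/
theorem cok {φ₀ : V' →L[ℂ] V} (hφ : Surjective φ₀) {d : P → D →L[ℂ] V'} (hd : AnalyticAt ℂ d p₀)
    (hk : ∀ v, φ₀ v = 0 → v ∈ range (d p₀)) (hn : finrank ℂ V' = finrank ℂ V + finrank ℂ D) :
    ∃ (σ : V →L[ℂ] V') (k : P → V' →L[ℂ] V), φ₀ ∘L σ = 1 ∧ AnalyticAt ℂ k p₀ ∧ ∀ᶠ p in 𝓝 p₀,
      k p ∘L σ = 1 ∧ k p ∘L d p = 0 ∧ ∀ φ : V' →L[ℂ] V, φ ∘L d p = 0 → φ = (φ ∘L σ) ∘L k p := by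
  obtain ⟨σ, hσ⟩ := exists_rightInv hφ
  have h1 : AnalyticAt ℂ (fun p => σ.coprod (d p)) p₀ :=
    holAt_id_iff.1 ((HolAt.const σ).coprod (holAt_id_iff.2 hd))
  have h2 : Bijective (σ.coprod (d p₀)) := bijective_of_surjective _ (fun v => by
    obtain ⟨w, e⟩ := hk (v - σ (φ₀ v)) (by rw [map_sub, hσ, sub_self])
    exact ⟨(φ₀ v, w), (congrArg (_ + ·) e).trans (add_sub_cancel _ _)⟩)
    (finrank_prod.trans hn.symm)
  refine ⟨σ, fun p => .fst ℂ V D ∘L (σ.coprod (d p)).inverse, ContinuousLinearMap.ext hσ,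
    an_comp analyticAt_const ((analyticAt_clm_inverse h2).comp (f := fun p => σ.coprod (d p)) h1),
    (eventually_bijective h1.continuousAt h2).mono fun p a => ?_⟩
  have e : ∀ v w, (σ.coprod (d p)).inverse (σ v + d p w) = (v, w) := fun v w =>
    (isInvertible_of_bijective a).inverse_apply_self (v, w)
  refine ⟨ContinuousLinearMap.ext fun v => ?_, ContinuousLinearMap.ext fun w => ?_,
    fun φ b => ContinuousLinearMap.ext fun y => ?_⟩
  · simpa using congrArg Prod.fst (e v 0)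
  · simpa using congrArg Prod.fst (e 0 w)
  · obtain ⟨⟨v, w⟩, rfl⟩ := a.2 y
    exact ((map_add φ _ _).trans ((congrArg (_ + ·) (congrArg (· w) b)).trans (add_zero _))).trans
      (congrArg (fun q : V × D => φ (σ q.1)) (e v w)).symm

/-- the maps into a moving subspace -/
theorem ker {r₀ : V →L[ℂ] V'} (hr : Injective r₀) {d : P → V' →L[ℂ] D} (hd : AnalyticAt ℂ d p₀)
    (hk : ∀ v, d p₀ v = 0 → v ∈ range r₀) (hn : finrank ℂ V' = finrank ℂ V + finrank ℂ D) :
    ∃ (lam : V' →L[ℂ] V) (k : P → V →L[ℂ] V'), lam ∘L r₀ = 1 ∧ AnalyticAt ℂ k p₀ ∧ ∀ᶠ p in 𝓝 p₀,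
      lam ∘L k p = 1 ∧ d p ∘L k p = 0 ∧ ∀ r : V →L[ℂ] V', d p ∘L r = 0 → r = k p ∘L (lam ∘L r) := by
  obtain ⟨l, hl⟩ := ContinuousLinearMap.HasLeftInverse.of_injective_of_finiteDimensional hr
  have h1 : AnalyticAt ℂ (fun p => l.prod (d p)) p₀ :=
    holAt_id_iff.1 ((HolAt.const l).prodL (holAt_id_iff.2 hd))
  have h2 : Bijective (l.prod (d p₀)) := bijective_of_injective _
    ((injective_iff_map_eq_zero _).2 fun v e => by
      obtain ⟨w, rfl⟩ := hk v (congrArg Prod.snd e)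
      rw [show w = 0 from (hl w).symm.trans (congrArg Prod.fst e), map_zero])
    (hn.trans finrank_prod.symm)
  refine ⟨l, fun p => (l.prod (d p)).inverse ∘L .inl ℂ V D, ContinuousLinearMap.ext hl,
    an_comp ((analyticAt_clm_inverse h2).comp (f := fun p => l.prod (d p)) h1) analyticAt_const,
    (eventually_bijective h1.continuousAt h2).mono fun p a => ?_⟩
  have e := (isInvertible_of_bijective a).self_apply_inverse
  exact ⟨ContinuousLinearMap.ext fun v => congrArg Prod.fst (e _),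
    ContinuousLinearMap.ext fun v => congrArg Prod.snd (e _), fun r b =>
      ContinuousLinearMap.ext fun v => a.1 (.trans (b := (l (r v), 0))
        (Prod.ext rfl (congrArg (· v) b)) (e _).symm)⟩

theorem tendsto_one {α : Type*} {l : Filter α} {a : α → V →L[ℂ] V} {T T' : α → D →L[ℂ] V}
    {T₀ : D →L[ℂ] V} (h0 : Surjective T₀) (h : Tendsto T l (𝓝 T₀)) (h' : Tendsto T' l (𝓝 T₀))
    (e : ∀ᶠ x in l, a x ∘L T x = T' x) : Tendsto a l (𝓝 1) := by
  obtain ⟨S, hS⟩ := exists_rightInv h0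
  have h1 : Bijective (T₀ ∘L S) := ⟨fun v w e => (hS v).symm.trans (e.trans (hS w)),
    fun v => ⟨v, hS v⟩⟩
  have h2 : ContinuousAt (fun q : D →L[ℂ] V => q ∘L S) T₀ :=
    continuousAt_id.clm_comp continuousAt_const
  have h3 : ContinuousAt (fun q : (D →L[ℂ] V) × (D →L[ℂ] V) => (q.1 ∘L S) ∘L (q.2 ∘L S).inverse)
      (T₀, T₀) := (continuousAt_fst.clm_comp continuousAt_const).clm_comp
    ((analyticAt_clm_inverse h1).continuousAt.comp_of_eq
      (continuousAt_snd.clm_comp continuousAt_const) rfl)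
  have h4 := h3.tendsto.comp (h'.prodMk_nhds h)
  rw [show (T₀ ∘L S) ∘L (T₀ ∘L S).inverse = 1 from
    ContinuousLinearMap.ext (isInvertible_of_bijective h1).self_apply_inverse] at h4
  refine h4.congr' ?_
  filter_upwards [e, h.eventually (eventually_bijective h2 h1)] with x b c
  exact ContinuousLinearMap.ext fun v => (DFunLike.congr_fun b _).symm.trans
    (congrArg (a x) ((isInvertible_of_bijective c).self_apply_inverse v))

theorem tendsto_one' {α : Type*} {l : Filter α} {a : α → ℂ} {v v' : α → V} {v₀ : V} (h0 : v₀ ≠ 0)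
    (h : Tendsto v l (𝓝 v₀)) (h' : Tendsto v' l (𝓝 v₀)) (e : ∀ᶠ x in l, a x • v x = v' x) :
    Tendsto a l (𝓝 1) := by
  obtain ⟨μ, hμ⟩ := SeparatingDual.exists_ne_zero (R := ℂ) h0
  have h1 := (μ.continuous.tendsto _).comp h
  refine (div_self hμ ▸ ((μ.continuous.tendsto _).comp h').div h1 hμ).congr' ?_
  filter_upwards [e, h1.eventually_ne hμ] with x b c
  exact (div_eq_iff c).2 ((congrArg μ b.symm).trans (map_smul μ _ _))

end lin

variable {W W' B : Type} [NormedAddCommGroup W]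
  [NormedSpace ℂ W] [NormedAddCommGroup W'] [NormedSpace ℂ W'] [NormedAddCommGroup B]
  [NormedSpace ℂ B] [FiniteDimensional ℂ W] [FiniteDimensional ℂ W']
  [FiniteDimensional ℂ B] {Z : Set W} {T : Set W'} {f : W → W'} {z : W} {m : ℕ}

theorem mfd_slice (h : MfdAt Z m z) (q : W →L[ℂ] B) (j : B →L[ℂ] W) (hq : ∀ b, q (j b) = b)
    (stb : ∀ y ∈ Z, ∀ b, y + j b ∈ Z) (h0 : q z = 0) :
    ∃ n, n + finrank ℂ B = m ∧ MfdAt {y | y ∈ Z ∧ q y = 0} n z :=
  have := FiniteDimensional.complete ℂ W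
  h.sub' (.of_an (q.analyticAt z)) h0 (fun b _ => Submodule.subset_span
    ⟨fun t => z + j (t • b), ⟨analyticAt_const.add ((j.analyticAt _).comp
      (analyticAt_id.smul analyticAt_const)), by simp, .of_forall fun _ => stb z h.1 _⟩, by
      simpa [h0, hq] using ((hasDerivAt_id' (0 : ℂ)).smul_const b).deriv⟩)
    (.of_forall fun _ => Iff.rfl)

theorem dimLt_slice (h : DimLt (m + finrank ℂ B) Z) (q : W →L[ℂ] B) (j : B →L[ℂ] W)
    (hq : ∀ b, q (j b) = b) (stb : ∀ y ∈ Z, ∀ b, y + j b ∈ Z) :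
    DimLt m {y | y ∈ Z ∧ q y = 0} :=
  .of_prod isOpen_univ univ_nonempty ((h.image_an (f := fun y => (y - j (q y), q y)) fun y _ =>
    (analyticAt_id.sub ((j.analyticAt _).comp (q.analyticAt y))).prod (q.analyticAt y)).mono
      fun y a => ⟨y.1 + j y.2, stb _ a.1.1 _, by simp [a.1.2, hq]⟩)

theorem mfd_lift {Ψ : W' × B → W} {Θ : W → B} (h : SmoAt Z T f Ψ Θ z) (hz : z ∈ Z)
    (maps : MapsTo f Z T) (hT : MfdAt T m (f z)) : MfdAt Z (m + finrank ℂ B) z := by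
  have := FiniteDimensional.complete ℂ W
  have := FiniteDimensional.complete ℂ (W' × B)
  have e := h.left.self_of_nhds hz
  exact e ▸ (hT.prod (.univ (Θ z))).iso' (G := fun y => (f y, Θ y)) (.of_an h.an)
    (e.symm ▸ h.hol.prod h.holΘ) (h.right.mono fun q a b => ⟨(a b.1).1, Prod.ext (a b.1).2.1
      (a b.1).2.2⟩) (e.symm ▸ h.left.mono fun y a b => ⟨⟨maps b, trivial⟩, a b⟩)

theorem dimLt_lift (maps : MapsTo f Z T) (h : ∀ z ∈ Z, ∃ (Ψ : W' × B → W) (Θ : W → B),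
    ContinuousAt f z ∧ ContinuousAt Θ z ∧ AnalyticAt ℂ Ψ (f z, Θ z) ∧
      ∀ᶠ y in 𝓝 z, y ∈ Z → Ψ (f y, Θ y) = y) (hT : DimLt m T) :
    DimLt (m + finrank ℂ B) Z := .of_locally fun z hz => by
  have := FiniteDimensional.complete ℂ W
  obtain ⟨Ψ, Θ, h1, h2, h3, h4⟩ := h z hz
  exact ⟨_, h4.and ((h1.prodMk h2).eventually h3.eventually_analyticAt),
    (hT.prod.image_an' Ψ).mono fun y a => ⟨(f y, Θ y), ⟨⟨maps a.1, trivial⟩, a.2.2⟩, a.2.1 a.1⟩⟩

theorem smo_of (maps : MapsTo f Z T)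
    (h : ∀ z ∈ Z, ∃ (Ψ : W' × B → W) (Θ : W → B), SmoAt Z T f Ψ Θ z) :
    Smo Z T f (finrank ℂ B) := ⟨maps, fun z hz => by
  obtain ⟨Ψ, Θ, k⟩ := h z hz
  let e : (Fin (finrank ℂ B) → ℂ) ≃L[ℂ] B := .ofFinrankEq (finrank_fin_fun ℂ)
  have h1 : AnalyticAt ℂ (fun q : W' × (Fin (finrank ℂ B) → ℂ) => (q.1, e q.2))
      (f z, e.symm (Θ z)) := analyticAt_fst.prod ((e.analyticAt _).comp analyticAt_snd)
  have h2 : (f z, e (e.symm (Θ z))) = (f z, Θ z) := by rw [e.apply_symm_apply]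
  refine ⟨fun q => Ψ (q.1, e q.2), fun y => e.symm (Θ y), k.hol,
    k.holΘ.comp_an hz (e.symm.analyticAt _), k.an.comp_of_eq h1 h2,
    by simpa only [e.apply_symm_apply] using k.left,
    ((h2 ▸ h1.continuousAt.tendsto :).eventually k.right).mono fun q a b =>
      ⟨(a b).1, (a b).2.1, e.symm_apply_eq.2 (a b).2.2⟩⟩⟩

end Vale.Agent.P269.GB
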