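import Vale.Agent.P287Q.G.Spl.GBd
import Vale.Agent.P287Q.G.Spl.GBl
import Vale.Agent.P287Q.G.Spl.Ver

/-!
# Gluing on the level of the smooth spaces: rigidity
-/

set_option linter.unusedSectionVars false

namespace Vale.Agent.P269

open Set Function Topology Filter Holo Base Cv

variable {S Λ R J K ι ν ν' κ ε : Type} [Fintype S] [Fintype Λ] [Fintype R] [Fintype J] [Fintype K]
  [Fintype ι] [DecidableEq ι] [Fintype ν] [Fintype ν'] [Fintype κ] [Fintype ε]

namespace GBr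

theorem exists_unit {Y : Type*} [TopologicalSpace Y] {M : ι → ℕ} {u v : Y → V M} {x : Y}
    (hu : ContinuousAt u x) (hv : ContinuousAt v x) (h0 : ∀ i, u x i ≠ 0) :
    ∃ s : Y → ι → ℂ, ContinuousAt s x ∧ ∀ᶠ y in 𝓝 x, ∀ t : ι → ℂ, v y = t • u y → s y = t := by
  choose l hl using fun i => Function.ne_iff.1 (h0 i)
  have a : ∀ {w : Y → V M}, ContinuousAt w x → ∀ i, ContinuousAt (fun y => w y i (l i)) x :=
    fun hw i => continuousAt_pi.1 (continuousAt_pi.1 hw i) (l i)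
  refine ⟨fun y i => v y i (l i) / u y i (l i),
    continuousAt_pi.2 fun i => (a hv i).div (a hu i) (hl i), ?_⟩
  filter_upwards [eventually_all.2 fun i => (a hu i).eventually_ne (hl i)] with y hy t ht
  funext i
  rw [ht]
  exact mul_div_cancel_right₀ _ (hy i)

theorem cont_apV {M M' : ι → ℕ} : Continuous fun q : HV M M' × V M => apV q.1 q.2 :=
  continuous_pi fun i => ((continuous_apply i).comp continuous_fst).clm_apply
    ((continuous_apply i).comp continuous_snd)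

theorem tendsto_one {α β E : Type} [Fintype β] [NormedAddCommGroup E] [NormedSpace ℂ E]
    [FiniteDimensional ℂ E] {l : Filter α} {a : α → E →L[ℂ] E} {v : α → β → E} {v₀ : β → E}
    (h0 : Submodule.span ℂ (range v₀) = ⊤) (h : ∀ k, Tendsto (v · k) l (𝓝 (v₀ k)))
    (h' : ∀ k, Tendsto (fun x => a x (v x k)) l (𝓝 (v₀ k))) : Tendsto a l (𝓝 1) := by
  let B : (β → E) → (β → ℂ) →L[ℂ] E := fun u =>
    ∑ k, (ContinuousLinearMap.proj k : (β → ℂ) →L[ℂ] ℂ).smulRight (u k)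
  have e : ∀ u t, B u t = ∑ k, t k • u k := fun u t => by simp [B]
  have c : Continuous B := continuous_finsetSum _ fun k _ =>
    (ContinuousLinearMap.smulRightL ℂ (β → ℂ) E (.proj k)).continuous.comp (continuous_apply k)
  refine GB.tendsto_one (T₀ := B v₀) (fun y => ?_) ((c.tendsto _).comp (tendsto_pi_nhds.2 h))
    ((c.tendsto _).comp (tendsto_pi_nhds.2 h'))
    (.of_forall fun x => ContinuousLinearMap.ext fun t => ?_)
  · obtain ⟨t, ht⟩ := (Submodule.mem_span_range_iff_exists_fun ℂ).1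
      (h0.ge (Submodule.mem_top (x := y)))
    exact ⟨t, (e _ _).trans ht⟩
  · simp only [ContinuousLinearMap.comp_apply, comp_apply, e, map_sum, map_smul]

variable {ch : Ch ι J} {n : Nm ι J} {x : ch.W (Ch.Mk ν κ)} {w : ch.Lb n (Ch.Mk ν (κ ⊕ ε))}

theorem cont_1 : Continuous fun w : ch.Lb n ν' => w.1 := continuous_fst

theorem cont_2 : Continuous fun w : ch.Lb n ν' => w.2.1 := continuous_snd.fst

/-- the fibres over smooth points are single points -/
theorem eq_smul (h : Ch.Gl x w) {c d : V n.M} (hm : c ∈ Ch.crv w.1)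
    (hn : ¬IsNode ch.o (Ch.crv x) (apV w.2.1 c)) (hd : d ∈ Ch.crv w.1) {s : ι → ℂ}
    (e : apV w.2.1 c = s • apV w.2.1 d) : c = s • d := by
  obtain ⟨C, A, π, u, ξ, ξ', a⟩ := h.exists_gd
  obtain ⟨y, t, ht, rfl⟩ := (a.cr'.par.img c).1 hm
  obtain ⟨y', t', ht', rfl⟩ := (a.cr'.par.img d).1 hd
  rw [apV_smul, apV_smul, smul_smul] at e
  rw [apV_smul, a.cr.par.isNode_iff ht, not_not] at hn
  obtain rfl : y = y' := (a.cr.par.fibre ht e).resolve_right fun k => Jn.not_sm k hn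
  rw [smul_smul]
  exact congrArg (· • π y) (funext fun i => smul_left_injective ℂ (a.cr.par.ne y i) (congrFun e i))

/-- points that span a factor and stay smooth on the glued curve -/
theorem exists_span (ok : Ch.GOk ch n) (h : Ch.Gl x w) (i : ι) : ∃ (m : ℕ) (c : Fin m → V n.M),
    (∀ k, c k ∈ Ch.crv w.1 ∧ ¬IsNode ch.o (Ch.crv w.1) (c k) ∧
      ¬IsNode ch.o (Ch.crv x) (apV w.2.1 (c k))) ∧ Submodule.span ℂ (range (c · i)) = ⊤ := by
  obtain ⟨C, A, π, u, ξ, ξ', a⟩ := h.exists_gd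
  let s : Set (Fin (n.M i) → ℂ) := (π · i) '' {y | Sm C.glue.N y}
  have h1 : Submodule.span ℂ s = ⊤ := by
    by_contra d
    obtain ⟨l, e, f⟩ := (Submodule.span ℂ s).exists_dual_map_eq_bot_of_lt_top
      (lt_top_iff_ne_top.2 d) inferInstance
    refine e (congrArg ContinuousLinearMap.toLinearMap (a.cr'.full.eq_zero
      (l := l.toContinuousLinearMap) (by exact_mod_cast
        (a.cr'.par.finrank_one a.cr'.cur i).trans (ok.tight'.eq h.mem' i).symm) fun z => ?_))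
    exact ((lin_mem a.cr'.par.sec i l.toContinuousLinearMap).1 z).eq_of_ev ((A i).Γ.zero_mem z)
      ((Xi.ev_sm C.glue.N ∅ z).mono fun y hy =>
        (Submodule.eq_bot_iff _).1 f _ ⟨_, Submodule.subset_span ⟨y, hy.1, rfl⟩, rfl⟩)
  obtain ⟨f, h2, h3, -⟩ := Submodule.exists_fun_fin_finrank_span_eq ℂ s
  choose y h4 h5 using h2
  refine ⟨_, fun k => π (y k), fun k => ⟨a.cr'.par.mem _, fun b => ?_, fun b => ?_⟩, ?_⟩
  · exact (a.cr'.par.isNode_iff (t := 1) fun _ => one_ne_zero).1 (by rwa [one_smul])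
      (AC.sm_glue.1 (h4 k)).1
  · exact (a.cr.par.isNode_iff (t := 1) fun _ => one_ne_zero).1 (by rwa [one_smul]) (h4 k)
  · simp only [h5]
    exact h3.trans h1

/-- moving points -/
theorem exists_mov (hc : ch.Cuts) {x : ch.W ν'} (hx : x ∈ ch.base ν') {c : V ch.M}
    (hm : c ∈ Ch.crv x) (hn : ¬IsNode ch.o (Ch.crv x) c) : ∃ z : ch.W ν' → V ch.M,
      Tendsto z (𝓝 x) (𝓝 c) ∧ ∀ᶠ y in 𝓝 x, y ∈ ch.base ν' → z y ∈ Ch.crv y := by
  obtain ⟨σ, rfl, k⟩ := (hc.locFam ⟨x, hx⟩).smAt hm hn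
  exact ⟨fun y => σ (y, 0), k.an.continuousAt.tendsto.comp (Continuous.prodMk_left 0).continuousAt,
    ev_sub' (x := ⟨x, hx⟩) (p := fun y => σ (y.1, 0) ∈ Ch.crv y.1)
      (((Continuous.prodMk_left (0 : ℂ)).tendsto _).eventually (k.mem.mono fun _ a => a trivial))⟩

theorem isUnit_H {a : (ch.re n).A ε} (ha : IsUnit a) : IsUnit (Ch.dup (Ch.ιH ν κ a)) := by
  obtain ⟨h1, h2, h3⟩ := Cv.isUnit_iff.1 ha
  refine Cv.isUnit_iff.2 ⟨h1, h2, ?_⟩
  rintro (q | ⟨q | q, b⟩) i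
  exacts [one_ne_zero, one_ne_zero, h3 q i]

end GBr

namespace Ch

open GBr

variable {ch : Ch ι J} {n : Nm ι J} {x : ch.W (Mk ν κ)} {w : ch.Lb n (Mk ν (κ ⊕ ε))}

/-- points over a point near a smooth point of the glued curve -/
theorem Gl.lift (hc : ch.Cuts) (h : Gl x w) {c : V n.M} (hm : c ∈ crv w.1)
    (hn : ¬IsNode ch.o (crv x) (apV w.2.1 c)) {U : Set (V n.M)} (hU : U ∈ 𝓝 c) :
    ∀ᶠ q : ch.Lb n (Mk ν (κ ⊕ ε)) × V ch.M in 𝓝 (w, apV w.2.1 c), q.1.1 ∈ (ch.re n).base _ →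
      ∀ d ∈ crv q.1.1, apV q.1.2.1 d = q.2 → d ∈ U := by
  have hc' : (ch.re n).Cuts := ⟨hc.ne, hc.cut⟩
  let T := {q : ch.Lb n (Mk ν (κ ⊕ ε)) × V ch.M // q.1.1 ∈ (ch.re n).base _}
  let t₀ : T := ⟨(w, apV w.2.1 c), h.mem'⟩
  have c1 : Continuous fun t : T => t.1.1.1 := cont_1.comp continuous_subtype_val.fst
  have f : LocFam ch.o (fun t : T => crv t.1.1.1) (fun t => t.1.1.1) t₀ :=
    LocFam.comp (u := fun t : T => (⟨t.1.1.1, t.2⟩ : (ch.re n).base _)) (k := id) (hc'.locFam _)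
      (c1.subtype_mk _).continuousAt (.of_forall fun _ => c1.continuousAt) analyticAt_id
      (.of_forall fun _ => rfl)
  have ne : ∀ d ∈ crv w.1, ∀ i, apV w.2.1 d i ≠ 0 := fun d hd =>
    crv_ne (h.crv_eq.ge (mem_image_of_mem _ hd))
  have cu : Continuous fun q : T × V n.M => apV q.1.1.1.2.1 q.2 := cont_apV.comp
    ((cont_2.comp (continuous_subtype_val.fst.comp continuous_fst)).prodMk continuous_snd)
  have cv : Continuous fun q : T × V n.M => q.1.1.2 :=
    continuous_subtype_val.snd.comp continuous_fst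
  have k := f.compact (p := fun q => ∀ s : ι → ℂ, (∀ i, s i ≠ 0) →
    q.1.1.2 = s • apV q.1.1.1.2.1 q.2 → s • q.2 ∈ U) (fun d hd => ?_)
    (.of_forall fun t s hs d _ a r hr e => ?_)
  · exact (ev_sub' (x := t₀) k).mono fun q a b d hd e => one_smul (ι → ℂ) d ▸
      a b d hd 1 (fun _ => one_ne_zero) (e.symm.trans (one_smul _ _).symm)
  · by_cases o : Orb (apV w.2.1 d) (apV w.2.1 c)
    · obtain ⟨s₀, -, e⟩ := o
      obtain ⟨s, s1, s2⟩ := GBr.exists_unit (x := (t₀, d)) cu.continuousAt cv.continuousAt (ne d hd)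
      have e' : s (t₀, d) • d = c := (s2.self_of_nhds _ e).symm ▸ (eq_smul h hm hn hd e).symm
      filter_upwards [s2, (s1.smul continuousAt_snd).eventually (e'.symm ▸ hU :)]
        with q a b _ r _ g using a r g ▸ b
    · exact (((cu.prodMk cv).tendsto (t₀, d)).eventually
        (eventually_not_orb (ne d hd) (ne c hm) o)).mono fun q a _ r hr g => (a ⟨r, hr, g⟩).elim
  · have b : (r * s⁻¹) * s = r := funext fun i => inv_mul_cancel_right₀ (hs i) (r i)
    have := a (r * s⁻¹) (fun i => mul_ne_zero (hr i) (inv_ne_zero (hs i)))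
      (by rw [apV_smul, smul_smul, b]; exact e)
    rwa [smul_smul, b] at this

/-- **rigidity** -/
theorem Gl.rig (ok : GOk ch n) (h : Gl x w) {O : Set ((ch.re n).A ε)} (hO : O ∈ 𝓝 1) :
    ∀ᶠ q : ch.Lb n (Mk ν (κ ⊕ ε)) × ch.Lb n (Mk ν (κ ⊕ ε)) in 𝓝 (w, w),
      q.1.1 ∈ (ch.re n).base _ → ∀ a, IsUnit a → Ch.actHL a q.1 = q.2 → a ∈ O := by
  let α := (ch.Lb n (Mk ν (κ ⊕ ε)) × ch.Lb n (Mk ν (κ ⊕ ε))) × (ch.re n).A ε
  let F : Filter α := comap Prod.fst (𝓝 (w, w)) ⊓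
    𝓟 {z | z.1.1.1 ∈ (ch.re n).base _ ∧ IsUnit z.2 ∧ Ch.actHL z.2 z.1.1 = z.1.2}
  have f0 : Tendsto Prod.fst F (𝓝 (w, w)) := tendsto_comap.mono_left inf_le_left
  have f1 : Tendsto (fun z : α => z.1.1) F (𝓝 w) := (continuous_fst.tendsto _).comp f0
  have f2 : Tendsto (fun z : α => z.1.2) F (𝓝 w) := (continuous_snd.tendsto _).comp f0
  have g1 : Tendsto (fun z : α => z.1.1.1) F (𝓝 w.1) := (cont_1.tendsto _).comp f1
  have g2 : Tendsto (fun z : α => z.1.2.1) F (𝓝 w.1) := (cont_1.tendsto _).comp f2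
  have ev : ∀ᶠ z in F, z.1.1.1 ∈ (ch.re n).base _ ∧ IsUnit z.2 ∧ Ch.actHL z.2 z.1.1 = z.1.2 :=
    mem_inf_of_right (mem_principal_self _)
  have t1 : Tendsto (fun z : α => z.2.1) F (𝓝 1) := tendsto_pi_nhds.2 fun i => by
    obtain ⟨m, c, c1, c2⟩ := exists_span ok h i
    choose y y1 y2 using fun k => exists_mov ok.cuts' h.mem' (c1 k).1 (c1 k).2.1
    refine GBr.tendsto_one (v := fun z k => y k z.1.1.1 i) c2
      (fun k => tendsto_pi_nhds.1 ((y1 k).comp g1) i) fun k => tendsto_pi_nhds.1 (show Tendsto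
        (fun (z : α) j => z.2.1 j (y k z.1.1.1 j)) F (𝓝 (c k)) from tendsto_def.2 fun U hU => ?_) i
    filter_upwards [ev, g1.eventually (y2 k), (f2.prodMk_nhds ((cont_apV.tendsto _).comp
      (((cont_2.tendsto _).comp f1).prodMk_nhds ((y1 k).comp g1)))).eventually
        (h.lift ok.cuts (c1 k).1 (c1 k).2.2 hU)] with z ⟨a1, a2, a3⟩ b d
    rw [← a3] at d
    exact d (Cv.act_mem_base a1 (isUnit_H a2)) _
      ((Cv.crv_act (isUnit_H a2)).ge (mem_image_of_mem _ (b a1)))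
      (funext fun j => congrArg (z.1.1.2.1 j) (inv_ap ((Cv.isUnit_iff.1 a2).1 j) _))
  have g3 : Tendsto (fun z : α => Ch.act ((z.2.1, 1) : (ch.re n).A (Mk ν (κ ⊕ ε))) z.1.1.1) F
      (𝓝 w.1) := act_one w.1 ▸
    (continuous_act.tendsto (1, w.1)).comp ((t1.prodMk_nhds tendsto_const_nhds).prodMk_nhds g1)
  have cQ := fun l => (W.an_Q (analyticAt_id (z := w.1)) l).continuousAt.tendsto
  have cp := fun e i => (analyticAt_pi_iff.1
    (W.an_p (analyticAt_id (z := w.1)) (nq e false)) i).continuousAt.tendsto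
  have t2 : Tendsto (fun z : α => z.2.2.1) F (𝓝 1) := tendsto_pi_nhds.2 fun l =>
    GB.tendsto_one (h.mem'.1 l) ((cQ l).comp g3) ((cQ l).comp g2) (ev.mono fun z a => by
      rw [comp_apply, comp_apply, ← a.2.2]; rfl)
  have t3 : Tendsto (fun z : α => z.2.2.2) F (𝓝 1) :=
    tendsto_pi_nhds.2 fun e => tendsto_pi_nhds.2 fun i =>
      GB.tendsto_one' (crv_ne (h.mem'.2.2.2.1 (nq e false)).1 i) ((cp e i).comp g3)
        ((cp e i).comp g2) (ev.mono fun z a => by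
          rw [comp_apply, comp_apply, ← a.2.2]
          exact congrArg _ (one_smul _ _))
  have t : ∀ᶠ z in F, z.2 ∈ O := (t1.prodMk_nhds (t2.prodMk_nhds t3)).eventually hO
  exact (eventually_comap.1 (eventually_inf_principal.1 t)).mono fun q k a1 a a2 a3 =>
    k (q, a) rfl ⟨a1, a2, a3⟩

theorem Gl.freeH (ok : GOk ch n) (h : Gl x w) {a : (ch.re n).A ε} (ha : IsUnit a)
    (e : Ch.actHL a w = w) : a = 1 := by_contra fun k =>
  (h.rig ok (compl_singleton_mem_nhds (Ne.symm k))).self_of_nhds h.mem' a ha e rfl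

end Ch

end Vale.Agent.P269
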