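import Vale.Agent.P287Q.G.Spl.Geo2
import Vale.Agent.P269.Clos.Eta
import Vale.Agent.P269.Pt.Glue
import Vale.Agent.P287Q.G.Map.Hol
import Vale.Agent.P269.Base.MerPar

/-!
# Limits of the main stratum in the special fibre
-/

set_option linter.unusedSectionVars false

namespace Vale.Agent.P269

open Set Function Topology Filter Holo Base Cv

/-- a multiplicative choice of leading coefficients of sequences -/
theorem exists_lev {α : Type*} (U : Filter α) [U.NeBot] {t : α → ℂ} (ht : Tendsto t U (𝓝 0))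
    (h0 : ∀ᶠ n in U, t n ≠ 0) : ∃ L : (α → ℂ) → ℂ, (∀ f, (∀ᶠ n in U, f n ≠ 0) → L f ≠ 0) ∧
      (∀ f g k, k ≠ 0 → Tendsto (fun n => f n / g n) U (𝓝 k) → L f = k * L g) ∧ L 1 = 1 ∧
        L t = 1 := by
  classical
  let r (f g : α → ℂ) : Prop := ∃ k ≠ 0, Tendsto (fun n => f n / g n) U (𝓝 k)
  have one : ∀ f : α → ℂ, (∀ᶠ n in U, f n ≠ 0) → Tendsto (fun n => f n / f n) U (𝓝 1) :=
    fun f h => tendsto_const_nhds.congr' (h.mono fun n a => (div_self a).symm)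
  have mul : ∀ {f g h : α → ℂ} {k k'}, k ≠ 0 → Tendsto (fun n => f n / g n) U (𝓝 k) →
      Tendsto (fun n => g n / h n) U (𝓝 k') → Tendsto (fun n => f n / h n) U (𝓝 (k * k')) :=
    fun a b c => (b.mul c).congr' ((b.eventually_ne a).mono fun n e =>
      div_mul_div_cancel₀ (div_ne_zero_iff.1 e).2)
  have sy : ∀ {f g}, r f g → r g f := fun ⟨k, a, b⟩ =>
    ⟨_, inv_ne_zero a, (b.inv₀ a).congr fun n => inv_div _ _⟩
  have tr : ∀ {f g h}, r f g → r g h → r f h := fun ⟨k, a, b⟩ ⟨k', a', b'⟩ =>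
    ⟨_, mul_ne_zero a a', mul a b b'⟩
  let ρ (f : α → ℂ) : α → ℂ := if r f 1 then 1 else if r f t then t else Classical.epsilon (r f)
  have h1 : ∀ {f g}, r f g → ρ f = ρ g := fun {f g} a => by
    simp only [ρ, show r f = r g from funext fun h => propext ⟨tr (sy a), tr a⟩]
  have h2 : ∀ {f}, r f f → r f (ρ f) := fun {f} a => by
    simp only [ρ]
    split_ifs with b c
    exacts [b, c, Classical.epsilon_spec ⟨f, a⟩]
  refine ⟨fun f => limUnder U fun n => f n / ρ f n, fun f a => ?_, fun f g k a b => ?_, ?_, ?_⟩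
  · obtain ⟨k, b, c⟩ := h2 ⟨1, one_ne_zero, one f a⟩
    exact c.limUnder_eq.trans_ne b
  · obtain ⟨k', -, c⟩ := h2 (tr (sy ⟨k, a, b⟩) ⟨k, a, b⟩)
    simp only [h1 ⟨k, a, b⟩, c.limUnder_eq, (mul a b c).limUnder_eq]
  · have a := one 1 (.of_forall fun _ => one_ne_zero)
    simp only [ρ, if_pos (show r 1 1 from ⟨1, one_ne_zero, a⟩), a.limUnder_eq]
  · have a : ¬r t 1 := fun ⟨k, a, b⟩ => a (tendsto_nhds_unique (by simpa using b) ht)
    simp only [ρ, if_neg a, if_pos (show r t t from ⟨1, one_ne_zero, one t h0⟩),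
      (one t h0).limUnder_eq]

theorem Clos.Ord.tends {f : ℂ → ℂ} {a : ℂ} (h : Clos.Ord 0 f a) : Tendsto f (𝓝[≠] 0) (𝓝 a) := by
  obtain ⟨-, g, h1, rfl, h2⟩ := h
  exact (h1.continuousAt.tendsto.mono_left nhdsWithin_le_nhds).congr'
    (h2.mono fun z e => by rw [e, zpow_zero, one_mul])

/-- the limit of nowhere vanishing sections, normalised level by level -/
theorem exists_lev_sec {ι : Type} [Fintype ι] {M : ι → ℕ} {T P : Type*} [TopologicalSpace T]
    [NormedAddCommGroup P] [NormedSpace ℂ P] [FiniteDimensional ℂ P] {o : ι} {C : T → Set (V M)}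
    {π : T → P} {t₀ : T} {X : Type} [TopologicalSpace X] [T2Space X] [CompactSpace X] {R : RS X}
    {N : Finset (X × X)} {A : ι → LB R} {p : X → V M} {α : Type*} {U : Ultrafilter α} {t : α → T}
    {χ : ι → ℤ} {x₀ : Empty → X} {u : Empty → ℤ} {q : α → Empty → V M} {β : α → V M → ℂ}
    (H : Clos.Ctx o C π t₀ N A p U t χ x₀ u q β) {L : (α → ℂ) → ℂ}
    (L0 : ∀ f, (∀ᶠ n in U, f n ≠ 0) → L f ≠ 0)
    (L1 : ∀ f g k, k ≠ 0 → Tendsto (fun n => f n / g n) U (𝓝 k) → L f = k * L g) :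
    ∃ (w : X → ℤ) (B : X → ℂ), (∀ x y, Jn N x y → w y = -w x) ∧ (∀ x, Sm N x → w x = 0) ∧
      (∀ x, B x ≠ 0) ∧ (∀ x, Vz (w x) ((bz A χ).loc B x) (B x)) ∧
      (∀ x y, Jn N x y → w x = 0 → B x = B y) ∧
      ∀ x, Sm N x → ∀ s : ι → ℂ, (∀ i, s i ≠ 0) → ∀ y : α → V M, Tendsto y U (𝓝 (s • p x)) →
        (∀ᶠ n in U, y n ∈ C (t n)) → L (fun n => β n (y n)) = chz χ s * B x := by
  obtain ⟨lam, B, w, lc, l0, -, wN, sm, od, nd⟩ := H.eta
  replace sm := fun x h => sm x h fun k => k.elim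
  have wJ : ∀ x y, Jn N x y → w y = -w x := fun x y e =>
    e.elim (wN _) fun a => by rw [wN _ a, neg_neg]
  have ev : ∀ x, ∀ᶠ z in 𝓝[≠] 0, Sm N (R.i x z) := fun x =>
    (R.ev_ne_iff.1 (Clos.ev_ordi (N := N) (x₀ := x₀) x)).mono fun _ e => e.1
  have key : ∀ x z, Sm N (R.i x z) → ∀ s : ι → ℂ, (∀ i, s i ≠ 0) →
      B (s • br A p x z) = chz χ s * (bz A χ).loc (fun y => B (p y)) x z := fun x z h s hs => by
    rw [br_eq, smul_smul, ((sm _ h).2.2.2 (s * _) fun i =>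
      mul_ne_zero (hs i) (inv_ne_zero ((A i).ne _ _))).1]
    simp only [chz, Pi.mul_apply, mul_zpow, Finset.prod_mul_distrib, LB.loc, bz_φ, inv_zpow,
      Finset.prod_inv_distrib, div_eq_inv_mul, mul_assoc]
  have key' : ∀ x, ∀ᶠ z in 𝓝[≠] 0, B (br A p x z) = (bz A χ).loc (fun y => B (p y)) x z :=
    fun x => (ev x).mono fun z e => by simpa using key x z e 1 fun _ => one_ne_zero
  choose a ha using fun x => od x (br A p x) ⟨1, id, analyticAt_const, analyticAt_id,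
    fun _ => one_ne_zero, rfl, by simp, .of_forall fun z => (one_smul _ _).symm⟩
  have a1 : ∀ x, Sm N x → a x = B (p x) := fun x h =>
    (tendsto_nhds_unique_of_eventuallyEq ((sm x h).1 ▸ ha x :).tends
      ((sm x h).2.1.continuousAt.tendsto.mono_left nhdsWithin_le_nhds) (key' x)).trans LB.loc_zero
  have a2 : ∀ x δ b, w x = 0 → Nrm.Fac (br A p x) δ → δ 0 = p x → Clos.Ord (w x) (B ∘ δ) b →
      b = a x := by
    rintro x δ b e ⟨s, φ, h1, h2, h3, h4, h5, h6⟩ h7 h8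
    have h9 : Tendsto φ (𝓝[≠] 0) (𝓝[≠] 0) := by
      simpa only [h4] using h2.differentiableAt.hasDerivAt.tendsto_nhdsNE h5
    have s1 : s 0 = 1 := Dict.smul_cancel (H.par.ne x) (by
      simpa only [one_smul, h7, h4, br_zero] using h6.self_of_nhds.symm)
    have := (((analyticAt_chz (χ := χ) h3).continuousAt.tendsto.comp
      h1.continuousAt.tendsto).mono_left nhdsWithin_le_nhds).mul ((e ▸ ha x :).tends.comp h9)
    rw [s1, chz_one, one_mul] at this
    refine tendsto_nhds_unique_of_eventuallyEq (e ▸ h8 :).tends this ?_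
    filter_upwards [nhdsWithin_le_nhds h6, h9.eventually ((ev x).and (key' x)), nhdsWithin_le_nhds
      (eventually_all.2 fun i => (continuousAt_pi.1 h1.continuousAt i).eventually_ne (h3 i))]
      with z b1 b2 b3
    simp only [comp_apply, b1, b2.2, key x _ b2.1 _ b3]
  refine ⟨w, fun x => L (lam x) * a x, wJ, fun x h => (sm x h).1,
    fun x => mul_ne_zero (L0 _ (.of_forall (l0 x))) (ha x).1, fun x => ?_, fun x y e e0 => ?_,
    fun x h s hs y h1 h2 => ?_⟩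
  · obtain ⟨-, g, g1, g2, g3⟩ := ha x
    refine ⟨fun z => L (lam x) * g z, analyticAt_const.mul g1, congrArg _ g2, ?_⟩
    filter_upwards [g3, ev x, key' x, nhdsWithin_le_nhds (R.ev_iff.1 (lc.eventually_eq x))]
      with z b1 b2 b3 b4
    rw [mul_left_comm, ← b1, comp_apply, b3, LB.loc, LB.loc, b4, a1 _ b2, mul_div_assoc]
  · obtain ⟨σ, τ, c1, c2, c3, c4, c5, c6⟩ := Clos.exists_node_chart H.fam H.par e
    obtain ⟨b, O⟩ := od _ _ c5
    obtain ⟨b', O'⟩ := od _ _ c6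
    have h1 := (nd x y e σ τ c1 c2 c3 c5 c6 b b' O O').2
    obtain rfl := a2 _ _ _ e0 c5 c4 O
    obtain rfl := a2 _ _ _ (by rw [wJ x y e, e0, neg_zero]) c6
      (c4.trans (e.elim (node_eq H.par.sec) fun a => (node_eq H.par.sec a).symm)) O'
    simp only
    rw [L1 (lam y) (lam x) _ (div_ne_zero (ha x).1 (ha y).1) ((one_mul (a x / a y)) ▸
      (h1.mul_const (a x / a y)).congr fun n => ?_), mul_comm, div_mul_eq_mul_div,
      div_mul_cancel₀ _ (ha y).1]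
    rw [e0, zpow_zero]
    field_simp [(ha x).1, (ha y).1]
  · obtain ⟨-, -, b0, b1⟩ := sm x h
    obtain ⟨b1, -, b2⟩ := b1 s hs
    simp only
    rw [L1 _ (lam x) _ (b1 ▸ mul_ne_zero (chz_ne_zero hs) b0) (b2 y h1 h2), b1, a1 x h, mul_assoc,
      mul_comm (B _), chz]

variable {S Λ Λ₀ R J K ι ν κ ε : Type} [Fintype S] [Fintype Λ] [Fintype Λ₀] [Fintype R] [Fintype J]
  [Fintype K] [Fintype ι] [DecidableEq ι] [Fintype ν] [Fintype κ] [Fintype ε]

/-- the nodes with non zero order, oriented -/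
theorem AC.exists_nds_ord (c : AC ν κ) {w : c.X → ℤ} (h1 : ∀ x y, Jn c.N x y → w y = -w x)
    (h2 : ∀ x, Sm c.N x → w x = 0) : ∃ (r : ℕ) (u : Fin r → ℕ) (n : Fin r × Bool → c.X)
      (hn : c.Nds n), (∀ e, u e ≠ 0) ∧ (∀ k, w ((c.cut hn).p k) = extU 0 u k) ∧
        ∀ x, w x ≠ 0 → x ∈ range n := by
  have ex : ∀ x, w x ≠ 0 → ∃ y, Jn c.N x y := fun x a => by simpa [sm_iff] using mt (h2 x) a
  have fin : Finite {x // 0 < w x} := by
    refine Set.Finite.subset ((c.N.finite_toSet.image Prod.fst).union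
      (c.N.finite_toSet.image Prod.snd)) fun x hx => ?_
    obtain ⟨y, a | a⟩ := ex x (ne_of_gt hx)
    exacts [.inl ⟨_, a, rfl⟩, .inr ⟨_, a, rfl⟩]
  obtain ⟨r, ⟨e⟩⟩ := Finite.exists_equiv_fin {x // 0 < w x}
  choose y hy using fun k : Fin r => ex _ (e.symm k).2.ne'
  have ne : ∀ k k', (e.symm k).1 ≠ y k' := fun k k' a => by
    have b := (e.symm k).2
    have b' := (e.symm k').2
    rw [a, h1 _ _ (hy k')] at b
    omega
  have hn : c.Nds fun a : Fin r × Bool => cond a.2 (y a.1) (e.symm a.1) := by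
    refine ⟨?_, hy⟩
    rintro ⟨k, _ | _⟩ ⟨k', _ | _⟩ a
    · exact Prod.ext (e.symm.injective (Subtype.ext a)) rfl
    · exact (ne _ _ a).elim
    · exact (ne _ _ a.symm).elim
    · rw [e.symm.injective (Subtype.ext ((hy k).symm.unique c.nd
        ((show y k = y k' from a) ▸ (hy k').symm)))]
  refine ⟨r, fun k => (w (e.symm k)).toNat, _, hn, fun k => ?_, ?_, fun x a => ?_⟩
  · exact mt Int.toNat_eq_zero.1 (e.symm k).2.not_ge
  · rintro (a | ⟨q | k, _ | _⟩)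
    exacts [h2 _ (c.sm _), h2 _ (c.sm _), h2 _ (c.sm _), (Int.toNat_of_nonneg (e.symm k).2.le).symm,
      (h1 _ _ (hy k)).trans (congrArg _ (Int.toNat_of_nonneg (e.symm k).2.le).symm)]
  · rcases a.lt_or_gt with b | b
    · obtain ⟨x', d⟩ := ex x a
      have b' : 0 < w x' := by rw [h1 _ _ d]; omega
      have := hy (e ⟨x', b'⟩)
      rw [e.symm_apply_apply] at this
      exact ⟨(e ⟨x', b'⟩, true), this.unique c.nd d.symm⟩
    · exact ⟨(e ⟨x, b⟩, false), congrArg Subtype.val (e.symm_apply_apply _)⟩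

namespace Ch

variable {ch : Ch ι J} {W : Wt S Λ R J} {ℓ : R → ι → ℤ} {i : ι} {b c : J}

/-- **the level structure of a limit** -/
theorem type_lim (hc : ch.Dg W ℓ i b c) {α : Type} {U : Ultrafilter α} {x : α → ch.W (Mk ν κ)}
    {t : α → ℂ} {x₀ : ch.WF ν κ Λ} (hx : Tendsto x U (𝓝 x₀.2)) (ht : Tendsto t U (𝓝 0))
    (h : ∀ᶠ n in U, Bc (x n) b c (t n) ∧ t n ≠ 0) (h₀ : Bc x₀.2 b c 0) {m : AM Λ R J ν κ}
    (hm : Rep ℓ {b, c} x₀ m) : ∃ (r : ℕ) (u : Fin r → ℕ) (n : Fin r × Bool → m.X) (hn : m.Nds n),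
      (∀ e, u e ≠ 0) ∧ ∃ B, (m.cut hn).Lv (W.w b) b c (extU 0 u) B := by
  obtain ⟨A, π, v, s, d⟩ := hm.exists_data h₀.mem.1
  obtain ⟨y, hy⟩ := Eventually.choice (r := fun n (y : ch.base (Mk ν κ)) => x n = y.1)
    (h.mono fun n a => ⟨⟨_, a.1.mem.1⟩, rfl⟩)
  replace hx := hx.congr' hy
  replace h : ∀ᶠ n in U, Bc (y n).1 b c (t n) ∧ t n ≠ 0 := (h.and hy).mono fun n a => a.2 ▸ a.1
  have hy : Tendsto y U (𝓝 ⟨x₀.2, h₀.mem.1⟩) := tendsto_subtype_rng.2 hx
  have ne : ∀ᶠ n in U, ∀ z ∈ crv (y n).1, fld (y n).1 z b ≠ 0 := h.mono fun n a z hz =>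
    left_ne_zero_of_mul (a.1.mul z hz ▸ a.2)
  have fam := locFam_base hc.cut ⟨x₀.2, h₀.mem.1⟩
  have H : Clos.Ctx ch.o (fun y : ch.base (Mk ν κ) => crv y.1) Subtype.val ⟨x₀.2, h₀.mem.1⟩ m.N A π
      U y (ch.wd b) Empty.elim Empty.elim (fun _ => Empty.elim) fun n z => fld (y n).1 z b :=
    ⟨fam, d.cr.par, hy, fun k => k.elim, fun k => k.elim, fun k => k.elim,
      (h.and ne).mono fun n a => ⟨fun k => k.elim, fun _ hs z hz => fld_smul hz (a.1.1.scb z hz) hs,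
        fun γ hγ _ => ⟨an_fld (y n).2 a.1.1.scb hγ, a.2 _ hγ.mem.self_of_nhds⟩, fun k => k.elim⟩⟩
  obtain ⟨L, L0, L1, L2, L3⟩ := exists_lev U.1 ht (h.mono fun _ a => a.2)
  obtain ⟨w, B, w1, w2, B0, B1, B2, B3⟩ := exists_lev_sec H L0 L1
  obtain ⟨r, u, n, hn, u0, w3, w4⟩ := m.exists_nds_ord w1 w2
  have sec : ∀ z, w z = 0 → (bz A (ch.wd b)).Sec B z := fun z e => by
    obtain ⟨g, g1, g2, g3⟩ := B1 z
    exact g1.congr (eventuallyEq_nhds_of_eventuallyEq_nhdsNE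
      (g3.mono fun _ a => by rw [a, e, zpow_zero, one_mul]) (g2.trans LB.loc_zero.symm))
  have um : ∀ z, (∀ k, z ≠ (m.cut hn).p k) → w z = 0 := fun z e => by_contra fun a =>
    let ⟨k, f⟩ := w4 z a; e (.inr (.inr k.1, k.2)) f.symm
  have ext : ∀ f : m.X → ℂ, (∀ z, Sm m.N z → f z ≠ 0 → B z = f z) → ∀ z, w z = 0 →
      (bz A (ch.wd b)).Sec f z → f z ≠ 0 → B z = f z := fun f e z e1 e2 e3 => by
    have := m.R.neBot z
    refine sub_eq_zero.1 (((sec z e1).sub e2).zero_or_ne.elim (fun k => k.self_of_nhds) fun k => ?_)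
    obtain ⟨z', k1, k2, k3⟩ := (k.and ((Xi.ev_sm m.N ∅ z).and
      (nhdsWithin_le_nhds (e2.ev_ne e3)))).exists
    exact (k1 (sub_eq_zero.2 (e z' k2.1 k3))).elim
  have lim : ∀ z, Sm m.N z → ∃ q : α → V ch.M, (∀ᶠ n in U, q n ∈ crv (y n).1) ∧
      L (fun n => fld (y n).1 (q n) b) = B z ∧ ∀ j ∈ ({b, c} : Set J), (∀ᶠ n in U, Sc (y n).1 j) →
        Tendsto (fun n => fld (y n).1 (q n) j) U (𝓝 (m.y j z)) := fun z e => by
    obtain ⟨q, q1, q2⟩ := fam.exists_approx (d.cr.par.mem z)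
    refine ⟨fun n => q (y n), hy.eventually q2, (B3 z e 1 (fun _ => one_ne_zero) _
      (by rw [one_smul]; exact q1.comp hy) (hy.eventually q2)).trans (by rw [chz_one, one_mul]),
      fun j hj hs => ?_⟩
    obtain ⟨Φ, p1, p2⟩ := exists_fldU h₀.mem.1.1 (d.cr.par.ne z) j
    have p3 := hx.prodMk_nhds (q1.comp hy)
    rw [← d.cr.fld_π (d.ind j hj), p2.self_of_nhds (d.cr.par.mem z) ⟨_, d.val hj z⟩]
    refine (p1.continuousAt.tendsto.comp p3).congr' ?_
    filter_upwards [p3.eventually p2, hy.eventually q2, hs] with n a1 a2 a3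
      using (a1 a2 (a3 _ a2)).symm
  refine ⟨r, u, n, hn, u0, B, ?_, B0, ?_, fun z e => ext _ (fun z e e' => ?_) z (um z e)
    ((d.cr.ind_mem (d.ind b (.inl rfl))).1 z), fun z e e' => ?_⟩
  · rw [div_eq_mul_inv, ← ((d.eqv_wd hc.lat.wd b).mul (.refl _)).H0, ← div_eq_mul_inv]
    refine ⟨fun z => ?_, fun a ha => ?_⟩
    · by_cases e : ∀ k, z ≠ (m.cut hn).p k
      · rw [LB.Sec, MerP.loc_off e]
        exact sec z (um z e)
      · obtain ⟨k, rfl⟩ : ∃ k, z = (m.cut hn).p k := by simpa only [not_forall, not_not] using e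
        obtain ⟨g, g1, g2, g3⟩ := B1 ((m.cut hn).p k)
        refine g1.congr (eventuallyEq_nhds_of_eventuallyEq_nhdsNE ?_ (g2.trans LB.loc_zero.symm))
        filter_upwards [g3, MerP.loc_at (u := extU 0 u) (s := B) (L := bz A (ch.wd b))
          (m.cut hn).inj k, self_mem_nhdsWithin] with z e1 e2 e3
        exact mul_left_cancel₀ (zpow_ne_zero _ e3) ((w3 k ▸ e1).symm.trans e2)
    · classical
      obtain ⟨a1, a2⟩ := Finset.mem_filter.1 ha
      exact B2 _ _ (.inl a1) (by_contra fun e => a2 (w4 _ e))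
  · rintro (q | k) e -
    · have p1 : ∀ a, L (fun n => fld (y n).1 ((y n).1.p a) b) =
          chz (ch.wd b) (s (a.map id Prod.fst)) * B (m.p a) := fun a =>
        B3 _ (m.sm a) _ (d.ne _) _
          (d.mark a ▸ (Ch.W.an_p analyticAt_id a).continuousAt.tendsto.comp hx) (.of_forall fun n => ((y n).2.2.2.2.1 a).1)
      refine mul_left_cancel₀ (chz_ne_zero (χ := ch.wd b) (d.ne (.inr q)))
        ((p1 (.inr (q, false))).symm.trans (.trans ?_ (p1 (.inr (q, true)))))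
      rw [L1 _ _ 1 one_ne_zero (tendsto_const_nhds.congr' ?_), one_mul]
      filter_upwards [h, ne] with n a1 a2
      rw [a1.1.mtb q, div_self (a2 _ ((y n).2.2.2.2.1 _).1)]
    · exact (u0 k (Int.natCast_eq_zero.1 e)).elim
  · obtain ⟨q, -, q2, q3⟩ := lim z e
    rw [← q2, L1 _ 1 _ e' (by simpa using q3 b (.inl rfl) (h.mono fun _ a => a.1.scb)), L2, mul_one]
  · refine (mul_eq_one_iff_eq_inv₀ e').2 (ext (m.y c)⁻¹ (fun z e e' => ?_) z (um z e) ?_
      (inv_ne_zero e'))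
    · obtain ⟨q, q1, q2, q3⟩ := lim z e
      rw [← q2, L1 _ t _ e' (((q3 c (.inr rfl) (h.mono fun _ a => a.1.scc)).inv₀
        (mt inv_eq_zero.2 e')).congr' ?_), L3, mul_one]
      filter_upwards [h, ne, q1] with n a1 a2 a3
      rw [← a1.1.mul _ a3, div_mul_cancel_left₀ (a2 _ a3)]
    · have := ((d.cr.ind_mem (d.ind c (.inr rfl))).1 z).inv e'
      rwa [hc.wc, ← neg_one_zsmul, bz_smul, zpow_neg_one, inv_inv] at this

end Ch

end Vale.Agent.P269
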