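import Vale.Agent.P287Q.G.Spl.NFQA
import Vale.Agent.P287Q.G.Asm.Mon
import Vale.Agent.P269.Bas.Cmp

/-!
# Calculus of the integrals over closures of strata
-/

set_option linter.unusedSectionVars false

namespace Vale.Agent.P269

open P291Z Set Function Topology Filter

variable {S Λ R J K ι ν κ α V : Type} [Fintype S] [Fintype Λ] [Fintype R] [Fintype J] [Fintype K]
  [Fintype ι] [DecidableEq ι] [Fintype ν] [Fintype κ] [AddCommGroup V] [Module ℂ V]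

theorem ind_univ' {Y : Type} : ind (univ : Set Y) = 1 := by
  rw [← fn_one]
  refine Subtype.ext (funext fun l => ?_)
  rcases l with _ | ⟨y, _ | ⟨z, l⟩⟩ <;> simp [ind, fn]

namespace Fam

variable [DecidableEq R] {F : Fam S Λ R J K} {k D : ℕ} {g : ℤ} {d : R → ℤ}
  {Q : AM Λ R J ν κ → Prop} {fs fs' fs₀ : List (Fac F.toWt ν κ)}

variable (F k D g d Q) in
/-- The solutions in the closure of the locus `Q`. -/
abbrev ZP : Set ((F.sch ν κ k D g d).WF ν κ Λ) :=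
  (F.sch ν κ k D g d).solF ν κ F ∩ (F.sch ν κ k D g d).clP F ℓs Q

theorem intQ_eq (hD : F.BigD k D) : F.intQ k D g d Q fs =
    ev (Ch.virF F (F.tdeg (F.sch ν κ k D g d)) _) (fs.map (F.coch (F.ZP k D g d Q))).prod := by
  rw [intQ, intS, Ch.selQ_true (chart_lat hD) inter_subset_left, ind_univ', one_mul]

theorem intM_eq (hD : F.BigD k D) (u : ν → J → ℕ) : F.intM k D g d u fs =
    ev (F.vir κ k D g d u) (fs.map (F.coch (F.Zs κ k D g d u))).prod := by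
  rw [intM, intg, sel_true hD, ind_univ', one_mul]

theorem Nice.sg {δ : J → ℕ} (h : F.Nice δ) (hc : F.Cp) (hk : F.Big k) : F.Sg k :=
  ⟨h.toGood, h.reg, h.sm, hc, hk⟩

/-- compact invariant sets of parameters have compact sets of representatives -/
theorem Good.exists_cp_sub (h : F.Good) {B' : Set (Λ → ℂ)} (hB : B' ⊆ F.B)
    (hi : ∀ τ, IsUnit τ → ∀ l ∈ B', F.actL τ l ∈ B') (hc : CompactSpace (F.Bs B')) :
    ∃ T ⊆ B', IsCompact T ∧ ∀ l ∈ B', ∃ τ, IsUnit τ ∧ F.actL τ l ∈ T := by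
  have := h.fpB
  have : Holo.IsAct F.actL B' := Holo.IsAct.mono F.isActL (subset_univ _) hi
  have c : IsCompact (range (Quo.incl F.actL hB)) :=
    isCompact_range (Ch.EqM.incl (act := F.actL) hB).map.continuous
  obtain ⟨T, h1, h2, h3⟩ := h.exists_cp' c
  have e : ∀ l : F.B, Quo.mk F.actL l ∈ range (Quo.incl F.actL hB) ↔ l.1 ∈ B' := fun l =>
    Quo.mk_mem_range hB (x := l)
  obtain ⟨C, h4, h5⟩ := isClosed_induced_iff.1 (c.isClosed.preimage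
    (continuous_quot_mk : Continuous (Quo.mk F.actL : F.B → _)))
  have h6 : ∀ l ∈ F.B, l ∈ C ↔ l ∈ B' := fun l hl =>
    (Set.ext_iff.1 h5 ⟨l, hl⟩).trans (e ⟨l, hl⟩)
  refine ⟨T ∩ C, fun l hl => (h6 l (h1 hl.1)).1 hl.2, h2.inter_right h4, fun l hl => ?_⟩
  obtain ⟨τ, a, b⟩ := h3 ⟨l, hB hl⟩ ((e _).2 hl)
  exact ⟨τ, a, b, (h6 _ (h1 b)).2 (hi τ a l hl)⟩

/-- the diagonal locus over a compact set of parameters is compact -/
theorem Good.isCompact_lev (h : F.Good) (hk : F.Big k) (hD : F.BigD k D)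
    {T : Set ((F.sch ν κ k D g d).WF ν κ Λ)} (hT : Ch.Lev F T)
    (hcl : closure T ∩ Ch.baseF _ ν κ F.B ⊆ T) {B' : Set (Λ → ℂ)} (hB : B' ⊆ F.B)
    (hi : ∀ τ, IsUnit τ → ∀ l ∈ B', F.actL τ l ∈ B') (hc : CompactSpace (F.Bs B')) :
    IsCompact (Ch.dia F.toWt (Ch.solF _ ν κ F ∩ T) ∩ Quo.part _ _ {x | x.1 ∈ B'}) := by
  obtain ⟨C, h1, h2, h3⟩ := h.exists_cp_sub hB hi hc
  refine mem_of_eq_of_mem (s := {s | IsCompact s}) (Subset.antisymm ?_ ?_)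
    (Cpt.isCompact_dia' h hk hD rfl inter_subset_left
      (fun s a x b => ⟨Ch.actF_mem_solF h.toInv a b.1, hT.inv s a x b.2⟩)
      (fun x a b => ⟨a, hcl ⟨closure_mono inter_subset_right b, a.1⟩⟩) h2 (h1.trans hB))
  · exact fun z e => ⟨h3 _ e.2, e.1⟩
  rintro z ⟨⟨τ, ⟨u, rfl⟩, b⟩, c⟩
  refine ⟨c, ?_⟩
  have := hi _ u⁻¹.isUnit _ (h1 b)
  rwa [← F.actL_mul, Units.inv_mul, F.actL_one] at this

namespace Sg

variable (h : F.Sg k) (hD : F.BigD k D) (hQ : AM.IvtA F.toWt F.movᶜ Q)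
include h hD hQ

theorem gzQ : Ch.GZ F ℓs (F.ZP k D g d Q) :=
  let ⟨_, a⟩ := h.reg
  let ⟨_, b⟩ := h.sm
  let ⟨_, c⟩ := h.toGood.ok' ν κ a b h.big hD g d
  c.gz_lev (Ch.lev_clP h.toInv c.cuts hQ) (isClosed_closure.isLocallyClosed.inter c.lc_baseF)

theorem cptQ : IsCompact (Ch.dia F.toWt (F.ZP k D g d Q)) :=
  mem_of_eq_of_mem (s := {s | IsCompact s})
    (inter_eq_left.2 fun z _ => (Quo.out z).2.1.1.1).symm
    (h.toGood.isCompact_lev h.big hD (Ch.lev_clP h.toInv (h.gzQ (g := g) (d := d) hD hQ).cuts hQ)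
      (fun _ a => ⟨closure_minimal inter_subset_left isClosed_closure a.1, a.2⟩) Subset.rfl h.invB
      h.cp)

omit hD hQ in
theorem dg : F.IsDiag F.diag ∧ ∃ r : ℤ, IsDeg (2 * r) F.diag :=
  let ⟨K₀, a⟩ := h.reg
  let ⟨b, c, _⟩ := St.dg F K₀ h.toGood a
  ⟨b, _, c⟩

theorem intQ_perm (hA : ∀ f ∈ fs, f.At (F.ZP k D g d Q)) (hq : ∀ q, .dg q ∈ fs) (hp : fs.Perm fs')
    (ho : fs.filter Fac.od = fs'.filter Fac.od) : F.intQ k D g d Q fs = F.intQ k D g d Q fs' := by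
  obtain ⟨a, r, b⟩ := h.dg
  rw [intQ_eq hD, intQ_eq hD]
  exact (h.gzQ hD hQ).ev_perm a b (h.cptQ hD hQ) _ hA hq hp ho

theorem intQ_split {n : Ch.Mk ν κ} {A : Set _} (hn : F.cone ⊆ A) {c a : H (F.X A)}
    (he : c ∈ Ch.Hev _) (hA : ∀ f ∈ fs ++ fs', f.Ok F 0) (hq : ∀ q, .dg q ∈ fs ++ fs') :
    F.intQ k D g d Q (fs ++ .ev n A (c * a) :: fs') =
      F.intQ k D g d Q (.ev n A c :: (fs ++ .ev n A a :: fs')) := by
  obtain ⟨a, r, b⟩ := h.dg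
  rw [intQ_eq hD, intQ_eq hD]
  exact (h.gzQ hD hQ).ev_split a b (h.cptQ hD hQ) _ (fun _ e => hn (Ch.vl_mem e.1 n)) he
    (fun f e => Ch.at_of_ok0 inter_subset_left (hA f e)) hq

theorem sw_intQ {p : Fock.Par ℂ V} {n : α → Ch.Mk ν κ} (m : α → ℕ) {A : α → Set _}
    {w : ∀ a, V →ₗ[ℂ] H (F.X (A a))} (hw : ∀ a, Fock.IsEv p (parH _) (w a))
    (hn : ∀ a, ∀ x ∈ F.ZP k D g d Q, Ch.vl x (n a) ∈ A a)
    (hA : ∀ f ∈ fs₀, f.At (F.ZP k D g d Q)) (hq : ∀ q, .dg q ∈ fs₀) :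
    LG.SW p fun L => F.intQ k D g d Q (F.fsG n m A w L ++ fs₀) := by
  obtain ⟨a, r, b⟩ := h.dg
  rw [funext fun L => intQ_eq (fs := F.fsG n m A w L ++ fs₀) hD]
  exact (h.gzQ hD hQ).sw_fsG a b (h.cptQ hD hQ) _ m hw hn hA hq

end Sg

section cor

variable {δ : J → ℕ} {A A' : Set ((Λ → ℂ) × (J → ℂ))} (h : F.Nice δ) (hc : F.Cp) (hk : F.Big k)
  (hA : F.cone ⊆ A) (hA' : F.dvs δ ⊆ A')
include h hc hk hA hA'

theorem intg_fsC {B : Set (Λ → ℂ)} (hB : F.B ⊆ B) {c : H (F.Bs B)}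
    (he : c ∈ Ch.Hev _) (d : R → ℤ) (g : ℤ) {a₁ a₂ a₃ : ℕ} (v₁ : Fin a₁ → ℕ × H (F.X A))
    (v₂ : Fin a₂ → ℕ × ℕ) (v₃ : Fin a₃ → ℕ × H (F.X A')) : ∀ᶠ D in atTop,
    F.intM k D g d (fun n => ord₃ v₃ n • δ) (F.fsC (F.exB c) A A' v₁ v₂ v₃) =
      F.intM k D g d (fun n => ord₃ v₃ n • δ)
        (.par B c :: (F.fsC F.ex0 A A' v₁ v₂ v₃).tail.tail) ∧ (c = 1 →
      F.intM k D g d (fun n => ord₃ v₃ n • δ)
        (.par B c :: (F.fsC F.ex0 A A' v₁ v₂ v₃).tail.tail) =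
      F.intM k D g d (fun n => ord₃ v₃ n • δ) (F.fsC F.ex0 A A' v₁ v₂ v₃).tail.tail) := by
  obtain ⟨a, r, b⟩ := (h.sg hc hk).dg
  filter_upwards [(iv_fsC (v₁ := v₁) (v₂ := v₂) (v₃ := v₃) h hc hk
    (St.selC F k 1 B c h.toGood hk hB he).1 hA hA' g d).lvl] with D l
  have q : ∀ q, .dg q ∈ (F.fsC F.ex0 A A' v₁ v₂ v₃).tail.tail := fun q =>
    ((List.mem_cons.1 (l.dg q)).resolve_left nofun |> List.mem_cons.1).resolve_left nofun
  rw [intM_eq l.big, intM_eq l.big, intM_eq l.big]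
  refine ⟨l.gz.ev_drop a b l.cpt _ trivial rfl cl_tw_one (fun f e => l.fac f (.tail _ e))
    fun _ => .tail _ (q _), ?_⟩
  rintro rfl
  have p := l.fac _ (.tail _ (.head _))
  exact l.gz.ev_drop a b l.cpt _ p rfl (l.gz.cl_par_one p)
    (fun f e => l.fac f (.tail _ (.tail _ e))) q

/-- the correlators with a class of the parameter space -/
theorem corF_exB (hW : St.Well) {B : Set (Λ → ℂ)} (hB : F.B ⊆ B) {c : H (F.Bs B)}
    (he : c ∈ Ch.Hev _) (d : R → ℤ) (j : ℤ) {a₁ a₂ a₃ : ℕ} (v₁ : Fin a₁ → ℕ × H (F.X A))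
    (v₂ : Fin a₂ → ℕ × ℕ) (v₃ : Fin a₃ → ℕ × H (F.X A')) : ∀ᶠ D in atTop,
    F.corF k (F.exB c) δ A A' d j v₁ v₂ v₃ = F.intM k D (j + 1 - a₂) d (fun n => ord₃ v₃ n • δ)
      (.par B c :: (F.fsC F.ex0 A A' v₁ v₂ v₃).tail.tail) :=
  (((iv_fsC h hc hk (St.selC F k 1 B c h.toGood hk hB he).1 hA hA' _ d).well hW).and
    (intg_fsC h hc hk hA hA' hB he d _ v₁ v₂ v₃)).mono fun _ a => a.1.trans a.2.1

theorem corF_ex0 (hW : St.Well) (d : R → ℤ) (j : ℤ) {a₁ a₂ a₃ : ℕ} (v₁ : Fin a₁ → ℕ × H (F.X A))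
    (v₂ : Fin a₂ → ℕ × ℕ) (v₃ : Fin a₃ → ℕ × H (F.X A')) : ∀ᶠ D in atTop,
    F.corF k F.ex0 δ A A' d j v₁ v₂ v₃ = F.intM k D (j + 1 - a₂) d (fun n => ord₃ v₃ n • δ)
      (F.fsC F.ex0 A A' v₁ v₂ v₃).tail.tail :=
  ((corF_exB h hc hk hA hA' hW (subset_univ _) (one_mem _) d j v₁ v₂ v₃).and
    (intg_fsC h hc hk hA hA' (subset_univ _) (one_mem _) d _ v₁ v₂ v₃)).mono fun _ a =>
      a.1.trans (a.2.2 rfl)

theorem serR_exB_one {B : Set (Λ → ℂ)} (hB : F.B ⊆ B) {p : Fock.Par ℂ V} (i : V →ₗ[ℂ] H (F.X A))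
    (D : Deg.Dv) (i' : D.H →ₗ[ℂ] H (F.X A')) :
    F.serR k (F.exB (1 : H (F.Bs B))) p i δ D i' = F.serR k F.ex0 p i δ D i' := by
  have e : ∀ d j l₁ l₂ l₃, F.cor k (F.exB (1 : H (F.Bs B))) δ A A' d j l₁ l₂ l₃ =
      F.cor k F.ex0 δ A A' d j l₁ l₂ l₃ := fun d j l₁ l₂ l₃ => by
    rw [F.cor_eq_corF _ _ _ _ _ _ _ rfl rfl rfl, F.cor_eq_corF _ _ _ _ _ _ _ rfl rfl rfl]
    exact inv_eq_inv (((intg_fsC h hc hk hA hA' hB (one_mem _) d _ _ _ _).and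
      (intg_fsC h hc hk hA hA' (subset_univ _) (one_mem _) d _ _ _ _)).mono fun _ a =>
        (a.1.1.trans (a.1.2 rfl)).trans (a.2.1.trans (a.2.2 rfl)).symm)
  funext d j
  simp only [serR, e]

end cor

end Fam

/-- the diagonal class of a point -/
theorem Wt.casB_pt (F : Wt Empty Λ R J) {B : Set (Λ → ℂ)} {l : Λ → ℂ} (h : B = {l}) :
    CompactSpace (F.Bs B) ∧ F.CasB B (fun _ : Unit => 1) fun _ => 1 := by
  subst h
  have a : ∀ τ x, F.actL τ x = x := fun τ x => by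
    rw [Subsingleton.elim τ 1, F.actL_one]
  have : Subsingleton (F.Bs {l}) := inferInstanceAs (Subsingleton (Quot _))
  have : CompactSpace (F.Bs {l}) := Finite.compactSpace
  have : Mono.FP F.actL {l} := Tq.fp_of (fun τ _ x hx => (a τ x).symm ▸ hx)
    isClosed_singleton.isLocallyClosed (fun _ _ _ _ _ => Subsingleton.elim _ _)
    fun _ t _ _ _ _ _ _ _ _ e => not_tendsto_atTop_of_tendsto_nhds
      (tendsto_const_nhds.congr fun n => congrArg norm (Subsingleton.elim 1 (t n))) e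
  have k : ∀ {Y : Type} [TopologicalSpace Y] [Subsingleton Y] [DiscreteTopology Y] (y : Y)
      {X : Type} [TopologicalSpace X] [Subsingleton X], IsOpenEmbedding fun _ : X => y :=
    fun y => ⟨⟨⟨Subsingleton.elim _ _⟩, fun _ _ _ => Subsingleton.elim _ _⟩, isOpen_discrete _⟩
  have hd : Tq.Dim F.actL {l} 0 := by
    have := Tq.Dim.of_mfd (act := F.actL) (S := {l}) (m := 0) fun x hx =>
      ⟨hx, fun _ => ⟨x, hx⟩, ⟨(k _).lh _, analyticAt_const, fun _ => 0, analyticAt_const,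
        .of_forall fun _ => Subsingleton.elim _ _⟩, rfl⟩
    rwa [Nat.zero_sub] at this
  obtain ⟨_, -, b⟩ := hd.isFund
  have h1 : ev (Tq.fnd F.actL {l}) 1 = 1 := (b 0 univ (fun _ => ⟨l, rfl⟩) ⟨isOpen_univ, trivial,
    ⟨fun _ => l, analyticOnNhd_const, fun _ => rfl, fun _ _ _ => Subsingleton.elim _ _,
      fun _ _ _ => Subsingleton.elim _ _⟩, k _⟩).2 1 (Zc_of_compact cocycle_one)
    (fun _ _ => Subsingleton.elim _ _) (by
      rw [tau_zero, map_one, map_one]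
      exact Cohom.refl _ _)
  have h2 : ∀ c : H (F.Bs {l}), ∃ z : ℂ, c = z • 1 := fun c => by
    induction c using H.induction_deg with
    | h0 => exact ⟨0, (zero_smul _ _).symm⟩
    | hadd _ _ e e' =>
      obtain ⟨z, rfl⟩ := e
      obtain ⟨z', rfl⟩ := e'
      exact ⟨z + z', (add_smul _ _ _).symm⟩
    | h m =>
      rcases lt_trichotomy m 0 with e | rfl | e
      · exact ⟨0, ((H.isDeg_comp _ _).eq_zero e).trans (zero_smul _ _).symm⟩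
      · exact ⟨_, (hd.ori.eq_smul_pt (x := Quo.mk _ ⟨l, rfl⟩)
          ⟨cocycle_one, isDeg_one, fun _ _ => Subsingleton.elim _ _⟩ h1
          (H.isDeg_comp _ _)).trans (congrArg _ hcls_one)⟩
      · exact ⟨0, (hd.H_eq_zero (H.isDeg_comp _ _) e).trans (zero_smul _ _).symm⟩
  have h3 : ∀ z : ℂ, F.intB {l} (z • 1) = z := fun z => by
    rw [intB_eq, map_smul, ← hcls_one, Loc.intg_hcls _ cocycle_one, h1, smul_eq_mul, mul_one]
  refine ⟨‹_›, fun _ => ⟨one_mem _, one_mem _⟩, fun c c' => ?_⟩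
  obtain ⟨z, rfl⟩ := h2 c
  obtain ⟨z', rfl⟩ := h2 c'
  rw [Fintype.sum_unique, one_mul, one_mul, smul_mul_smul_comm, mul_one, h3, h3, h3]

theorem slab_univ (t : ℂ) : slab (univ : Set (Empty → ℂ)) t = {fun _ => t} :=
  Set.ext fun l => ⟨fun e => funext fun o => by
    rcases o with _ | o
    exacts [e.2, o.elim], fun e => ⟨trivial, congrFun e none⟩⟩

end Vale.Agent.P269

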