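import Vale.Agent.P287Q.G.Spl.Ty
import Vale.Agent.P287Q.G.Spl.DictC
import Vale.Agent.P287Q.G.Bas.BC
import Vale.Agent.P287Q.G.Bas.Dg
import Vale.Agent.P287Q.G.Bas.Lv
import Vale.Agent.P287Q.G.Bas.DegN
import Vale.Agent.P269.LG.Alg

/-!
# Calculus of the integrals over closures of strata
-/

set_option linter.unusedSectionVars false
set_option linter.unusedVariables false

namespace Vale.Agent.P269

open P291Z Set Function Topology Filter

variable {S Λ R J K ι ν κ α V : Type} [Fintype S] [Fintype Λ] [Fintype R] [Fintype J] [Fintype K]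
  [Fintype ι] [DecidableEq ι] [Fintype ν] [Fintype κ] [AddCommGroup V] [Module ℂ V]

/-- The factors that can be odd. -/
def Fac.od {F : Wt S Λ R J} : Fac F ν κ → Bool
  | .ev _ _ _ => true
  | .par _ _ => true
  | _ => false

/-- Insertions with labels `α`: the label gives the point, the power of the cotangent line class and
the space that carries the class. -/
noncomputable def Wt.fsG (F : Wt S Λ R J) (n : α → Ch.Mk ν κ) (m : α → ℕ)
    (A : α → Set ((Λ → ℂ) × (J → ℂ))) (w : ∀ a, V →ₗ[ℂ] H (F.X (A a))) (L : List (α × V)) :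
    List (Fac F ν κ) :=
  L.flatMap fun x => List.replicate (m x.1) (.psi (n x.1)) ++ [.ev (n x.1) (A x.1) (w x.1 x.2)]

namespace NFA

open Ch Tq

variable {X : Type} [TopologicalSpace X] {β : Type} {f : β → H X} {l l' : List β}

theorem prod_mem (h : ∀ a ∈ l, f a ∈ Hev X) : (l.map f).prod ∈ Hev X :=
  Subalgebra.list_prod_mem _ (List.forall_mem_map.2 h)

theorem prod_perm (h : ∀ a ∈ l, f a ∈ Hev X) (hp : l.Perm l') : (l.map f).prod = (l'.map f).prod :=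
  (hp.map f).prod_eq' (List.pairwise_of_forall_mem_list fun _ ha b _ =>
    Hev.commute (List.forall_mem_map.2 h _ ha) b)

theorem prod_split (p : β → Bool) (h : ∀ a ∈ l, p a = false → f a ∈ Hev X) : (l.map f).prod =
    ((l.filter fun a => !p a).map f).prod * ((l.filter p).map f).prod := by
  induction l with
  | nil => simp
  | cons a l ih =>
    have k := fun b hb => h b (List.mem_cons_of_mem a hb)
    have e : ((l.filter fun a => !p a).map f).prod ∈ Hev X := prod_mem fun b hb =>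
      k b (List.mem_filter.1 hb).1 (by simpa using (List.mem_filter.1 hb).2)
    rw [List.map_cons, List.prod_cons, ih k]
    cases hp : p a
    · rw [List.filter_cons_of_pos (by simp [hp]), List.filter_cons_of_neg (by simp [hp]),
        List.map_cons, List.prod_cons, mul_assoc]
    · rw [List.filter_cons_of_neg (by simp [hp]), List.filter_cons_of_pos hp, List.map_cons,
        List.prod_cons, ← mul_assoc, ← Hev.commute e, mul_assoc]

theorem add_mem_Hev (c : H X) : c + (parH X).σ c ∈ Hev X :=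
  H.induction_deg (P := fun c => c + (parH X).σ c ∈ Hev X) c (by simp)
    (fun a b ha hb => by rw [map_add, add_add_add_comm]; exact add_mem ha hb) fun k => by
      rw [parH_deg (H.isDeg_comp k c)]
      rcases Int.even_or_odd k with ⟨l, hl⟩ | hk
      · have : H.comp k c ∈ Hev X :=
          mem_Hev (k := l) (by rw [two_mul, ← hl]; exact H.isDeg_comp _ c)
        exact add_mem this (Subalgebra.smul_mem _ this _)
      · rw [hk.neg_one_zpow, neg_one_smul, add_neg_cancel]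
        exact zero_mem _

theorem mem_Hev_of {c : H X} (h : (parH X).σ c = c) : c ∈ Hev X := by
  have e := Subalgebra.smul_mem _ (add_mem_Hev c) (2⁻¹ : ℂ)
  rwa [h, ← two_smul ℂ, smul_smul, inv_mul_cancel₀ two_ne_zero, one_smul] at e

theorem sub_comm (c c' : H X) : (c - (parH X).σ c) * (c' - (parH X).σ c') =
    -((c' - (parH X).σ c') * (c - (parH X).σ c)) := by
  refine H.induction_deg (P := fun c => (c - (parH X).σ c) * (c' - (parH X).σ c') =
    -((c' - (parH X).σ c') * (c - (parH X).σ c))) c (by simp)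
    (fun a b ha hb => by rw [map_add, add_sub_add_comm, add_mul, mul_add, ha, hb, neg_add])
    fun k => ?_
  refine H.induction_deg (P := fun c' => (H.comp k c - (parH X).σ (H.comp k c)) *
    (c' - (parH X).σ c') = -((c' - (parH X).σ c') *
      (H.comp k c - (parH X).σ (H.comp k c)))) c' (by simp)
    (fun a b ha hb => by rw [map_add, add_sub_add_comm, add_mul, mul_add, ha, hb, neg_add])
    fun l => ?_
  rw [parH_deg (H.isDeg_comp k c), parH_deg (H.isDeg_comp l c')]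
  rcases Int.even_or_odd k with hk | hk
  · simp [hk.neg_one_zpow]
  rcases Int.even_or_odd l with hl | hl
  · simp [hl.neg_one_zpow]
  have := (H.isDeg_comp k c).comm (H.isDeg_comp l c')
  rw [(hk.mul hl).neg_one_zpow, neg_one_smul] at this
  simp only [hk.neg_one_zpow, hl.neg_one_zpow, neg_one_smul, sub_neg_eq_add, add_mul, mul_add,
    this, neg_add]

/-- odd classes anticommute -/
theorem anti {c c' : H X} (h : (parH X).σ c = -c) (h' : (parH X).σ c' = -c') :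
    c * c' = -(c' * c) := by
  have e := sub_comm c c'
  rw [h, h', sub_neg_eq_add, sub_neg_eq_add, ← two_smul ℂ, ← two_smul ℂ, smul_mul_smul_comm,
    smul_mul_smul_comm, ← smul_neg] at e
  exact smul_right_injective _ (by norm_num) e

end NFA

theorem Fac.At.mono {F : Wt S Λ R J} {ch : Ch ι J} {Z Z' : Set (ch.WF ν κ Λ)} {f : Fac F ν κ}
    (h : f.At Z) (e : Z' ⊆ Z) : f.At Z' := by
  cases f
  exacts [trivial, fun x hx => h x (e hx), fun x hx => h x (e hx), trivial, trivial]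

theorem Wt.dq_fsG (F : Wt S Λ R J) (n : α → Ch.Mk ν κ) (m : α → ℕ)
    (A : α → Set ((Λ → ℂ) × (J → ℂ))) (w : ∀ a, V →ₗ[ℂ] H (F.X (A a))) (L : List (α × V)) :
    (F.fsG n m A w L).filterMap Fac.dq = [] := by
  refine List.filterMap_eq_nil_iff.2 fun f hf => ?_
  obtain ⟨x, -, hx⟩ := List.mem_flatMap.1 hf
  rcases List.mem_append.1 hx with a | a
  · rw [List.eq_of_mem_replicate a]; rfl
  · rw [List.mem_singleton.1 a]; rfl

theorem Wt.at_fsG {F : Wt S Λ R J} {ch : Ch ι J} {Z : Set (ch.WF ν κ Λ)} {n : α → Ch.Mk ν κ}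
    (m : α → ℕ) {A : α → Set ((Λ → ℂ) × (J → ℂ))} (w : ∀ a, V →ₗ[ℂ] H (F.X (A a)))
    (hn : ∀ a, ∀ x ∈ Z, Ch.vl x (n a) ∈ A a) (L : List (α × V)) :
    ∀ f ∈ F.fsG n m A w L, f.At Z := fun f hf => by
  obtain ⟨x, -, hx⟩ := List.mem_flatMap.1 hf
  rcases List.mem_append.1 hx with a | a
  · rw [List.eq_of_mem_replicate a]; trivial
  · rw [List.mem_singleton.1 a]; exact hn _

namespace Ch

variable {ch : Ch ι J} {F : Fam S Λ R J K} {e : K → ι → ℕ} {K₀ : RD R} {ℓ : R → ι → ℤ} {b : ℕ}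
  {U T Z Z' : Set (ch.WF ν κ Λ)} {Q : AM Λ R J ν κ → Prop} {fs fs' fs₀ : List (Fac F.toWt ν κ)}

theorem lev_locP (hF : F.Inv) (hQ : AM.IvtA F.toWt F.movᶜ Q) : Lev F (ch.locP F ℓ Q) :=
  ⟨fun _ h => h.1, fun _ ha _ hx => actF_mem_locP hF hQ hx ha, stb_locP hF⟩

theorem lev_clP (hF : F.Inv) (hc : ch.Cuts) (hQ : AM.IvtA F.toWt F.movᶜ Q) :
    Lev F (ch.clP F ℓ Q) := (lev_locP hF hQ).clo hF hc

theorem Ok.gz_lev (h : ch.Ok F e K₀ ℓ b U) (hT : Lev F T) (hl : IsLocallyClosed T) :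
    GZ F ℓ (ch.solF ν κ F ∩ T) :=
  let ⟨_, a⟩ := h.toStd.gd hT.adm (h.toStd.dom_lev h.pr hT hl)
  haveI := a.isActZ
  h.toStd.gz inter_subset_left (inter_subset_right.trans hT.adm) a.orbZ

/-- base fields that vanish at a marked point on the stratum vanish there on its closure -/
theorem Cuts.vl_clP (hc : ch.Cuts) (hF : F.Inv) {A : Set J} (hA : Disjoint A F.mov) (hz : F.zer ⊆ A)
    {n : Mk ν κ} (hQ : ∀ m, Q m → ∀ j ∈ A, m.y j (m.p n) = 0) :
    ∀ x ∈ ch.solF ν κ F ∩ ch.clP F ℓ Q, vl x n ∈ (F.sub F.B A).cone := by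
  intro x hx
  refine (Fam.mem_cone_sub subset_rfl hz).2 ⟨vl_mem hx.1 n, hx.1.1.1, fun j hj => ?_⟩
  have hj' : j ∉ F.mov := disjoint_left.1 hA hj
  obtain ⟨U, a, b⟩ := mem_closure_iff_ultrafilter.1 hx.2.1
  have c : ∀ᶠ y in U, y ∈ ch.locP F ℓ Q := a
  have d : Tendsto id U.toFilter (𝓝 x) := tendsto_id.mono_right b
  refine tendsto_nhds_unique_of_eventuallyEq (lim_fld (x := id) hx.2.2.2.1.1 d
    (((W.pL (ch := ch) n).continuous.tendsto _).comp d.snd_nhds) (p_mem_crv hx.2.2.2.1 _)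
    (c.mono fun _ e => ⟨p_mem_crv e.1.1.2.1 _, e.1.2.1 j hj' _ (p_mem_crv e.1.1.2.1 _)⟩)).2
    tendsto_const_nhds (c.mono fun y ⟨e, m, r, q⟩ => ?_)
  obtain ⟨B, π, u, s, k⟩ := r.exists_data e.1.2.1
  change fld y.2 (y.2.p n) j = 0
  rw [k.mark, k.cr.fld_smul (k.ind j hj') _ (k.ne _), hQ m q j hj, mul_zero]

theorem at_of_ok0 (h : Z ⊆ ch.solF ν κ F) {f : Fac F.toWt ν κ} (hf : f.Ok F 0) : f.At Z := by
  cases f with
  | ev n A c => exact fun x hx => hf ⟨vl_mem (h hx) n, fun _ _ _ hj => absurd rfl hj⟩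
  | par A c => exact fun x hx => hf (h hx).1.1
  | _ => trivial

namespace GZ

variable (h : GZ F ℓ Z) (hd : F.IsDiag F.diag) {r : ℤ} (hr : IsDeg (2 * r) F.diag)
  (hc : IsCompact (dia F.toWt Z)) (v : BM (Quo (actF F.toWt) Z))
include h hd hr hc

theorem ev_nf1 (hA : ∀ f ∈ fs, f.At Z) (hq : ∀ q, .dg q ∈ fs) :
    ev v (fs.map (F.coch Z)).prod = F.itg v (F.clL Z fs) := by
  have e := h.ev_nf hd hr hc hA hq cocycle_one v
  rwa [one_mul, hcls_one, one_mul] at e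

omit hd hr hc in
theorem cn_mem {f : Fac F.toWt ν κ} (hf : f.od = false) : F.cn Z f ∈ Hev _ := by
  cases f
  exacts [h.cl_psi_mem _, (nomatch hf), (nomatch hf), one_mem _, Fam.cl_tw_mem _]

omit hd hc in
theorem cl_dg_mem (q : κ) : F.cl Z (.dg q) ∈ Hev _ := mem_Hev (hcls_isDeg (h.dg_deg hr q))

/-- even factors can be moved -/
theorem ev_perm (hA : ∀ f ∈ fs, f.At Z) (hq : ∀ q, .dg q ∈ fs) (hp : fs.Perm fs')
    (ho : fs.filter Fac.od = fs'.filter Fac.od) :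
    ev v (fs.map (F.coch Z)).prod = ev v (fs'.map (F.coch Z)).prod := by
  classical
  rw [h.ev_nf1 hd hr hc v hA hq, h.ev_nf1 hd hr hc v (fun f hf => hA f (hp.mem_iff.2 hf))
    fun q => hp.mem_iff.1 (hq q), Fam.clL, Fam.clL,
    NFA.prod_perm (fun q _ => h.cl_dg_mem hr q) ((hp.filterMap Fac.dq).diff_right _),
    NFA.prod_split (l := fs) Fac.od fun _ _ => h.cn_mem,
    NFA.prod_split (l := fs') Fac.od fun _ _ => h.cn_mem, ho,
    NFA.prod_perm (fun f hf => h.cn_mem (by simpa using (List.mem_filter.1 hf).2)) (hp.filter _)]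

/-- factors with class one can be dropped -/
theorem ev_drop {f : Fac F.toWt ν κ} (hf : f.At Z) (h0 : f.dq = none) (h1 : F.cl Z f = 1)
    (hA : ∀ f ∈ fs, f.At Z) (hq : ∀ q, .dg q ∈ fs) :
    ev v ((f :: fs).map (F.coch Z)).prod = ev v (fs.map (F.coch Z)).prod := by
  rw [h.ev_nf1 hd hr hc v (List.forall_mem_cons.2 ⟨hf, hA⟩) fun q => .tail _ (hq q),
    h.ev_nf1 hd hr hc v hA hq, Fam.clL_congr (List.filterMap_cons_none h0)]
  rw [List.map_cons, List.prod_cons, Fam.cn_eq, h0, Option.elim_none, h1, one_mul]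

/-- an even class is split off -/
theorem ev_split {n : Mk ν κ} {A : Set _} (hn : ∀ x ∈ Z, vl x n ∈ A) {c a : H (F.X A)}
    (he : c ∈ Hev _) (hA : ∀ f ∈ fs ++ fs', f.At Z) (hq : ∀ q, .dg q ∈ fs ++ fs') :
    ev v ((fs ++ .ev n A (c * a) :: fs').map (F.coch Z)).prod =
      ev v ((.ev n A c :: (fs ++ .ev n A a :: fs')).map (F.coch Z)).prod := by
  have a1 : ∀ b, ∀ f ∈ fs ++ .ev n A b :: fs', f.At Z := fun b => List.forall_mem_append.2
    ⟨(List.forall_mem_append.1 hA).1, List.forall_mem_cons.2 ⟨hn, (List.forall_mem_append.1 hA).2⟩⟩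
  have a2 : ∀ b q, .dg q ∈ fs ++ .ev n A b :: fs' := fun b q =>
    List.mem_append.2 ((List.mem_append.1 (hq q)).imp_right (.tail _))
  have a3 : ∀ b, F.cn Z (.ev n A b) = H.map (h.eqh_vl n hn).toEqv.qm b := h.cl_ev n hn
  rw [h.ev_nf1 hd hr hc v (a1 _) (a2 _),
    h.ev_nf1 hd hr hc v (fs := .ev n A c :: _) (List.forall_mem_cons.2 ⟨hn, a1 _⟩)
      fun q => .tail _ (a2 _ q)]
  refine congrArg _ (Fam.clL_congr ?_ ?_)
  · rw [List.filterMap_cons_none rfl, List.filterMap_append, List.filterMap_append,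
      List.filterMap_cons_none rfl, List.filterMap_cons_none rfl]
  · simp only [List.map_append, List.map_cons, List.prod_append, List.prod_cons, a3, map_mul]
    rw [← mul_assoc (H.map _ c), Hev.commute (map_mem_Hev _ he) (List.prod _), mul_assoc, mul_assoc]

/-- the integrals are multilinear and supersymmetric -/
theorem sw_fsG {p : Fock.Par ℂ V} {n : α → Mk ν κ} (m : α → ℕ) {A : α → Set _}
    {w : ∀ a, V →ₗ[ℂ] H (F.X (A a))} (hw : ∀ a, Fock.IsEv p (parH _) (w a))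
    (hn : ∀ a, ∀ x ∈ Z, vl x (n a) ∈ A a) (hA : ∀ f ∈ fs₀, f.At Z) (hq : ∀ q, .dg q ∈ fs₀) :
    LG.SW p fun L => ev v ((F.fsG n m A w L ++ fs₀).map (F.coch Z)).prod := by
  classical
  let f : α → V →ₗ[ℂ] H (Quo (actF F.toWt) Z) := fun a =>
    LinearMap.mulLeft ℂ (F.cl Z (.psi (n a)) ^ m a) ∘ₗ
      (H.mapA (h.eqh_vl (n a) (hn a)).toEqv.qm).toLinearMap ∘ₗ w a
  have f1 : ∀ a x, f a x =
      F.cl Z (.psi (n a)) ^ m a * H.map (h.eqh_vl (n a) (hn a)).toEqv.qm (w a x) := fun _ _ => rfl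
  have f2 : ∀ a x, (parH _).σ (f a x) = f a (p.σ x) := fun a x => by
    rw [f1, f1, Tq.parH_mul, Tq.parH_Hev (pow_mem (h.cl_psi_mem _) _), Tq.parH_map, hw a]
  have f3 : ∀ L, ((F.fsG n m A w L).map (F.cn Z)).prod = (L.map fun x => f x.1 x.2).prod := fun L => by
    induction L with
    | nil => rfl
    | cons x L ih =>
      rw [Wt.fsG, List.flatMap_cons, List.map_append, List.prod_append, List.map_cons, List.prod_cons,
        ← ih, List.map_append, List.prod_append, List.map_replicate, List.prod_replicate,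
        List.map_singleton, List.prod_singleton, f1, ← h.cl_ev _ (hn _)]
      rfl
  have k := LG.SW.of_sc (p := p) f
    (fun a a' x y e => Hev.commute (NFA.mem_Hev_of (by rw [f2, e])) _)
    (fun a a' x y e e' => NFA.anti (by rw [f2, e, map_neg]) (by rw [f2, e', map_neg]))
    (F.itg v ∘ₗ LinearMap.mulRight ℂ (fs₀.map (F.cn Z)).prod)
    (((fs₀.filterMap Fac.dq).diff Finset.univ.toList).map fun q => F.cl Z (.dg q)).prod
  refine (congrArg (LG.SW p) (funext fun L => ?_)).mpr k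
  rw [h.ev_nf1 hd hr hc v (List.forall_mem_append.2 ⟨Wt.at_fsG m w hn L, hA⟩)
    fun q => List.mem_append_right _ (hq q), Fam.clL, List.filterMap_append, Wt.dq_fsG,
    List.nil_append, List.map_append, List.prod_append, f3, ← mul_assoc]
  rfl

end GZ

/-- **subfamilies** -/
theorem GZ.ev_subF [DecidableEq R] {B' : Set (Λ → ℂ)} {A' : Set J} (hF : F.Good) (hR : F.Reg K₀)
    (hF' : (F.sub B' A').Good) (hB : B' ⊆ F.B) (hz : F.zer ⊆ A') (h : GZ F ℓ Z)
    (h' : GZ (F.sub B' A') ℓ Z') (e : Z' ⊆ Z) (hA : ∀ f ∈ fs, f.At Z) (hq : ∀ q, .dg q ∈ fs)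
    (hc : IsCompact (dia F.toWt Z')) (v : BM (Quo (actF F.toWt) Z')) :
    ev v (pull (Quo.incl _ e) (fs.map (F.coch Z)).prod) =
      ev v (fs.map ((F.sub B' A').coch Z')).prod := by
  have d := St.dg F K₀ hF hR
  have d' := St.dg _ K₀ hF' (hR.sub hB hz)
  have b : BC (F.sub B' A').toWt F.toWt Z' Z id id id id id := ⟨EqM.incl e, fun _ => rfl,
    fun _ => rfl, fun _ => rfl, fun _ _ => rfl, fun _ _ => rfl, fun _ _ => rfl, fun _ _ => rfl,
    fun _ _ _ => rfl⟩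
  have h'' : GZ F ℓ Z' :=
    ⟨h'.toOZ, h.inv, h.wt, e.trans h.sol, e.trans h.adm, h'.psi, h'.fld, h'.kos⟩
  have E : Tq.Eqv (F.sub B' A').act2 F.act2 (F.sub B' A').cone2 F.cone2 fun z => (id z.1, z.2) :=
    Tq.Eqv.incl fun _ a => ⟨⟨Fam.cone_sub hB hz a.1.1, Fam.cone_sub hB hz a.1.2⟩, a.2⟩
  have k := h'.ev_pull d'.1 (fun f hf => (hA f hf).mono e) (Φ := b.toEqM.map) (c := F.coch Z)
    (List.forall₂_same.2 fun f hf => ?_) hq cocycle_one cocycle_one rfl hc v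
  · rw [one_mul, one_mul] at k
    exact k.symm
  · have a := hA f hf
    have c := h.cl_incl d.1 h'' e a
    cases f with
    | dg q =>
      exact b.rp_dg h' h d'.1 E
        (d'.2.2 _ _ d'.1 (d.1.pull hF.toInv hF'.toInv E fun _ _ => rfl)) fun _ => rfl
    | _ => exact b.rp_of_cl h' h d'.1 d.1 (a.mono e) a rfl c

theorem kd_sub (B' : Set (Λ → ℂ)) (A' : Set J) :
    ch.kd ν κ (F.sub B' A') e = ch.kd ν κ F e := rfl

theorem adm_sub {B' : Set (Λ → ℂ)} {A' : Set J} (hB : B' ⊆ F.B) (hA : F.zer = A') :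
    ch.adm ν κ (F.sub B' A') = ch.adm ν κ F ∩ {x | x.1 ∈ B'} := by
  subst hA
  exact Set.ext fun _ => ⟨fun h => ⟨⟨⟨hB h.1.1, h.1.2⟩, h.2⟩, h.1.1⟩, fun h => ⟨⟨h.2, h.1.1.2⟩, h.1.2⟩⟩

theorem solF_sub {B' : Set (Λ → ℂ)} {A' : Set J} (hB : B' ⊆ F.B) (hA : F.zer = A') :
    ch.solF ν κ (F.sub B' A') = ch.solF ν κ F ∩ {x | x.1 ∈ B'} := by
  subst hA
  exact Set.ext fun _ => ⟨fun h => ⟨⟨⟨hB h.1.1, h.1.2⟩, h.2⟩, h.1.1⟩, fun h => ⟨⟨h.2, h.1.1.2⟩, h.1.2⟩⟩

theorem dom_sub {B' : Set (Λ → ℂ)} {A' : Set J} (hB : B' ⊆ F.B) (hA : F.zer = A') :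
    ch.dom ν κ (F.sub B' A') e = ch.dom ν κ F e ∩ {x | x.1 ∈ B'} :=
  Set.ext fun _ => ⟨fun h => ⟨⟨((adm_sub hB hA).le h.1).1, fun a => ((solF_sub hB hA).le (h.2 a)).1⟩,
    h.1.1.1⟩, fun h => ⟨(adm_sub hB hA).ge ⟨h.1.1, h.2⟩, fun a => (solF_sub hB hA).ge ⟨h.1.2 a, h.2⟩⟩⟩

theorem main_sub {B' : Set (Λ → ℂ)} {A' : Set J} (hB : B' ⊆ F.B) (hA : F.zer = A')
    (u : ν → J → ℕ) :
    ch.main κ (F.sub B' A') u = ch.main κ F u ∩ {x | x.1 ∈ B'} := by
  subst hA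
  exact Set.ext fun _ => ⟨fun h => ⟨⟨((adm_sub hB rfl).le h.1).1, h.2⟩, h.1.1.1⟩,
    fun h => ⟨(adm_sub hB rfl).ge ⟨h.1.1, h.2⟩, h.1.2⟩⟩

theorem baseF_mono {B B' : Set (Λ → ℂ)} (hB : B' ⊆ B) : ch.baseF ν κ B' ⊆ ch.baseF ν κ B :=
  fun _ h => ⟨hB h.1, h.2⟩

theorem solF_sub_le {B' : Set (Λ → ℂ)} {A' : Set J} (hB : B' ⊆ F.B) (hz : F.zer ⊆ A') :
    ch.solF ν κ (F.sub B' A') ⊆ ch.solF ν κ F := fun _ h =>
  ⟨baseF_mono hB h.1, h.2.1, fun z a => (h.2.2 z a).imp fun _ b =>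
    ⟨⟨⟨b.1.1.1, b.1.1.2.1, fun j hj => b.1.1.2.2 j (hz hj)⟩, b.1.2⟩, b.2⟩⟩

/-- good charts restrict to subfamilies -/
theorem Ok.subF (h : ch.Ok F e K₀ ℓ b U) {B' : Set (Λ → ℂ)} {A' : Set J} {b' : ℕ} (hB : B' ⊆ F.B)
    (hz : F.zer ⊆ A') (hF' : (F.sub B' A').Inv) (hs : (F.sub B' A').Sm b') :
    ch.Ok (F.sub B' A') e K₀ ℓ b' U :=
  ⟨⟨hF', h.reg.sub hB hz, ⟨h.fits.wt, h.fits.le, h.fits.ne⟩, h.cuts, h.wt⟩,
    ⟨h.pr.opn, h.pr.inv, (solF_sub_le hB hz).trans h.pr.sol,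
      h.pr.prp.mono (inter_subset_inter_left _ (baseF_mono hB)),
      fun y a => h.pr.den y ⟨baseF_mono hB a.1, a.2⟩⟩, h.num, h.lat, hs⟩

/-- the neighbourhood can be shrunk -/
theorem Ok.inter (h : ch.Ok F e K₀ ℓ b U) {O : Set (ch.WF ν κ Λ)} (hO : IsOpen O)
    (hi : Ivt (actF F.toWt) O) (hs : ch.solF ν κ F ⊆ O) : ch.Ok F e K₀ ℓ b (U ∩ O) :=
  ⟨h.toStd, ⟨h.pr.opn.inter hO, fun s a x c => ⟨h.pr.inv s a x c.1, hi s a x c.2⟩,
    subset_inter h.pr.sol hs, h.pr.prp.mono (inter_subset_inter_right _ inter_subset_left),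
    fun y a => h.pr.den y ⟨a.1, a.2.1⟩⟩, h.num, h.lat, h.sm⟩

end Ch

end Vale.Agent.P269
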