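import Vale.Agent.P287Q.G.Spl.Geo3
import Vale.Agent.P287Q.G.Spl.Prj
import Vale.Agent.P287Q.G.Map.Hol
import Vale.Agent.P269.Cpt.Conv

/-!
# Convergence in the chart; construction of points with `A_i = A_o`
-/

set_option linter.unusedSectionVars false

namespace Vale.Agent.P269.Ch

open Set Function Topology Filter Holo Base Cv

variable {J ι ν ν' κ ε α : Type} [Fintype J] [Fintype ι] [DecidableEq ι] [Fintype ν] [Fintype ν']
  [Fintype κ] [Fintype ε] {ch : Ch ι J} {i : ι} {h : ch.o ≠ i} {n : ℕ} {b c : J}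

namespace CnvP

section

variable {E F : Type} [NormedAddCommGroup E] [NormedSpace ℂ E] [FiniteDimensional ℂ E]
  [NormedAddCommGroup F] [NormedSpace ℂ F] {l : Filter α}

theorem tendsto_clm {T : α → E →L[ℂ] F} {T' : E →L[ℂ] F}
    (h : ∀ e, Tendsto (fun n => T n e) l (𝓝 (T' e))) : Tendsto T l (𝓝 T') := by
  let e : (E →L[ℂ] F) ≃L[ℂ] Fin (Module.finrank ℂ E) → F :=
    ((ContinuousLinearEquiv.ofFinrankEq (Module.finrank_fin_fun ℂ).symm).arrowCongr
      (1 : F ≃L[ℂ] F)).trans (ContinuousLinearEquiv.piRing _)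
  rw [e.toHomeomorph.isInducing.tendsto_nhds_iff]
  exact tendsto_pi_nhds.2 fun i => h _

theorem tendsto_ap {T : α → E →L[ℂ] F} {T' : E →L[ℂ] F} {e : α → E} {e' : E}
    (hT : Tendsto T l (𝓝 T')) (he : Tendsto e l (𝓝 e')) :
    Tendsto (fun q => T q (e q)) l (𝓝 (T' e')) :=
  (isBoundedBilinearMap_apply.continuous.tendsto (T', e')).comp (hT.prodMk_nhds he)

theorem ev_bij {T : α → E →L[ℂ] F} {T' : E →L[ℂ] F} (hT : Tendsto T l (𝓝 T'))
    (h : Bijective T') : ∀ᶠ q in l, Bijective (T q) :=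
  hT.eventually (eventually_bijective (m := id) continuousAt_id h)

/-- reconstruction operators -/
theorem exists_T {W : Type} {u : W → E →L[ℂ] ℂ} {G : Set W}
    (h : ∀ e, (∀ y ∈ G, u y e = 0) → e = 0) {u' : W → α → E →L[ℂ] ℂ}
    (hu : ∀ y ∈ G, Tendsto (u' y) l (𝓝 (u y))) :
    ∃ (T : α → E →L[ℂ] E) (G' : Set W), G'.Finite ∧ G' ⊆ G ∧ (∀ᶠ q in l, Bijective (T q)) ∧
      Tendsto (fun q => (T q).inverse) l (𝓝 (.id ℂ E)) ∧
      (∀ q e, (∀ y ∈ G', u' y q e = 0) → T q e = 0) ∧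
      ∀ (e : α → E) e', (∀ y ∈ G, Tendsto (fun q => u' y q (e q)) l (𝓝 (u y e'))) →
        Tendsto (fun q => T q (e q)) l (𝓝 e') := by
  obtain ⟨m, y, c, hy, hc⟩ := Cpt.ConvP.pts (fun y => (u y).toLinearMap) h
  have k : ∀ (e : α → E) e', (∀ y ∈ G, Tendsto (fun q => u' y q (e q)) l (𝓝 (u y e'))) →
      Tendsto (fun q => (∑ a, (u' (y a) q).smulRight (c a)) (e q)) l (𝓝 e') := fun e e' a => by
    have := tendsto_finsetSum Finset.univ fun k _ => (a _ (hy k)).smul_const (c k)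
    rw [show ∑ k, u (y k) e' • c k = e' from hc e'] at this
    simpa using this
  have t : Tendsto (fun q => ∑ a, (u' (y a) q).smulRight (c a)) l (𝓝 (.id ℂ E)) :=
    tendsto_clm fun e => k _ e fun z hz => tendsto_ap (hu z hz) tendsto_const_nhds
  refine ⟨_, range y, finite_range y, range_subset_iff.2 hy, ev_bij t bijective_id, ?_,
    fun q e a => by simp [a], k⟩
  have := (analyticAt_clm_inverse (l := .id ℂ E) bijective_id).continuousAt.tendsto.comp t
  rwa [ContinuousLinearMap.inverse_id] at this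

theorem tendsto_of_eval {W : Type} {u : W → E →L[ℂ] ℂ} {G : Set W}
    (h : ∀ e, (∀ y ∈ G, u y e = 0) → e = 0) {u' : W → α → E →L[ℂ] ℂ}
    (hu : ∀ y ∈ G, Tendsto (u' y) l (𝓝 (u y))) {e : α → E} {e' : E}
    (he : ∀ y ∈ G, Tendsto (fun q => u' y q (e q)) l (𝓝 (u y e'))) : Tendsto e l (𝓝 e') := by
  obtain ⟨T, -, -, -, a, d, -, f⟩ := exists_T h hu
  exact (tendsto_ap d (f e e' he)).congr'
    (a.mono fun q k => (isInvertible_of_bijective k).inverse_apply_self _)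

end

variable {x : ch.W ν'} {G : Set (V ch.M)} {S : ∀ l, ch.E l →L[ℂ] Tens ch.M (ch.a l)}

variable (S) in
/-- the evaluation maps in terms of the splitting -/
noncomputable def evS (T : ∀ l, ch.E l →L[ℂ] ch.E l) (y : V ch.M) (l : Option J) :
    ch.E l →L[ℂ] ℂ := evL _ y ∘L S l ∘L (T l).inverse

theorem evS_mem (hS : ∀ l, Bijective (x.Q l ∘L S l)) {y : V ch.M} (hy : y ∈ crv x) :
    (y, evS S (fun l => x.Q l ∘L S l) y) ∈ gr x := by
  obtain ⟨u, hu⟩ := mem_crv.1 hy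
  refine ⟨hu.1, fun l μ => ?_⟩
  change val (S l ((x.Q l ∘L S l).inverse (x.Q l μ))) y = val μ y
  rw [← hu.2 l, ← hu.2 l μ, ← ContinuousLinearMap.comp_apply (x.Q l) (S l),
    (isInvertible_of_bijective (hS l)).self_apply_inverse]

theorem tendsto_evS {l : Filter α} {T : α → ∀ l, ch.E l →L[ℂ] ch.E l}
    {T₀ : ∀ l, ch.E l →L[ℂ] ch.E l} {y : α → V ch.M} {y₀ : V ch.M} {o : Option J}
    (h₀ : Bijective (T₀ o)) (hT : Tendsto (fun q => T q o) l (𝓝 (T₀ o)))
    (hy : Tendsto y l (𝓝 y₀)) : Tendsto (fun q => evS S (T q) (y q) o) l (𝓝 (evS S T₀ y₀ o)) :=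
  tendsto_clm fun e => by
    have := tendsto_ap ((analyticAt_evL y₀).continuousAt.tendsto.comp hy)
      (((S o).continuous.tendsto _).comp (tendsto_ap
        ((analyticAt_clm_inverse h₀).continuousAt.tendsto.comp hT) (tendsto_const_nhds (x := e))))
    exact this

theorem eq_zero (hx : x ∈ ch.base ν') (hG : crv x ⊆ closure (G ∩ crv x)) {l : Option J}
    {μ : Tens ch.M (ch.a l)} (h : ∀ y ∈ G ∩ crv x, val μ y = 0) : x.Q l μ = 0 :=
  hx.2.1 l μ fun _ hy => closure_minimal (t := {y | val μ y = 0}) h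
    (isClosed_eq (Pol.cont (val_mem μ)) continuous_const) (hG hy)

theorem wedge_update (μ : Tn ch.M ch.slot) (y w w' : V ch.M) :
    wedge μ y (update w ch.o (w' ch.o)) = wedge μ y w' := by
  simp only [wedge_eq, update_self]

end CnvP

open CnvP

section cnv

variable {l : Filter α} {x : α → ch.W ν'} {x₀ : ch.W ν'} {G : Set (V ch.M)}
  {S : ∀ l, ch.E l →L[ℂ] Tens ch.M (ch.a l)}

set_option linter.unusedVariables false in
/-- the splitting stays a splitting if the points converge -/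
theorem eventually_bij (h₀ : x₀ ∈ ch.base ν') (hx : ∀ᶠ q in l, x q ∈ ch.base ν')
    (hS : ∀ l, Bijective (x₀.Q l ∘L S l)) (hG : crv x₀ ⊆ closure (G ∩ crv x₀))
    (hy : ∀ y ∈ G ∩ crv x₀, ∃ y' : α → V ch.M, Tendsto y' l (𝓝 y) ∧ ∀ᶠ q in l, y' q ∈ crv (x q)) :
    ∀ᶠ q in l, ∀ l, Bijective ((x q).Q l ∘L S l) := by
  choose! y' h1 h2 using hy
  refine eventually_all.2 fun o => ?_
  obtain ⟨T, G', a1, a2, a3, -, a4, -⟩ := exists_T (u := fun y => evL _ y ∘L S o)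
    (fun e he => (injective_iff_map_eq_zero _).1 (hS o).1 e (eq_zero h₀ hG he))
    (u' := fun y q => evL _ (y' y q) ∘L S o) fun y hy => tendsto_clm fun e =>
      (analyticAt_val (S o e) y).continuousAt.tendsto.comp (h1 y hy)
  filter_upwards [a3, (eventually_all_finite a1).2 fun y hy => h2 y (a2 hy)] with q e1 e2
  refine bijective_of_injective _ ((injective_iff_map_eq_zero _).2 fun e he => ?_) rfl
  exact (injective_iff_map_eq_zero _).1 e1.1 e
    (a4 q e fun y hy => (mem_crv_iff.1 (e2 y hy)).2 o _ he)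

set_option linter.unusedVariables false in
/-- **convergence in the chart from pointwise convergence** -/
theorem tendsto_of_pts (h₀ : x₀ ∈ ch.base ν') (hx : ∀ᶠ q in l, x q ∈ ch.base ν')
    (hS : ∀ l, Bijective (x₀.Q l ∘L S l))
    (hQ : ∀ o, Tendsto (fun q => (x q).Q o ∘L S o) l (𝓝 (x₀.Q o ∘L S o)))
    (hp : Tendsto (fun q => (x q).p) l (𝓝 x₀.p)) {A : Set J}
    (hX : ∀ j ∉ A, Tendsto (fun q => (x q).X j) l (𝓝 (x₀.X j)))
    (hA : ∀ j ∈ A, Sc x₀ j ∧ ∀ᶠ q in l, Sc (x q) j) (hG : crv x₀ ⊆ closure (G ∩ crv x₀))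
    (hy : ∀ y ∈ G ∩ crv x₀, ∃ (y' w' : α → V ch.M) (ρ' : α → ℂ) (w : V ch.M) (ρ : ℂ),
      Tendsto y' l (𝓝 y) ∧ Tendsto (fun q => w' q ch.o) l (𝓝 (w ch.o)) ∧ Tendsto ρ' l (𝓝 ρ) ∧
      LeadAt x₀ y w ρ ∧ (∀ᶠ q in l, y' q ∈ crv (x q) ∧ LeadAt (x q) (y' q) (w' q) (ρ' q)) ∧
      ∀ j ∈ A, Tendsto (fun q => fld (x q) (y' q) j) l (𝓝 (fld x₀ y j))) :
    Tendsto x l (𝓝 x₀) := by
  choose! y' w' ρ' w ρ h1 h2 h3 h4 h5 h6 using hy
  have g₀ : ∀ y ∈ G ∩ crv x₀, _ := fun y hy => evS_mem hS hy.2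
  have g : ∀ y ∈ G ∩ crv x₀, ∀ᶠ q in l,
      (y' y q, evS S (fun o => (x q).Q o ∘L S o) (y' y q)) ∈ gr (x q) := fun y hy =>
    ((eventually_all.2 fun o => ev_bij (hQ o) (hS o)).and (h5 y hy)).mono fun q e =>
      evS_mem e.1 e.2.1
  have key : ∀ o (e : α → ch.E o) e', (∀ y ∈ G ∩ crv x₀,
      Tendsto (fun q => evS S (fun o => (x q).Q o ∘L S o) (y' y q) o (e q)) l
        (𝓝 (evS S (fun o => x₀.Q o ∘L S o) y o e'))) → Tendsto e l (𝓝 e') := fun o e e' =>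
    tendsto_of_eval (u := fun y => evS S (fun o => x₀.Q o ∘L S o) y o) (fun v hv => by
      obtain ⟨μ, rfl⟩ := h₀.1 o v
      exact eq_zero h₀ hG fun y hy => ((g₀ y hy).2 o μ).symm.trans (hv y hy))
      fun y hy => tendsto_evS (hS o) (hQ o) (h1 y hy)
  have v : ∀ y ∈ G ∩ crv x₀, ∀ {a : ι → ℕ} (μ : Tens ch.M a),
      Tendsto (fun q => val μ (y' y q)) l (𝓝 (val μ y)) := fun y hy a μ =>
    (analyticAt_val μ y).continuousAt.tendsto.comp (h1 y hy)
  refine Tendsto.prodMk_nhds (tendsto_pi_nhds.2 fun o => tendsto_clm fun μ => key o _ _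
    fun y hy => ?_) (Tendsto.prodMk_nhds hp (Tendsto.prodMk_nhds
      (tendsto_clm fun μ => key none _ _ fun y hy => ?_) (tendsto_pi_nhds.2 fun j => ?_)))
  · exact ((g₀ y hy).2 o μ).symm ▸ (v y hy μ).congr'
      ((g y hy).mono fun q e => (e.2 o μ).symm)
  · have := tendsto_wedge (tendsto_const_nhds (x := μ)) (h1 y hy)
      ((tendsto_const_nhds (x := w y)).update ch.o (h2 y hy))
    simp only [wedge_update] at this
    exact (h4 y hy _ (g₀ y hy) μ).symm ▸ ((h3 y hy).mul this).congr'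
      (((g y hy).and (h5 y hy)).mono fun q e => (e.2.2 _ e.1 μ).symm)
  · by_cases hj : j ∈ A
    swap
    · exact hX j hj
    refine tendsto_clm fun μ => key (some j) _ _ fun y hy => ?_
    exact (val_fld ((hA j hj).1 y hy.2) _ (g₀ y hy) μ).symm ▸ ((h6 y hy j hj).mul (v y hy μ)).congr'
      (((g y hy).and ((h5 y hy).and (hA j hj).2)).mono fun q e =>
        (val_fld (e.2.2 _ e.2.1.1) _ e.1 μ).symm)

end cnv

namespace CnvP

variable {X : Type} [TopologicalSpace X] [T2Space X] [CompactSpace X] {R : RS X}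
  {N : Finset (X × X)}

theorem PP_add_le {M : ι → ℕ} {π : X → V M} (a a' : ι → ℕ) :
    PP π (a + a') ≤ PP π a * PP π a' := by
  rw [PP, Pol_eq_span, Submodule.map_span, Submodule.span_le]
  rintro _ ⟨_, ⟨ℓ, rfl⟩, rfl⟩
  have := Submodule.mul_mem_mul (M := PP π a) (N := PP π a')
    ⟨_, prod_lin_mem (a := a) fun s => ℓ ⟨s.1, Fin.castAdd _ s.2⟩, rfl⟩
    ⟨_, prod_lin_mem (a := a') fun s => ℓ ⟨s.1, Fin.natAdd _ s.2⟩, rfl⟩
  refine (congrArg (· ∈ PP π a * PP π a') (funext fun z => ?_)).mp this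
  simp only [Pi.mul_apply, LinearMap.funLeft_apply, Fintype.prod_sigma, ← Finset.prod_mul_distrib]
  exact Finset.prod_congr rfl fun i _ =>
    (Fin.prod_univ_add (a := a i) (b := a' i) fun k => ℓ ⟨i, k⟩ (π z i)).symm

/-- the curve with the factor `o` repeated -/
theorem par_dup {A : ι → LB R} {π : X → V ch.M} {C : Set (V (ch.flat h).M)}
    {L : (Fin (ch.M ch.o) → ℂ) →L[ℂ] Fin (ch.M i) → ℂ} (hL : Bijective L) (hm : ch.m i = ch.m ch.o)
    (hA : A i = A ch.o) (hπ : ∀ z, π z i = L (π z ch.o))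
    (p : Par (ch.flat h).o C N (fun j => A j.1) fun z => pj i (π z))
    (hC : IsCurve (ch.flat h).o ch.g (ch.flat h).m C) :
    Par ch.o (cone π) N A π ∧ IsCurve ch.o ch.g ch.m (cone π) := by
  have f := p.full hC
  have sec : ∀ j k, (fun z => π z j k) ∈ H0 N (A j) := fun j k => by
    by_cases e : j = i
    · subst e
      simp only [hπ, hA]
      exact lin_mem p.sec ⟨ch.o, h⟩ ((.proj k : (_ → ℂ) →L[ℂ] ℂ) ∘L L)
    · exact p.sec ⟨j, e⟩ k
  have full : Full N A π := ⟨sec, fun j s hs => by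
    by_cases e : j = i
    · subst e
      obtain ⟨l, hl⟩ := f.span ⟨ch.o, h⟩ s (hA ▸ hs :)
      refine ⟨l ∘L L.inverse, fun z => (hl z).trans ?_⟩
      rw [hπ, ContinuousLinearMap.comp_apply, (isInvertible_of_bijective hL).inverse_apply_self]
      rfl
    · exact f.span ⟨j, e⟩ s hs⟩
  have par : Par ch.o (cone π) N A π := by
    refine ⟨p.nd, sec, fun z j => ?_, fun _ => Iff.rfl,
      fun z z' t e => p.inj z z' (fun j => t j.1) (congrArg (pj i) e), fun z => ?_, fun n hn => ?_⟩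
    · by_cases e : j = i
      · subst e
        exact fun k => p.ne z ⟨ch.o, h⟩ (hL.1 (((hπ z).symm.trans k).trans (map_zero L).symm))
      · exact p.ne z ⟨j, e⟩
    · have := p.imm z
      rwa [br_rV, deriv_rV (an_br sec z)] at this
    · have := p.cross n hn
      rwa [br_rV, br_rV, deriv_rV (an_br sec _), deriv_rV (an_br sec _)] at this
  obtain ⟨σ, h1, h2⟩ : ∃ σ : ι → {j // j ≠ i}, (∀ j, A (σ j).1 = A j) ∧
      ∀ j, ch.m (σ j).1 = ch.m j := by
    refine ⟨fun j => if e : j = i then ⟨ch.o, h⟩ else ⟨j, e⟩, fun j => ?_, fun j => ?_⟩ <;>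
      by_cases e : j = i <;> simp [e, hA, hm]
  have key : ∀ a : ι → ℕ, a ≠ 0 → ∃ a' : {j // j ≠ i} → ℕ, a' ≠ 0 ∧
      (bz A fun j => a j) = bz (fun j : {j // j ≠ i} => A j.1) fun j => a' j := fun a ha => by
    refine ⟨∑ j, Pi.single (σ j) (a j), fun e => ha (funext fun j => ?_), ?_⟩
    · have := congrFun e (σ j)
      rw [Finset.sum_apply] at this
      simpa using Finset.sum_eq_zero_iff.1 this j (Finset.mem_univ j)
    · rw [← funext h1, ← bz_psh (σ := σ) fun j : {j // j ≠ i} => A j.1]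
      simp only [h1]
      refine congrArg _ (funext fun k => ?_)
      simp [psh, Finset.sum_apply, Pi.single_apply]
  have num := p.numbers hC
  have cur := par.isCurve (full.normal fun a ha j => by
    obtain ⟨a', ha', e⟩ := key a ha
    obtain ⟨b', -, e'⟩ := key _ (single_ne j)
    rw [cast_single, bz_single, zpow_one] at e'
    rw [e, e', ← bz_add, show ((fun j => (a' j : ℤ)) + fun j => (b' j : ℤ)) =
      fun j => ((a' + b') j : ℤ) from funext fun j => (Nat.cast_add (a' j) (b' j)).symm]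
    exact (p.le_PP hC fun k => ha' (add_eq_zero.1 k).1).trans ((PP_add_le a' b').trans
      (mul_le_mul' (PP_le p.sec a') (PP_le p.sec b')))) fun a ha => by
    obtain ⟨a', ha', e⟩ := key a ha
    exact e ▸ num.2.2 a' ha'
  rw [num.1, show (fun j => deg (A j)) = ch.m from funext fun j =>
    h1 j ▸ h2 j ▸ num.2.1 (σ j)] at cur
  exact ⟨par, cur⟩

theorem prod_wb (hc : ch.DgC i b c) {s : ι → ℂ} (hs : ∀ j, s j ≠ 0) :
    ∏ j, s j ^ ch.wd b j = s i / s ch.o := by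
  have e : ∀ k : ι, ∏ j, s j ^ (Pi.single k 1 : ι → ℤ) j = s k := fun k => by
    rw [Finset.prod_eq_single k (fun j _ hj => by simp [hj]) (by simp), Pi.single_eq_same, zpow_one]
  simp only [hc.wb, Pi.sub_apply, zpow_sub₀ (hs _), Finset.prod_div_distrib, e]

theorem prod_wc (hc : ch.DgC i b c) {s : ι → ℂ} (hs : ∀ j, s j ≠ 0) :
    ∏ j, s j ^ ch.wd c j = (s i / s ch.o)⁻¹ := by
  simp only [hc.wc, Pi.neg_apply, zpow_neg, Finset.prod_inv_distrib, prod_wb hc hs]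

end CnvP

set_option linter.unusedVariables false in
/-- **construction** of the point with `A_i = A_o` over a given projected curve -/
theorem DgC.exists_bc (hc : ch.DgC i b c) (hm : ch.m i = ch.m ch.o) {x₀ : ch.W ν'}
    (h₀ : x₀ ∈ ch.base ν') {y : (ch.flat h).W (Mk ν κ)}
    (hy : y ∈ (ch.flat h).bm ν κ) {L : (Fin (ch.M ch.o) → ℂ) →L[ℂ] Fin (ch.M i) → ℂ}
    (hL : Bijective L) {t : ℂ} (ht : t ≠ 0) {β : ν ⊕ κ → ℂ} (hβ : ∀ a, β a ≠ 0) :
    ∃ x, Bc x b c t ∧ Prj x y ∧ (∀ z ∈ crv x, z i = fld x z b • L (z ch.o)) ∧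
      ∀ a, fld x (x.p (a.map id (·, false))) b = β a := by
  classical
  obtain ⟨X, _, _, _, R, N, A', π', u', p, ξ, k⟩ := exists_cr hy.1
  have ni : i ∉ range (Subtype.val : {j // j ≠ i} → ι) := fun ⟨j, e⟩ => j.2 e
  obtain ⟨A, a1, a2⟩ := exists_dep' (E := fun _ => LB R) Subtype.val_injective
    (fun _ => A' ⟨ch.o, h⟩) A'
  choose π b1 b2 using fun z => exists_dep' (E := fun j => Fin (ch.M j) → ℂ) Subtype.val_injective
    (Pi.single i (L (π' z ⟨ch.o, h⟩))) (π' z)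
  obtain rfl : (fun j : {j // j ≠ i} => A j.1) = A' := funext a1
  obtain rfl : (fun z => pj i (π z)) = π' := funext₂ b1
  have hA : A i = A ch.o := a2 i ni
  have hπ : ∀ z, π z i = L (π z ch.o) := fun z => (b2 z i ni).trans (Pi.single_eq_same _ _)
  obtain ⟨par, cur⟩ := par_dup hL hm hA hπ k.par k.cur
  obtain ⟨Q, Ξ, u, H⟩ := par.exists_base cur hc.a_ne (fun l => h_eq₁ h₀ (hc.a_ne l)) (l := none)
    (fun j => (hc.cut j).trans' (by norm_num)) ((hc.cut _).trans' (by norm_num)) k.sm k.inj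
    (hc.bz_χ (h := h) A ▸ k.xi) k.ne
  choose s s1 s2 using k.mark
  choose r r1 r2 using fun n => exists_dep' (E := fun _ => ℂ) Subtype.val_injective
    (fun _ => β (Sum.map id Prod.fst n) * s n ⟨ch.o, h⟩) (s n)
  have r3 : ∀ n j, r n j ≠ 0 := fun n j => by
    by_cases e : j = i
    · rw [e, r2 n i ni]
      exact mul_ne_zero (hβ _) (s1 n _)
    · exact r1 n ⟨j, e⟩ ▸ s1 n _
  have r4 : ∀ n, r n i / r n ch.o = β (Sum.map id Prod.fst n) := fun n => by
    rw [r2 n i ni, r1 n ⟨ch.o, h⟩, mul_div_cancel_right₀ _ (s1 n _)]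
  have k0 := fun F => (H (fun n => r n • π (p n)) F fun n => ⟨r n, r3 n, rfl⟩).2
  have wb : bz A (ch.wd b) = 1 := by
    rw [hc.wb, bz_sub, bz_single, bz_single, hA, div_self']
  have wc : bz A (ch.wd c) = 1 := by
    rw [hc.wc, ← neg_one_smul ℤ, bz_smul, wb, one_zpow]
  obtain ⟨Fb, hb⟩ := (k0 0).exists_field (hc.a_ne (some b)) (s := 1)
    (show _ ∈ H0 N (bz A (ch.wd b)) from wb ▸ H0.one_mem)
  obtain ⟨Fc, hc'⟩ := (k0 0).exists_field (hc.a_ne (some c)) (s := t • 1)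
    (show _ ∈ H0 N (bz A (ch.wd c)) from wc ▸ Submodule.smul_mem _ t H0.one_mem)
  obtain ⟨x, k1, e, ib, ic⟩ : ∃ x : ch.W (Mk ν κ), Cr N A x π u p ξ ∧
      (∀ n, x.p n = r n • π (p n)) ∧ Ind x π u b 1 ∧ Ind x π u c (t • 1) :=
    let F : ∀ j, Tens ch.M (ch.b j) →L[ℂ] ch.E (some j) := update (update 0 b Fb) c Fc
    have e1 : F b = Fb := (update_of_ne hc.bc _ _).trans (update_self ..)
    have e2 : F c = Fc := update_self ..
    ⟨_, k0 F, fun _ => rfl, fun z μ => (e1 ▸ hb z μ :), fun z μ => (e2 ▸ hc' z μ :)⟩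
  have P : Prj x y := ⟨fun n => by rw [s2, e, pj_smul, funext (r1 n)], X, _, ‹_›, ‹_›, R, N, A, π, u,
    p, ξ, u', k1, k⟩
  have fb : ∀ z {s : ι → ℂ}, (∀ j, s j ≠ 0) → fld x (s • π z) b = s i / s ch.o := fun z s hs => by
    rw [k1.fld_smul ib z hs, prod_wb hc hs, Pi.one_apply, mul_one]
  have fc : ∀ z {s : ι → ℂ}, (∀ j, s j ≠ 0) → fld x (s • π z) c = (s i / s ch.o)⁻¹ * t :=
    fun z s hs => by
      rw [k1.fld_smul ic z hs, prod_wc hc hs, Pi.smul_apply, Pi.one_apply, smul_eq_mul, mul_one]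
  refine ⟨x, ⟨⟨k1.mem, fun q => ?_⟩, k1.exists_ind_iff.1 ⟨_, ib⟩, k1.exists_ind_iff.1 ⟨_, ic⟩,
    fun w hw => ?_, fun q => ?_, fun q => ?_⟩, P, fun w hw => ?_, fun a => ?_⟩
  · rw [← P.rsd hc, ← P.rsd hc]
    exact hy.2 q
  · obtain ⟨z, s, hs, rfl⟩ := (k1.par.img w).1 hw
    rw [fb z hs, fc z hs, mul_inv_cancel_left₀ (div_ne_zero (hs _) (hs _))]
  · rw [e, e, fb _ (r3 _), fb _ (r3 _), r4, r4]
    rfl
  · rw [e, e, fc _ (r3 _), fc _ (r3 _), r4, r4]
    rfl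
  · obtain ⟨z, s, hs, rfl⟩ := (k1.par.img w).1 hw
    rw [fb z hs, Pi.smul_apply', Pi.smul_apply', hπ, map_smul, smul_smul, div_mul_cancel₀ _ (hs _)]
  · rw [e, fb _ (r3 _), r4]
    cases a <;> rfl

end Vale.Agent.P269.Ch
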