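import Vale.Agent.P287Q.G.Spl.Ver
import Vale.Agent.P287Q.G.Spl.ML
import Vale.Agent.P287Q.G.Spl.Cnv

/-!
# Existence of smoothings
-/

set_option linter.unusedSectionVars false

namespace Vale.Agent.P269.Ch

open Set Function Topology Filter Holo Base Cv

variable {J ι ν ν' κ ε α : Type} [Fintype J] [Fintype ι] [DecidableEq ι] [Fintype ν] [Fintype ν']
  [Fintype κ] [Fintype ε] {ch : Ch ι J} {i : ι} {h : ch.o ≠ i} {n : ℕ} {b c : J}

theorem Ex.li_smul {β E : Type} [AddCommGroup E] [Module ℂ E] {f : β → E} (hf : LinearIndependent ℂ f)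
    {r : β → ℂ} (hr : ∀ j, r j ≠ 0) : LinearIndependent ℂ fun j => r j • f j :=
  hf.units_smul fun j => Units.mk0 _ (hr j)

theorem Ex.exists_bij {m m' : ℕ} {f : Fin m → Fin m' → ℂ} {g : Fin m → Fin m → ℂ}
    (hf : LinearIndependent ℂ f) (hg : LinearIndependent ℂ g) (e : m = m') :
    ∃ L : (Fin m' → ℂ) →L[ℂ] Fin m → ℂ, Bijective L ∧ ∀ j, L (f j) = g j := by
  let B := basisOfLinearIndependentOfCardEqFinrank' f hf (by simpa using e)
  let B' := basisOfLinearIndependentOfCardEqFinrank' g hg (by simp)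
  refine ⟨(B.equiv B' (.refl _)).toContinuousLinearEquiv, (B.equiv B' (.refl _)).bijective,
    fun j => ?_⟩
  simpa [B, B'] using B.equiv_apply j B' (.refl _)

section prj

variable {x : ch.W ν'} {y : (ch.flat h).W ν'} {z : V ch.M}

theorem Prj.spcX (H : Prj x y) (hz : z ∈ Ch.crv x) : Spc y (pj i z) ↔ Spc x z := by
  obtain ⟨-, X, _, _, _, R, N, A, π, u, p, ξ, u', a, d⟩ := H
  obtain ⟨z, t, f, rfl⟩ := (a.par.img z).1 hz
  rw [a.spc_iff z f, pj_smul]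
  exact d.spc_iff z fun j => f j.1

/-- the value of the trivialisation only depends on the component `o` of the tangent vector -/
theorem Prj.leadAt_single (hc : ch.DgC i b c) (H : Prj x y) (hz : z ∈ Ch.crv x) {v : V (ch.flat h).M}
    {ρ : ℂ} (e : ∃ γ, IsBranch (ch.flat h).o (Ch.crv y) γ ∧ γ 0 = pj i z ∧ deriv γ 0 = v ∧
      ¬Spc y (γ 0) ∧ LeadAt y (γ 0) (deriv γ 0) ρ) :
    LeadAt x z (Pi.single ch.o (v ⟨ch.o, h⟩)) ρ := by
  obtain ⟨γ, g1, g2, rfl, g3, g4⟩ := e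
  have h1 := fun w a => H.orb (c := w) a hz
  obtain ⟨-, X, _, _, _, R, N, A, π, u, p, ξ, u', a, d⟩ := H
  obtain ⟨w, t, s, r, ht, hr, hw, e0, e1, k⟩ := d.exists_leadAt g1 g3
  obtain ⟨t', h2, rfl⟩ := h1 _ (a.par.mem w) ⟨t, ht, g2.symm.trans e0⟩
  obtain rfl : (fun j : {j // j ≠ i} => t' j.1) = t := funext fun j =>
    smul_left_injective ℂ (d.par.ne w j) (congrFun (g2.symm.trans e0) j)
  refine (a.leadAt_iff hw h2 hr (s := s ⟨ch.o, h⟩) ?_).2 (hc.prod_χ (h := h) t' ▸ (k ρ).1 g4)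
  rw [Pi.single_eq_same, e1, br_rV, deriv_rV (an_br a.par.sec w)]
  rfl

end prj

/-- The point `x` lies over `y`, and `b` identifies the factors `o` and `i` by means of `L`. -/
structure Ov (b c : J) (x : ch.W (Mk ν κ)) (y : (ch.flat h).W (Mk ν κ))
    (L : (Fin (ch.M ch.o) → ℂ) →L[ℂ] Fin (ch.M i) → ℂ) (t : ℂ) : Prop where
  bc : Bc x b c t
  ne : t ≠ 0
  prj : Prj x y
  lin : ∀ z ∈ crv x, z i = fld x z b • L (z ch.o)

section ov

variable {x : ch.W (Mk ν κ)} {y : (ch.flat h).W (Mk ν κ)} {L : _} {t : ℂ} {z : V ch.M}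

theorem Bc.fld_bv (H : Bc x b c t) (ht : t ≠ 0) (hz : z ∈ crv x) (s : Bool) :
    fld x z b = (if s then 1 else t) * bv x b c s z := by
  cases s
  · have := H.mul z hz
    exact (eq_mul_inv_iff_mul_eq₀ (right_ne_zero_of_mul (this ▸ ht))).2 this
  · exact (one_mul _).symm

theorem Bc.fld_fst (H : Bc x b c t) (m : Mk ν κ) :
    fld x (x.p m) b = fld x (x.p ((m.map id Prod.fst).map id (·, false))) b ∧
    fld x (x.p m) c = fld x (x.p ((m.map id Prod.fst).map id (·, false))) c := by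
  rcases m with m | ⟨q, _ | _⟩
  exacts [⟨rfl, rfl⟩, ⟨rfl, rfl⟩, ⟨(H.mtb q).symm, (H.mtc q).symm⟩]

theorem Ex.ite_ne {s : Bool} (ht : t ≠ 0) : (if s then 1 else t) ≠ 0 := by
  split_ifs
  exacts [one_ne_zero, ht]

/-- points with given projection and given value of `b` or `1 / c` -/
theorem Ov.exists_pt (hc : ch.DgC i b c) (H : Ov b c x y L t) {y' : V (ch.flat h).M}
    (hy : y' ∈ crv y) (s : Bool) {r : ℂ} (hr : r ≠ 0) :
    ∃ z ∈ crv x, pj i z = y' ∧ bv x b c s z = r := by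
  obtain ⟨z, hz, rfl⟩ := H.prj.crv ▸ hy
  have h1 : fld x z b ≠ 0 := left_ne_zero_of_mul (H.bc.mul z hz ▸ H.ne)
  let τ : ι → ℂ := update 1 i ((if s then 1 else t) * r / fld x z b)
  have h2 : ∀ j, τ j ≠ 0 := forall_update_iff _ (fun _ a => a ≠ 0) |>.2
    ⟨div_ne_zero (mul_ne_zero (Ex.ite_ne H.ne) hr) h1, fun _ _ => one_ne_zero⟩
  refine ⟨τ • z, crv_smul hz h2, funext fun j => ?_, mul_left_cancel₀ (Ex.ite_ne (s := s) H.ne) ?_⟩
  · change τ j.1 • z j.1 = z j.1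
    rw [show τ j.1 = 1 from update_of_ne j.2 _ _, one_smul]
  · rw [← H.bc.fld_bv H.ne (crv_smul hz h2), Ch.fld_smul hz (H.bc.scb z hz) h2, hc.wb]
    rw [chz, Finset.prod_eq_single i (fun j _ e => by rw [show τ j = 1 from update_of_ne e _ _,
      one_zpow]) (by simp)]
    simp [τ, hc.ne.symm, h1]

/-- change of the frame and of the other fields -/
theorem Ov.exists_frm (H : Ov b c x y L t)
    {S : ∀ l, ch.E l →L[ℂ] Tens ch.M (ch.a l)} (hS : ∀ l, Bijective (x.Q l ∘L S l)) {F : ch.Frm}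
    (hF : ∀ l, Bijective (F l))
    (X : ∀ j : {j // j ≠ b ∧ j ≠ c}, Tens ch.M (ch.b j) →L[ℂ] ch.E (some j)) :
    ∃ x', Ov b c x' y L t ∧ (∀ m, fld x' (x'.p m) b = fld x (x.p m) b) ∧
      (fun l => x'.Q l ∘L S l) = F ∧ (fun j : {j // j ≠ b ∧ j ≠ c} => x'.X j) = X := by
  classical
  let g : ch.Frm := fun l => F l ∘L (x.Q l ∘L S l).inverse
  have hg : IsUnit ((1, g, 1) : ch.A (Mk ν κ)) :=
    isUnit_frm fun l => (hF l).comp (isInvertible_of_bijective (hS l)).inverse.bijective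
  let x₁ := act (1, g, 1) x
  let Y : ch.Fld := fun j => if e : j ≠ b ∧ j ≠ c then X ⟨j, e⟩ else x₁.X j
  have h1 : crv (setX x₁ Y) = crv x := crv_frm hg x
  have h2 : (setX x₁ Y).p = x.p := funext fun _ => funext fun _ => one_smul ℂ _
  have h3 : ∀ j, ¬(j ≠ b ∧ j ≠ c) → ∀ z, Val (setX x₁ Y) j z = Val x j z := fun j e z =>
    funext fun r => propext (Iff.trans (by simp only [Val, setX, W.mk'_X, Y, dif_neg e]; rfl)
      (val_act (c := z) hg))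
  have h4 : ∀ z, fld (setX x₁ Y) z b = fld x z b := fun z =>
    congrArg Classical.epsilon (h3 b (by simp) z)
  have h5 : ∀ z, fld (setX x₁ Y) z c = fld x z c := fun z =>
    congrArg Classical.epsilon (h3 c (by simp) z)
  obtain ⟨e, X, _, _, _, R, N, A, π, u, p, ξ, u', a, d⟩ := H.prj
  refine ⟨setX x₁ Y, ⟨⟨bm_frm hg H.bc.mem, ?_, ?_, ?_, ?_, ?_⟩, H.ne,
    ⟨h2 ▸ e, X, _, ‹_›, ‹_›, R, N, A, π, _, p, ξ, u', (a.act hg).setX Y, d⟩, ?_⟩, fun m => ?_,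
    funext fun l => ?_, funext fun j => dif_pos j.2⟩
  · simpa only [Sc, h1, h3 b (by simp)] using H.bc.scb
  · simpa only [Sc, h1, h3 c (by simp)] using H.bc.scc
  · simpa only [h1, h4, h5] using H.bc.mul
  · simpa only [h2, h4] using H.bc.mtb
  · simpa only [h2, h5] using H.bc.mtc
  · simpa only [h1, h4] using H.lin
  · rw [h2, h4]
  · exact ContinuousLinearMap.ext fun v =>
      congrArg (F l) ((isInvertible_of_bijective (hS l)).inverse_apply_self v)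

end ov

variable {x₀ : ch.bm ν κ} {Ψ : PV n ε → (ch.flat h).W (Mk ν κ)} {k : _} {σ' : _} {σ : _}
  {u : ε → ℕ} {a a' : ε → ℂ} {D : ch.Cd ν κ h n ε}

theorem Vs.prjX (hv : Vs x₀ Ψ k σ' σ) : Prj x₀.1 (Ψ 0) := hv.k0 ▸ hv.prj.self_of_nhds x₀.2

theorem Lm.sideX (H : Lm b c x₀ Ψ k σ' σ u a a') {y : V ch.M} (hy : y ∈ crv x₀.1)
    (hs : ¬Spc x₀.1 y) : ∃ s : Bool, fld x₀.1 y (if s then b else c) ≠ 0 :=
  (H.gd.ne y hy fun e f => hs (.inl (H.gd.mem.2.2.1.nod.isNode_orb ⟨_, _, H.gd.cross e⟩ f))).elim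
    (⟨true, ·⟩) (⟨false, ·⟩)

theorem Ex.bv_ne {x : ch.W ν'} {y : V ch.M} {s : Bool} (e : fld x y (if s then b else c) ≠ 0) :
    bv x b c s y ≠ 0 := by
  cases s
  exacts [inv_ne_zero e, e]

section cnv

variable {U : Ultrafilter α} {v : α → PV n ε} {cf : α → ε → ℂ} {t : α → ℂ}
  {L : α → (Fin (ch.M ch.o) → ℂ) →L[ℂ] Fin (ch.M i) → ℂ} {x : α → ch.W (Mk ν κ)}
  (H : Lm b c x₀ Ψ k σ' σ u a a') (hs : Sqm u (a * a') U v cf t) (hD : D.Ok b c x₀ Ψ k)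
  (hL : ∀ j, Tendsto (fun q => (if D.sd j then 1 else t q) • L q (D.m j (v q) ⟨ch.o, h⟩)) U
    (𝓝 ((D.co b c k x₀).2.1 j))) (hx : ∀ᶠ q in U, Ov b c (x q) (Ψ (v q)) (L q) (t q))
include H hs hD hL hx

/-- points converge if their projections and the values of `b` or `1 / c` do -/
theorem Lm.tendsto_pt {y : V ch.M} (hy : y ∈ crv x₀.1) {z : α → V ch.M}
    (hz : ∀ᶠ q in U, z q ∈ crv (x q)) (h1 : Tendsto (fun q => pj i (z q)) U (𝓝 (pj i y))) {s : Bool}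
    (h2 : fld x₀.1 y (if s then b else c) ≠ 0)
    (h3 : Tendsto (fun q => bv (x q) b c s (z q)) U (𝓝 (bv x₀.1 b c s y))) :
    Tendsto z U (𝓝 y) ∧ ∀ j ∈ ({b, c} : Set J),
      Tendsto (fun q => fld (x q) (z q) j) U (𝓝 (fld x₀.1 y j)) := by
  have h4 := H.tendsto_lift hs hD hL hy h1 ((hx.and hz).mono fun q e => e.1.prj.mem_crv e.2)
  have h5 := H.bc.mul y hy
  suffices Tendsto (fun q => z q i) U (𝓝 (y i)) ∧
      Tendsto (fun q => fld (x q) (z q) b) U (𝓝 (fld x₀.1 y b)) ∧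
      Tendsto (fun q => fld (x q) (z q) c) U (𝓝 (fld x₀.1 y c)) by
    refine ⟨tendsto_pi_nhds.2 fun j => ?_, by simpa using this.2⟩
    by_cases e : j = i
    exacts [e ▸ this.1, tendsto_pi_nhds.1 h1 ⟨j, e⟩]
  cases s
  · have h6 : Tendsto (fun q => fld (x q) (z q) c) U (𝓝 (fld x₀.1 y c)) := by
      simpa only [bv, Bool.false_eq_true, if_false, inv_inv] using h3.inv₀ (Ex.bv_ne h2)
    refine ⟨?_, ?_, h6⟩
    · have h7 := h3.smul (h4.2 h2)
      rw [show bv x₀.1 b c false y • fld x₀.1 y c • y i = y i from inv_smul_smul₀ h2 _] at h7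
      refine h7.congr' ((hx.and hz).mono fun q e => ?_)
      simp only [e.1.lin _ e.2, e.1.bc.fld_bv e.1.ne e.2 false, smul_smul, mul_comm]
      rfl
    · have h7 := hs.t0.mul h3
      rw [zero_mul, ← (mul_eq_zero.1 h5).resolve_right h2] at h7
      exact h7.congr' ((hx.and hz).mono fun q e => (e.1.bc.fld_bv e.1.ne e.2 false).symm)
  · refine ⟨?_, h3, ?_⟩
    · have h7 := h3.smul (h4.1 h2)
      rw [show bv x₀.1 b c true y • (fld x₀.1 y b)⁻¹ • y i = y i from smul_inv_smul₀ h2 _] at h7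
      exact h7.congr' ((hx.and hz).mono fun q e => (e.1.lin _ e.2).symm)
    · have h7 := hs.t0.div h3 h2
      rw [zero_div, ← (mul_eq_zero.1 h5).resolve_left h2] at h7
      exact h7.congr' ((hx.and hz).mono fun q e => (eq_div_of_mul_eq
        (left_ne_zero_of_mul (e.1.bc.mul _ e.2 ▸ e.1.ne)) ((mul_comm _ _).trans
          (e.1.bc.mul _ e.2))).symm)

/-- ordinary points are limits -/
theorem Lm.exists_pts {y : V ch.M} (hy : y ∈ {y | ¬Spc x₀.1 y} ∩ crv x₀.1) :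
    ∃ (y' w' : α → V ch.M) (ρ' : α → ℂ) (w : V ch.M) (ρ : ℂ),
      Tendsto y' U (𝓝 y) ∧ Tendsto (fun q => w' q ch.o) U (𝓝 (w ch.o)) ∧ Tendsto ρ' U (𝓝 ρ) ∧
      LeadAt x₀.1 y w ρ ∧ (∀ᶠ q in U, y' q ∈ crv (x q) ∧ LeadAt (x q) (y' q) (w' q) (ρ' q)) ∧
      ∀ j ∈ ({b, c} : Set J), Tendsto (fun q => fld (x q) (y' q) j) U (𝓝 (fld x₀.1 y j)) := by
  have P := H.vs.prjX
  have h1 : ¬Spc (Ψ 0) (pj i y) := fun e => hy.1 ((P.spcX hy.2).1 e)
  obtain ⟨s, h2⟩ := H.sideX hy.2 hy.1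
  obtain ⟨σ₀, h3, h4⟩ := (H.vs.locFam H.dg).smAt (P.mem_crv hy.2) fun e => h1 (.inl e)
  have h5 : Tendsto (fun q => σ₀ (v q, 0)) U (𝓝 (pj i y)) :=
    h3 ▸ h4.an.continuousAt.tendsto.comp (hs.v0.prodMk_nhds tendsto_const_nhds)
  have h6 : ∀ᶠ q in U, σ₀ (v q, 0) ∈ crv (Ψ (v q)) :=
    ((hs.v0.prodMk_nhds tendsto_const_nhds).eventually h4.mem).mono fun _ d => d trivial
  obtain ⟨z, hz⟩ := ((hx.and h6).mono fun q e => e.1.exists_pt H.dg e.2 s (Ex.bv_ne h2)).choice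
  obtain ⟨h7, h8⟩ := H.tendsto_pt hs hD hL hx hy.2 (hz.mono fun _ e => e.1)
    (h5.congr' (hz.mono fun _ e => e.2.1.symm)) h2
    (tendsto_const_nhds.congr' (hz.mono fun _ e => e.2.2.symm))
  obtain ⟨w, Φ, k1, k2, k3⟩ := exists_an_leadAt H.dg.cuts_flat P.mem.2 (P.mem_crv hy.2) h1
  have k4 := (H.vs.anΨ.continuousAt.tendsto.comp hs.v0).prodMk_nhds h5
  refine ⟨z, fun q => Pi.single ch.o (w (Ψ (v q), σ₀ (v q, 0)) ⟨ch.o, h⟩), _, _, _, h7, ?_,
    k2.continuousAt.tendsto.comp k4,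
    P.leadAt_single H.dg hy.2 (k3.self_of_nhds P.mem.2 (P.mem_crv hy.2)), ?_, h8⟩
  · simp only [Pi.single_eq_same]
    exact tendsto_pi_nhds.1 (k1.continuousAt.tendsto.comp k4) ⟨ch.o, h⟩
  · filter_upwards [hx, hz, h6, k4.eventually k3] with q e1 e2 e3 e4
    exact ⟨e2.1, e1.prj.leadAt_single H.dg e2.1 (by rw [e2.2.1]; exact e4 e1.prj.mem.2 e3)⟩

/-- the marked points converge -/
theorem Lm.tendsto_p (hp : ∀ m : ν ⊕ κ, Tendsto (fun q => bv (x q) b c (D.sp (m.map id (·, false)))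
    ((x q).p (m.map id (·, false)))) U (𝓝 ((D.co b c k x₀).2.2.2.1 m))) :
    Tendsto (fun q => (x q).p) U (𝓝 x₀.1.p) := by
  refine tendsto_pi_nhds.2 fun m => (H.tendsto_pt hs hD hL hx (x₀.2.1.2.2.2.1 m).1
    (hx.mono fun q e => (e.bc.mem.1.2.2.2.1 m).1) ?_
    (s := D.sp ((m.map id Prod.fst).map id (·, false))) ?_ ?_).1
  · rw [← H.vs.prjX.1 m]
    exact ((W.an_p H.vs.anΨ m).continuousAt.tendsto.comp hs.v0).congr'
      (hx.mono fun q e => e.prj.1 m)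
  · have := hD.sp ((m.map id Prod.fst).map id (·, false))
    split_ifs at this ⊢
    exacts [(H.bc.fld_fst m).1 ▸ this, (H.bc.fld_fst m).2 ▸ this]
  · simp only [bv, H.bc.fld_fst m]
    exact (hp _).congr' (hx.mono fun q e => by simp only [bv, e.bc.fld_fst m])

end cnv

theorem Ex.dense_not_spc {x : ch.W ν'} (hx : x ∈ ch.base ν') :
    crv x ⊆ closure ({y | ¬Spc x y} ∩ crv x) := fun _ e =>
  mem_closure_iff_frequently.2 (frequently_nhdsWithin_iff.1 (frequently_not_spc hx e))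

/-- **existence of smoothings** -/
theorem Lm.exists_smooth (H : Lm b c x₀ Ψ k σ' σ u a a') (hD : D.Ok b c x₀ Ψ k)
    (hm : ch.m i = ch.m ch.o) {O : Set (ch.W (Mk ν κ))} (hO : O ∈ 𝓝 x₀.1) :
    ∀ᶠ q : ch.PW ν κ i b c n × (ε → ℂ) × (ε → ℂ) × ℂ in 𝓝 (D.co b c k x₀, a * a', 0, 0),
      q.2.2.2 ≠ 0 → (∀ e, q.2.1 e * q.2.2.1 e ^ u e = q.2.2.2) →
        ∃ x ∈ O, Bc x b c q.2.2.2 ∧ D.co b c k x = q.1 ∧ (k x).2 = q.2.2.1 := by
  refine mem_iff_ultrafilter.2 fun U hU => U.eventually_imp.2 fun h1 => U.eventually_imp.2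
    fun h2 => ?_
  have hM : ch.M i = ch.M ch.o := by rw [H.dg.tight i, H.dg.tight ch.o, hm]
  have t0 := tendsto_id'.2 hU
  have t1 := t0.fst_nhds
  have t2 : (D.co b c k x₀).1 = 0 := congrArg Prod.fst H.vs.k0
  have hs : Sqm u (a * a') (U : Filter (ch.PW ν κ i b c n × _ × _ × ℂ))
      (fun q => (q.1.1, q.2.2.1)) (fun q => q.2.1) fun q => q.2.2.2 :=
    ⟨(t2 ▸ t1.fst_nhds :).prodMk_nhds t0.snd_nhds.snd_nhds.fst_nhds, t0.snd_nhds.fst_nhds,
      t0.snd_nhds.snd_nhds.snd_nhds, h1.and h2⟩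
  have l1 : LinearIndependent ℂ (D.co b c k x₀).2.1 :=
    Ex.li_smul hD.li fun j => inv_ne_zero (Ex.bv_ne (hD.sd j))
  obtain ⟨L, hL⟩ := (((H.eventually_li hs hD hM).and (h1.and
    (t1.snd_nhds.fst_nhds.eventually l1.eventually))).mono fun q e =>
      Ex.exists_bij (Ex.li_smul e.1 fun j => Ex.ite_ne (s := D.sd j) e.2.1) e.2.2 hM).choice
  simp only [map_smul] at hL
  have l2 := fun j => (tendsto_pi_nhds.1 t1.snd_nhds.fst_nhds j).congr'
    (hL.mono fun q e => (e.2 j).symm)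
  have t3 := t1.snd_nhds.snd_nhds.snd_nhds.fst_nhds
  have l3 := eventually_all.2 fun m => (tendsto_pi_nhds.1 t3 m).eventually_ne (Ex.bv_ne (hD.sp _))
  obtain ⟨x', hx'⟩ := ((hL.and (h1.and (l3.and (hs.v0.eventually H.vs.mem)))).mono fun q e =>
    H.dg.exists_bc hm x₀.2.1 e.2.2.2 e.1.1 e.2.1
      (β := fun m => (if D.sp (m.map id (·, false)) then 1 else q.2.2.2) * q.1.2.2.2.1 m)
      fun m => mul_ne_zero (Ex.ite_ne e.2.1) (e.2.2.1 m)).choice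
  have o1 := (hx'.and h1).mono fun q e => Ov.mk e.1.1 e.2 e.1.2.1 e.1.2.2.1
  have l4 := eventually_bij x₀.2.1 (o1.mono fun q e => e.bc.mem.1) hD.S (Ex.dense_not_spc x₀.2.1)
    fun y hy => let ⟨y', _, _, _, _, e, _, _, _, f, _⟩ := H.exists_pts hs hD l2 o1 hy
      ⟨y', e, f.mono fun _ a => a.1⟩
  have t4 := t1.snd_nhds.snd_nhds.fst_nhds
  have l5 := eventually_all.2 fun l => (tendsto_pi_nhds.1 t4 l).eventually
    (eventually_bijective continuousAt_id (hD.S l))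
  obtain ⟨x, hx⟩ := ((o1.and (l4.and l5)).mono fun q e =>
    e.1.exists_frm e.2.1 e.2.2 q.1.2.2.2.2).choice
  have o2 := hx.mono fun q e => e.1
  have l6 : ∀ᶠ q in U, ∀ m : ν ⊕ κ, bv (x q) b c (D.sp (m.map id (·, false)))
      ((x q).p (m.map id (·, false))) = q.1.2.2.2.1 m := (hx.and hx').mono fun q e m =>
    mul_left_cancel₀ (Ex.ite_ne e.1.1.ne) (((e.1.1.bc.fld_bv e.1.1.ne
      (e.1.1.bc.mem.1.2.2.2.1 _).1 _).symm.trans (e.1.2.1 _)).trans (e.2.2.2.2 m))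
  have l7 : Tendsto x U (𝓝 x₀.1) := tendsto_of_pts x₀.2.1 (o2.mono fun q e => e.bc.mem.1) hD.S
    (fun l => (tendsto_pi_nhds.1 t4 l).congr' (hx.mono fun q e => (congrFun e.2.2.1 l).symm))
    (H.tendsto_p hs hD l2 o2 fun m => (tendsto_pi_nhds.1 t3 m).congr'
      (l6.mono fun q e => (e m).symm)) (A := {b, c})
    (fun j e => (tendsto_pi_nhds.1 t1.snd_nhds.snd_nhds.snd_nhds.snd_nhds ⟨j, not_or.1 e⟩).congr'
      (hx.mono fun q f => (congrFun f.2.2.2 ⟨j, not_or.1 e⟩).symm))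
    (by
      rintro j (rfl | rfl)
      exacts [⟨H.bc.scb, o2.mono fun q e => e.bc.scb⟩, ⟨H.bc.scc, o2.mono fun q e => e.bc.scc⟩])
    (Ex.dense_not_spc x₀.2.1) fun y hy => H.exists_pts hs hD l2 o2 hy
  filter_upwards [hx, l6, hL, l7.eventually hO, l7.eventually hD.memz,
    (l7.prodMk_nhds hs.v0).eventually H.vs.eff] with q e1 e2 e3 e4 e5 e6
  have e7 := e6 e1.1.bc.mem e1.1.prj
  refine ⟨x q, e4, e1.1.bc, Prod.ext (congrArg Prod.fst e7 :) (Prod.ext (funext fun j => ?_)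
    (Prod.ext e1.2.2.1 (Prod.ext (funext e2) e1.2.2.2))), congrArg Prod.snd e7⟩
  obtain ⟨e8, e9⟩ := e5 e1.1.bc.mem j
  have e10 := e1.1.bc.fld_bv e1.1.ne e8 (D.sd j)
  have e11 : bv (x q) b c (D.sd j) (D.z j (x q)) ≠ 0 :=
    right_ne_zero_of_mul (e10 ▸ left_ne_zero_of_mul (e1.1.bc.mul _ e8 ▸ e1.1.ne))
  change (bv (x q) b c (D.sd j) (D.z j (x q)))⁻¹ • D.z j (x q) i = _
  rw [e1.1.lin _ e8, e10, mul_comm, mul_smul, inv_smul_smul₀ e11]
  exact (by rw [← e7, ← e9]; rfl : _ = _).trans (e3.2 j)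

end Vale.Agent.P269.Ch
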