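import Vale.Agent.P269.Spl.Defs
import Vale.Agent.P269.Base.MainS
import Vale.Agent.P269.Base.Main
import Vale.Agent.P287Q.G.Pt.Sel
import Vale.Agent.P269.Pt.Ops2
import Vale.Agent.P287Q.G.Map.Defs

/-!
# Strata of the special fibre of a degeneration: definitions
-/

set_option linter.unusedSectionVars false

namespace Vale.Agent.P269

open P291Z Set Function Topology Filter Holo Base Cv

variable {S Λ R J K ι ν ν' κ ε β : Type} [Fintype S] [Fintype Λ] [Fintype R] [Fintype J] [Fintype K]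
  [Fintype ι] [DecidableEq ι] [Fintype ν] [Fintype ν'] [Fintype κ] [Fintype ε] [Fintype β]

/-- `E` is the zero set of finitely many homogeneous polynomials in the base fields. -/
def Fam.AlgE (F : Fam S Λ R J K) : Prop :=
  ∃ (n : ℕ) (p : Fin n → MvPolynomial J (MvPolynomial Λ ℂ)) (χ : Fin n → R → ℤ),
    (∀ k, ∀ α ∈ (p k).support, (∀ j ∈ F.mov, α j = 0) ∧ ∀ i, ∑ j, α j * F.w j i = χ k i) ∧
      F.E = {z | ∀ k, MvPolynomial.eval z.2 (MvPolynomial.map (MvPolynomial.eval z.1) (p k)) = 0}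

/-- The base fields are `b` and `c`, with `b c = 0`. -/
structure Fam.Nodal (F : Fam S Λ R J K) (b c : J) : Prop where
  ne : b ≠ c
  mov : F.mov = {b, c}ᶜ
  zer : F.zer = ∅
  E : ∀ l ∈ F.B, ∀ y, (l, y) ∈ F.E ↔ y b * y c = 0

/-- Every component of the normalisation of `C` contains one of the points `y`. -/
def Base.Hit {M : ι → ℕ} (o : ι) (C : Set (V M)) (y : β → V M) : Prop :=
  ∀ (X : Type) [TopologicalSpace X] [T2Space X] [CompactSpace X] (R : RS X) (N : Finset (X × X))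
    (A : ι → LB R) (π : X → V M), Par o C N A π →
      ∀ z, ∃ k, ∃ z' ∈ connectedComponent z, Base.Orb (π z') (y k)

/-- The orders `U`, and `u e`, `-u e` at the two branches of the new nodes. -/
def extU (U : Ch.Mk ν κ → ℤ) (u : ε → ℕ) : Ch.Mk ν (κ ⊕ ε) → ℤ
  | .inl n => U (.inl n)
  | .inr (.inl q, s) => U (.inr (q, s))
  | .inr (.inr e, s) => if s then -(u e : ℤ) else u e

namespace AM

/-- The property only depends on the isomorphism class of the curve, the bundles, the parameter and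
the fields in `A`. -/
def IvtA (W : Wt S Λ R J) (A : Set J) (P : AM Λ R J ν κ → Prop) : Prop :=
  ∀ m m', AM.Iso W A m m' → P m → P m'

/-- After cutting suitable nodes `ε` the property `P` holds. -/
def Ct (P : AM Λ R J ν (κ ⊕ ε) → Prop) (m : AM Λ R J ν κ) : Prop :=
  ∃ (n : ε × Bool → m.X) (h : m.Nds n), P (m.cut h)

variable (m : AM Λ R J ν κ) (w : R → ℤ) (b c : J) (U : Ch.Mk ν κ → ℤ)

/-- `z` is not marked. -/
def Um (z : m.X) : Prop := ∀ n, z ≠ m.p n

/-- A level structure: a meromorphic section `B` of `L ^ w` with divisor `∑ U n • p n` which is `b`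
where `b ≠ 0` and `1 / c` where `c ≠ 0`. -/
structure Lv (B : m.X → ℂ) : Prop where
  mem : B ∈ H0 m.N (bz m.L w / ∏ n, m.R.pt (m.p n) ^ U n)
  ne : ∀ z, B z ≠ 0
  mt : ∀ q, U (.inr (q, false)) = 0 → U (.inr (q, true)) = 0 →
    B (m.p (.inr (q, false))) = B (m.p (.inr (q, true)))
  eqb : ∀ z, m.Um z → m.y b z ≠ 0 → B z = m.y b z
  eqc : ∀ z, m.Um z → m.y c z ≠ 0 → B z * m.y c z = 1

/-- The curve is the disjoint union of a part with `c = 0` and a part with `b = 0`, and the divisor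
of `b`, `1 / c` is `∑ U n • p n`. -/
def Spl : Prop := (∃ B, m.Lv w b c U B) ∧ ∀ z, m.Um z → m.y b z ≠ 0 ∨ m.y c z ≠ 0

/-- There is a level structure and a component on which both `b` and `c` vanish. -/
def Gh : Prop := (∃ B, m.Lv w b c U B) ∧ ∃ z, m.Um z ∧ m.y b z = 0 ∧ m.y c z = 0

/-- The components on which `b` does not vanish. -/
def sb : Set m.X := closure {z | m.y b z ≠ 0}

/-- The numerical type of the part on which `b` does not vanish. -/
def Sd (a : ℤ) (d : R → ℤ) (T : Set (Ch.Mk ν κ)) : Prop :=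
  degOn m.ω (m.sb b) = a ∧ (∀ r, degOn (m.L r) (m.sb b) = d r) ∧ ∀ n, m.p n ∈ m.sb b ↔ n ∈ T

end AM

namespace Ch

variable {ch : Ch ι J}

variable (ch) in
/-- The admissible points that represent a map with the property `P`. -/
def locP (F : Fam S Λ R J K) (ℓ : R → ι → ℤ) (P : AM Λ R J ν κ → Prop) : Set (ch.WF ν κ Λ) :=
  {x | x ∈ ch.adm ν κ F ∧ ∃ m, Rep ℓ F.movᶜ x m ∧ P m}

variable (ch) in
/-- The closure in the smooth space. -/
def clP (F : Fam S Λ R J K) (ℓ : R → ι → ℤ) (P : AM Λ R J ν κ → Prop) : Set (ch.WF ν κ Λ) :=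
  closure (ch.locP F ℓ P) ∩ ch.baseF ν κ F.B

open Classical in
variable (ch) in
/-- The dimension of the space of the fields in `A`. -/
noncomputable def fm (A : Set J) : ℕ :=
  ∑ j with j ∈ A, Module.finrank ℂ (Tens ch.M (ch.b j)) * ch.h (some j)

variable (ch ν κ) in
/-- The dimension of the stack of curves with line bundles and a trivialisation. -/
def qd : ℤ := 3 * ch.g - 3 + Fintype.card (Mk ν κ) +
  (Fintype.card ι - 1) * (ch.g - 1 + Fintype.card κ)

variable (ch ν') in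
/-- The base is a manifold of the expected dimension. -/
def Dm : Prop := ∀ x ∈ ch.base ν', ∃ N : ℕ, (N : ℤ) = 3 * ch.g - 3 + Fintype.card ν' +
  (Fintype.card ι - 1) * (ch.g - 1) + Module.finrank ℂ (ch.A ν') + ch.fm univ ∧
    MfdAt (ch.base ν') N x

variable (ch ν κ) in
/-- The points with matching residues. -/
def bm : Set (ch.W (Mk ν κ)) := {x | x ∈ ch.base _ ∧
  ∀ q, rsd x (.inr (q, false)) = (-1) ^ ch.k * rsd x (.inr (q, true))}

/-- The field `j` is a section. -/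
def Sc (x : ch.W ν') (j : J) : Prop := ∀ y ∈ crv x, ∃ v, Val x j y v

/-- The value of `b` or of `1 / c`. -/
noncomputable def bv (x : ch.W ν') (b c : J) (s : Bool) (y : V ch.M) : ℂ :=
  if s then fld x y b else (fld x y c)⁻¹

variable (ch) in
/-- The fields `b`, `c` are sections of `A_i / A_o` and of its inverse. -/
structure DgC (i : ι) (b c : J) : Prop where
  a_ne : ∀ l, ch.a l ≠ 0
  cut : ∀ i, 4 ≤ ch.a none i
  k_ne : ch.k ≠ 0
  tight : ch.Tight
  chi : ∑ i, ch.χ i ≠ 0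
  ne : ch.o ≠ i
  bc : b ≠ c
  wb : ch.wd b = Pi.single i 1 - Pi.single ch.o 1
  wc : ch.wd c = -ch.wd b
  chi0 : ch.χ i = 0

variable {i : ι}

variable (ch) in
/-- The chart without the factor `i` and without fields. -/
@[reducible] def flat (h : ch.o ≠ i) : Ch {j // j ≠ i} Empty where
  M j := ch.M j.1
  o := ⟨ch.o, h⟩
  g := ch.g
  m j := ch.m j.1
  a _ j := ch.a none j.1
  h _ := (∑ j : {j // j ≠ i}, ch.a none j.1 * ch.m j.1 + 1 - ch.g).toNat
  k := ch.k
  bω j := ch.bω j.1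
  b := Empty.elim

/-- Forgetting the factor `i`. -/
noncomputable abbrev pj (i : ι) : V ch.M →L[ℂ] V fun j : {j // j ≠ i} => ch.M j.1 := rV Subtype.val

variable {h : ch.o ≠ i}

/-- `y` is the projection of `x`. -/
def Prj (x : ch.W ν') (y : (ch.flat h).W ν') : Prop :=
  (∀ n, y.p n = pj i (x.p n)) ∧ ∃ (X : Type) (_ : TopologicalSpace X) (_ : T2Space X)
    (_ : CompactSpace X) (R : RS X) (N : Finset (X × X)) (A : ι → LB R) (π : X → V ch.M) (u : _)
    (p : ν' → X) (ξ : X → ℂ) (u' : _), Cr N A x π u p ξ ∧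
      Cr N (fun j => A j.1) y (fun z => pj i (π z)) u' p ξ

/-- Coordinates: the last ones smooth the nodes. -/
abbrev PV (n : ℕ) (ε : Type) : Type := (Fin n → ℂ) × (ε → ℂ)

/-- A versal family `Ψ` for the projected curves near `x₀`, with classifying map `k` and charts at
the nodes `ε`. -/
structure Vs (x₀ : ch.bm ν κ) {n : ℕ} (Ψ : PV n ε → (ch.flat h).W (Mk ν κ))
    (k : ch.W (Mk ν κ) → PV n ε) (σ' : ε → PV n ε × (ℂ × ℂ) → V (ch.flat h).M)
    (σ : ε → ch.W (Mk ν κ) × (ℂ × ℂ) → V ch.M) : Prop where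
  anΨ : AnalyticAt ℂ Ψ 0
  ank : AnalyticAt ℂ k x₀
  k0 : k x₀ = 0
  mem : ∀ᶠ v in 𝓝 0, Ψ v ∈ (ch.flat h).bm ν κ
  prj : ∀ᶠ x in 𝓝 x₀.1, x ∈ ch.bm ν κ → Prj x (Ψ (k x))
  eff : ∀ᶠ q in 𝓝 (x₀.1, (0 : PV n ε)), q.1 ∈ ch.bm ν κ → Prj q.1 (Ψ q.2) → k q.1 = q.2
  ch' : ∀ e, Chart (ch.flat h).o (fun v => crv (Ψ v)) id 0 (σ' e) fun v => {z | z.1 * z.2 = v.2 e}
  ch₀ : ∀ e, Chart ch.o (fun x : ch.bm ν κ => crv x.1) Subtype.val x₀ (σ e)
    fun x => {z | z.1 * z.2 = (k x).2 e}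
  lift : ∀ e, ∀ᶠ q in 𝓝 (x₀.1, (0 : ℂ × ℂ)), q.1 ∈ ch.bm ν κ → q.2.1 * q.2.2 = (k q.1).2 e →
    pj i (σ e q) = σ' e (k q.1, q.2)
  inj : ∀ e e', Base.Orb (σ e (x₀, 0)) (σ e' (x₀, 0)) → e = e'

/-- `b c = 0`, the common zeros of `b` and `c` are the nodes `γ e 0 = δ e 0`, with contact orders
`u e` and leading coefficients `a e`, `a' e`. -/
structure Gd (x : ch.W ν') (b c : J) (u : ε → ℕ) (γ δ : ε → ℂ → V ch.M) (a a' : ε → ℂ) : Prop where
  mem : x ∈ ch.base ν'
  scb : Sc x b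
  scc : Sc x c
  mul : ∀ y ∈ crv x, fld x y b * fld x y c = 0
  cross : ∀ e, IsCross ch.o (crv x) (γ e 0) (γ e) (δ e)
  inj : ∀ e e', Base.Orb (γ e 0) (γ e' 0) → e = e'
  pos : ∀ e, u e ≠ 0
  vzb : ∀ e, a e ≠ 0 ∧ Vz (u e) (fun z => fld x (γ e z) b) (a e)
  vzc : ∀ e, a' e ≠ 0 ∧ Vz (u e) (fun z => fld x (δ e z) c) (a' e)
  ne : ∀ y ∈ crv x, Off (fun e => γ e 0) y → fld x y b ≠ 0 ∨ fld x y c ≠ 0

end Ch

namespace Fam

variable (F : Fam S Λ R J K) [DecidableEq R] (k : ℕ) (g : ℤ) (d : R → ℤ)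

/-- The integral over the virtual class for the base cycle `Z`. -/
noncomputable def intS {ch : Ch ι J} (ℓ : R → ι → ℤ) (Z : Set (ch.WF ν κ Λ))
    (P : AM Λ R J ν κ → Prop) (fs : List (Fac F.toWt ν κ)) : ℂ :=
  ev (Ch.virF F (F.tdeg ch) Z) (ind (Ch.selQ F.toWt ℓ _ P) * (fs.map (F.coch _)).prod)

/-- The invariants for the base cycles `Z D`. -/
noncomputable def invS (Z : ∀ D, Set ((F.sch ν κ k D g d).WF ν κ Λ)) (P : AM Λ R J ν κ → Prop)
    (fs : List (Fac F.toWt ν κ)) : ℂ :=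
  Classical.epsilon fun z => ∀ᶠ D in atTop, z = F.intS ℓs (Z D) P fs

/-- The invariants for the closure of the locus given by `Q`. -/
noncomputable def invP (Q P : AM Λ R J ν κ → Prop) (fs : List (Fac F.toWt ν κ)) : ℂ :=
  F.invS k g d (fun D => (F.sch ν κ k D g d).clP F ℓs Q) P fs

theorem inv_eq_invS (u : ν → J → ℕ) (P : AM Λ R J ν κ → Prop) (fs : List (Fac F.toWt ν κ)) :
    F.inv k g d u P fs = F.invS k g d (fun D => (F.sch ν κ k D g d).cyc κ F u) P fs := rfl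

end Fam

end Vale.Agent.P269
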