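import Vale.Agent.P287Q.G.Spl.Geo2

/-!
# The local model `cf e * τ e ^ u e = t`: definitions
-/

set_option linter.unusedSectionVars false

namespace Vale.Agent.P269.Ch

open Set Function Topology Filter Holo Base Cv

variable {J ι ν κ ε : Type} [Fintype J] [Fintype ι] [DecidableEq ι] [Fintype ν] [Fintype κ]
  [Fintype ε] {ch : Ch ι J} {i : ι} {h : ch.o ≠ i} {n : ℕ}

/-- The setting at a good point of the special fibre. -/
structure Lm (b c : J) (x₀ : ch.bm ν κ) (Ψ : PV n ε → (ch.flat h).W (Mk ν κ))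
    (k : ch.W (Mk ν κ) → PV n ε) (σ' : ε → PV n ε × (ℂ × ℂ) → V (ch.flat h).M)
    (σ : ε → ch.W (Mk ν κ) × (ℂ × ℂ) → V ch.M) (u : ε → ℕ) (a a' : ε → ℂ) : Prop where
  dg : ch.DgC i b c
  vs : Vs x₀ Ψ k σ' σ
  bc : Bc x₀.1 b c 0
  gd : Gd x₀.1 b c u (fun e z => σ e (x₀, (z, 0))) (fun e z => σ e (x₀, (0, z))) a a'

/-- A sequence in the model with `t ≠ 0` that tends to the point `(0, a, 0)`. -/
structure Sqm (u : ε → ℕ) (a : ε → ℂ) {α : Type} (l : Filter α) (v : α → PV n ε) (cf : α → ε → ℂ)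
    (t : α → ℂ) : Prop where
  v0 : Tendsto v l (𝓝 0)
  cf0 : Tendsto cf l (𝓝 a)
  t0 : Tendsto t l (𝓝 0)
  eq : ∀ᶠ q in l, t q ≠ 0 ∧ ∀ e, cf q e * (v q).2 e ^ u e = t q

open Classical in
/-- The gluing parameters: `A` on the special fibre, `t / τ ^ u` elsewhere. -/
noncomputable def cfn (u : ε → ℕ) (k : ch.W (Mk ν κ) → PV n ε) (A : ch.W (Mk ν κ) → ε → ℂ)
    (q : ch.W (Mk ν κ) × ℂ) : ε → ℂ :=
  if q.2 = 0 then A q.1 else fun e => q.2 / (k q.1).2 e ^ u e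

/-- The points of the model. -/
def Md (b c : J) (u : ε → ℕ) (k : ch.W (Mk ν κ) → PV n ε)
    (σ : ε → ch.W (Mk ν κ) × (ℂ × ℂ) → V ch.M) : Set (ch.W (Mk ν κ) × ℂ) :=
  {q | ∃ cf, Pq b c u (fun x => (k x).2) σ q.1 q.2 cf}

end Vale.Agent.P269.Ch
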