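import Vale.Agent.P269.Spl.LocA0
import Vale.Agent.P287Q.G.Spl.Geo2
import Vale.Agent.P269.Spl.An
import Vale.Agent.P287Q.G.Spl.Hit
import Vale.Agent.P287Q.G.Gen.Num
import Vale.Agent.P287Q.G.Vir.Adm

/-!
# Analytic conditions on the fields
-/

set_option linter.unusedSectionVars false

namespace Vale.Agent.P269

open Set Function Topology Filter Holo Base Cv

variable {S Λ Λ₀ R J K ι ν κ ε : Type} [Fintype S] [Fintype Λ] [Fintype Λ₀] [Fintype R] [Fintype J]
  [Fintype K] [Fintype ι] [DecidableEq ι] [Fintype ν] [Fintype κ] [Fintype ε]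

namespace Base

variable {M : ι → ℕ} {o : ι} {C : Set (V M)} {χ m : ι → ℤ} {g : ℤ} {z : ν → V M} {u : ν → ℤ}
  {f : V M → ℂ} {c : V M}

theorem Mer.of_empty (h : Mer o C χ (Empty.elim : Empty → V M) 0 f) : Mer o C χ z 0 f :=
  ⟨h.hom, fun γ hγ _ => h.reg γ hγ fun k => k.elim,
    fun _ γ hγ _ => ⟨_, Vz.of_an (h.reg γ hγ fun k => k.elim)⟩⟩

theorem Mer.eq_zero (h : Mer o C χ (Empty.elim : Empty → V M) 0 f) (hC : Nod o C)
    (e : ∀ c ∈ C, Off z c → f c = 0) (hc : c ∈ C) : f c = 0 := by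
  obtain ⟨γ, hγ⟩ := hC.exists_loc hc
  obtain rfl := hγ.zero true
  exact tendsto_nhds_unique_of_eventuallyEq ((h.reg _ (hγ.br true)
    fun k => k.elim).continuousAt.tendsto.mono_left nhdsWithin_le_nhds) tendsto_const_nhds
    (((hγ.br true).eventually_off' hC).mono fun t b => e _ b.1 b.2)

theorem Mer.monom {X : J → ι → ℤ} {F : J → V M → ℂ} (h : ∀ j, Mer o C (X j) z 0 (F j)) (α : J → ℕ) :
    Mer o C (∑ j, α j • X j) z 0 fun c => ∏ j, F j c ^ α j := by
  have a : ∀ j (n : ℕ), Mer o C (n • X j) z 0 fun c => F j c ^ n := fun j n => by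
    induction n with
    | zero => simpa using Triv.one.toMer
    | succ n ih => simpa only [pow_succ, succ_nsmul, add_zero] using ih.mul (h j)
  induction (Finset.univ : Finset J) using Finset.cons_induction with
  | empty => simpa using Triv.one.toMer
  | cons j T hj ih => simpa only [Finset.sum_cons, Finset.prod_cons, add_zero] using (a j _).mul ih

theorem Triv.sum_eq (h : Triv o C χ z u f) (hC : IsCurve o g m C) (hz : Spt o C z) :
    ∑ k, u k = dgz m χ := by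
  obtain ⟨X, _, _, _, R, N, A, π, hp⟩ := hC.isNodal.exists_par
  obtain ⟨w, w1, w2⟩ := hp.exists_pt hz
  obtain ⟨s, s1, s2, s3⟩ := hp.exists_sec w1 w2 h.toMer
  have b := deg_of_ne s1.1 ((hp.triv_iff w1 w2 h.toMer s2 s3).1 h)
  simp only [deg_div, deg_bz, deg_prod, deg_zpow, deg_pt, mul_one, (hp.numbers hC).2.1] at b
  exact (sub_eq_zero.1 b).symm

end Base

theorem evz_eq (z : (Λ → ℂ) × (J → ℂ)) (f : MvPolynomial J (MvPolynomial Λ ℂ)) : evz z f =
    ∑ α ∈ f.support, MvPolynomial.eval z.1 (f.coeff α) * ∏ j, z.2 j ^ α j := by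
  rw [evz, MvPolynomial.eval_map, MvPolynomial.eval₂_eq']

theorem an_evz (z : (Λ → ℂ) × (J → ℂ)) (f : MvPolynomial J (MvPolynomial Λ ℂ)) :
    AnalyticAt ℂ (evz · f) z := by
  simp only [evz_eq]
  exact Finset.analyticAt_fun_sum _ fun α _ =>
    ((AnalyticOnNhd.eval_mvPolynomial _ _ (mem_univ _)).comp analyticAt_fst).mul
      (Finset.analyticAt_fun_prod _ fun j _ => (analyticAt_pi_iff.1 analyticAt_snd j).pow _)

namespace Ch

variable {ch : Ch ι J} {F : Fam S Λ R J K} {ℓ : R → ι → ℤ} {i : ι} {b c j : J}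

section gen

variable {W : Type} [NormedAddCommGroup W] [NormedSpace ℂ W] {T : Set W} {x : W} {q : W → ch.W ν}

/-- the vanishing of a section is an analytic condition -/
theorem anAt_sec (hc : ch.Cuts) (hx : x ∈ T) (hq : AnalyticAt ℂ q x) {χ : ι → ℤ}
    {f : W → V ch.M → ℂ} (h : ∀ᶠ s in 𝓝 x, s ∈ T → q s ∈ ch.base ν ∧
      Mer ch.o (crv (q s)) χ (Empty.elim : Empty → V ch.M) 0 (f s))
    (hf : ∀ y : W → V ch.M, AnalyticAt ℂ y x → (∀ᶠ s in 𝓝 x, s ∈ T → y s ∈ crv (q s)) →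
      HolOn T (fun s => f s (y s)) x) : AnAt T x fun s => ∀ c ∈ crv (q s), f s c = 0 := by
  obtain ⟨l, hl⟩ := hc.cut
  obtain ⟨r, y, hy⟩ := exists_evB hl (h.self_of_nhds hx).1 (fun _ : Unit => χ) fun _ => 0
  have e := hq.continuousAt.eventually (hy ()).ev
  refine (AnAt.all fun k => .of_hol (hf (fun s => y k (q s)) (((hy ()).an k).comp hq) ?_)).congr ?_
  · filter_upwards [e, h] with s a b hs using ((a (b hs).1).1 k).1
  · filter_upwards [e, h] with s a b hs
    exact ⟨fun d k => d _ ((a (b hs).1).1 k).1, fun d c hc => (b hs).2.eq_zero (b hs).1.2.2.1.nod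
      ((a (b hs).1).2 _ (b hs).2.of_empty d) hc⟩

end gen

theorem sc_an (hc : ch.Cuts) {x : ch.W ν} (hx : x ∈ ch.base ν) (j : J) :
    ∃ (s : ℕ) (g : ch.W ν → Fin s → ℂ), AnalyticAt ℂ g x ∧
      ∀ᶠ y in 𝓝 x, y ∈ ch.base ν → (Sc y j ↔ g y = 0) := by
  obtain ⟨S₀, hS⟩ := exists_rightInv (hx.1 (some j))
  have h1 : AnalyticAt ℂ (fun y : ch.W ν => y.Q (some j) ∘L S₀) x :=
    an_comp (an_Q _ x) analyticAt_const
  have h2 : Bijective (x.Q (some j) ∘L S₀) :=
    ⟨fun a b e => by simpa [hS] using e, fun y => ⟨y, hS y⟩⟩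
  let L : ch.W ν → Tens ch.M (ch.b j) → Tens ch.M (ch.a (some j)) := fun y μ =>
    S₀ ((y.Q (some j) ∘L S₀).inverse (y.X j μ))
  have h3 : ∀ μ, AnalyticAt ℂ (L · μ) x := fun μ => (S₀.analyticAt _).comp (an_apply
    ((analyticAt_clm_inverse h2).comp_of_eq h1 rfl)
    (an_apply (W.an_X analyticAt_id j) analyticAt_const))
  let e := Module.finBasis ℂ (Tens ch.M (ch.b j))
  refine (AnAt.all fun a => AnAt.all fun a' => anAt_sec (q := id) hc hx analyticAt_id
    (f := fun y c => val (e a) c * val (L y (e a')) c - val (e a') c * val (L y (e a)) c)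
    (.of_forall fun y hy => ⟨hy, ((Mer.of_isSec (Pol.isSec (val_mem _))).mul
      (Mer.of_isSec (Pol.isSec (val_mem _)))).sub ((Mer.of_isSec (Pol.isSec (val_mem _))).mul
        (Mer.of_isSec (Pol.isSec (val_mem _)))) |>.cast rfl (add_zero _)⟩)
    fun y a _ => .of_an (((an_val analyticAt_const a).mul (an_val (h3 _) a)).sub
      ((an_val analyticAt_const a).mul (an_val (h3 _) a)))).congr ?_
  filter_upwards [eventually_bijective h1.continuousAt h2] with y k _
  have k1 : ∀ c w, (c, w) ∈ gr y → ∀ μ, w (some j) (y.X j μ) = val (L y μ) c := fun c w hw μ =>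
    (congrArg (w _) ((isInvertible_of_bijective k).self_apply_inverse _).symm).trans (hw.2 _ _)
  refine ⟨fun h a a' c hc => ?_, fun h c hc => ?_⟩
  · obtain ⟨w, hw⟩ := mem_crv.1 hc
    obtain ⟨v, hv⟩ := h c hc
    simp only [← k1 c w hw, hv w hw]
    ring
  · obtain ⟨a, ha⟩ : ∃ a, val (e a) c ≠ 0 := by
      by_contra! d
      obtain ⟨μ, hμ⟩ := exists_val_one (a := ch.b j) (crv_ne hc)
      have := LinearMap.congr_fun (e.ext (f₁ := (evL (ch.b j) c).toLinearMap) (f₂ := 0) d) μ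
      exact one_ne_zero (hμ.symm.trans this)
    refine ⟨val (L y (e a)) c / val (e a) c, fun w hw => LinearMap.congr_fun (e.ext
      (f₁ := (w (some j) ∘L y.X j).toLinearMap) (f₂ := (val (L y (e a)) c / val (e a) c) •
        (evL (ch.b j) c).toLinearMap) fun a' => (k1 c w hw _).trans ?_)⟩
    change _ = _ * val (e a') c
    rw [div_mul_eq_mul_div, eq_div_iff ha]
    linear_combination h a a' c hc

theorem DgC.cuts' (hc : ch.DgC i b c) : ch.Cuts := ⟨hc.a_ne, none, hc.cut⟩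

theorem clo_adm (hc : ch.Cuts) (hF : F.Inv) : Clo (ch.adm ν κ F) (ch.baseF ν κ F.B) :=
  ⟨_, isClosed_closure, hc.adm_eq hF⟩

theorem mer_fld_iff {x : ch.W ν} (hx : x ∈ ch.base ν) (h : Sc x j) {γ : ν → ℂ → V ch.M}
    (hγ : ∀ n, IsBranch ch.o (crv x) (γ n) ∧ Base.Orb (x.p n) (γ n 0)) (N : ν → ℕ) :
    Mer ch.o (crv x) (ch.wd j) x.p (fun n => N n) (fun c => fld x c j) ↔
      ∀ n, Dv (N n) fun t => fld x (γ n t) j :=
  ⟨fun a n => (a.ord n _ (hγ n).1 (hγ n).2).elim fun _ e => e.dv (an_fld hx h (hγ n).1),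
    fun a => .of_loc hx.2.2.1.nod (spt_p hx) (mer_fld (z := x.p) hx h).hom (fun c hc _ =>
      ⟨c, .refl c, (mer_fld (z := (Empty.elim : Empty → V ch.M)) hx h).hol hx.2.2.1.nod hc
        fun k => k.elim⟩) fun n => ⟨_, (hγ n).1, (hγ n).2, Vz.of_dv (a n)⟩⟩

/-- vanishing to given orders at the marked points is an analytic condition -/
theorem anAt_mer (hc : ch.Cuts) {x : ch.W ν} (hx : x ∈ ch.base ν) (N : ν → ℕ) :
    AnAt {s ∈ ch.base ν | Sc s j} x fun s =>
      Mer ch.o (crv s) (ch.wd j) s.p (fun n => N n) fun c => fld s c j := by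
  obtain ⟨l, hl⟩ := hc.cut
  obtain ⟨σ, h1, h2⟩ := exists_pts_base hl ⟨x, hx⟩
  have hf := locFam_base hl ⟨x, hx⟩
  choose Φ h3 h4 using fun n => exists_an_fld hx.1 (h1.ne hf n) j
  have h5 : ∀ n, AnalyticAt ℂ (fun q : ch.W ν × ℂ => (q.1, σ n q)) (x, 0) := fun n =>
    analyticAt_fst.prod (h1.chart n).an
  refine (AnAt.all fun n => .of_hol (.of_an (an_jet (F := fun q => Φ n (q.1, σ n q))
    ((h3 n).comp_of_eq (h5 n) rfl) (N n)))).congr ?_
  filter_upwards [(ev_sub hx (p := fun s => ctr σ s = s.p ∧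
      ∀ n, IsBranch ch.o (crv s) fun w => σ n (s, w))).1 (h2.and (((h1.eventually hf).and
        hf.eventually).mono fun t a => a.1.isBranch a.2)), eventually_all.2 fun n =>
    (tendsto_inl x (0 : ℂ)).eventually ((h5 n).continuousAt.eventually (h4 n)).eventually_nhds]
    with s a d hs
  obtain ⟨a1, a2⟩ := a hs.1
  rw [mer_fld_iff hs.1 hs.2 fun n => ⟨a2 n, (congrFun a1 n : σ n (s, 0) = _) ▸ .refl _⟩]
  refine forall_congr' fun n => ?_
  rw [dv_iff_jet (an_fld hs.1 hs.2 (a2 n)), jet_congr]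
  filter_upwards [(tendsto_inr s (0 : ℂ)).eventually (d n), (a2 n).mem] with w e e'
    using e e' (hs.2 _ e')

end Ch

end Vale.Agent.P269
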