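import Vale.Agent.P287Q.G.Spl.Geo3
import Vale.Agent.P269.Spl.LocT0
import Vale.Agent.P287Q.G.Spl.Ver
import Vale.Agent.P287Q.G.Spl.DictC

/-!
# The points near a good point belong to the model
-/

set_option linter.unusedSectionVars false

namespace Vale.Agent.P269

open Set Function Topology Filter Holo Base Cv

section

variable {X β : Type} [TopologicalSpace X] [T2Space X] [CompactSpace X] [Fintype β] {R : RS X}
  {L L' : LB R} {s s' : X → ℂ} {y y' : β → X} {u : β → ℕ}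

theorem Cv.not_gen_of_mul (R : RS X) (e : ∀ z, s z * s' z = 0) {z : X} (a : z ∈ Gen s) :
    z ∉ Gen s' := fun d =>
  have := R.neBot z
  let ⟨w, f, g⟩ := ((mem_gen.1 a).and (mem_gen.1 d)).exists
  mul_ne_zero f g (e w)

/-- the degree on the part where `s` does not vanish -/
theorem Cv.degOn_gen (hs : s ∈ L.Γ) (hs' : s' ∈ L'.Γ) (e : ∀ z, s z * s' z = 0) (hi : Injective y)
    (o : ∀ k, L.ord s (y k) = u k) (o' : ∀ k, y' k ∈ Gen s')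
    (ne : ∀ z, (∀ k, z ≠ y k) → (∀ k, z ≠ y' k) → s z ≠ 0 ∨ s' z ≠ 0) :
    degOn L (Gen s) = ∑ k, u k := by
  classical
  rw [degOn_eq_sum (isClopen_gen hs) (fun x _ => hs x) subset_rfl (Z := Finset.univ.image y)
    (fun z a d => (ne z (fun k f => d (by simp [f])) fun k f =>
      not_gen_of_mul R e a (f ▸ o' k)).resolve_right
        (not_not.2 (eq_zero_of_gen hs' (not_gen_of_mul R e a))))
    (Finset.forall_mem_image.2 fun k _ => (hs _).ord_ne_top.1 (o k ▸ ENat.natCast_ne_top _)),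
    Finset.sum_image hi.injOn]
  simp [o]

end

namespace Ch

variable {J ι ν ν' κ ε : Type} [Fintype J] [Fintype ι] [DecidableEq ι] [Fintype ν] [Fintype ν']
  [Fintype κ] [Fintype ε] {ch : Ch ι J} {i : ι} {h : ch.o ≠ i} {n : ℕ} {b c : J}
  {u : ε → ℕ} {a a' : ε → ℂ}

theorem Gd.m_eq (hc : ch.DgC i b c) {x : ch.W ν'} {γ δ : ε → ℂ → V ch.M}
    (hg : Gd x b c u γ δ a a') : ch.m i = ch.m ch.o := by
  obtain ⟨X, _, _, _, R, N, A, π, v, p, ξ, k⟩ := exists_cr hg.mem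
  obtain ⟨s, hs⟩ := k.exists_ind_iff.2 hg.scb
  obtain ⟨s', hs'⟩ := k.exists_ind_iff.2 hg.scc
  choose y hy using fun e => k.par.dc_fac (hg.cross e).1
  choose y' hy' using fun e => k.par.dc_fac (hg.cross e).2.1
  have j := fun e => k.par.dc_jn (hg.cross e) (hy e) (hy' e)
  have i1 : Injective y := fun e e' f =>
    hg.inj e e' ((dc_orb (hy e)).symm.trans (f ▸ dc_orb (hy e')))
  have i2 : Injective y' := fun e e' f => i1 ((j e).symm.unique k.par.nd (f ▸ (j e').symm))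
  have m := (k.ind_mem hs).1
  have m' := (k.ind_mem hs').1
  have o := fun e => (k.dc_vz hs (hy e)).2 ⟨_, hg.vzb e⟩
  have o' := fun e => (k.dc_vz hs' (hy' e)).2 ⟨_, hg.vzc e⟩
  have e : ∀ z, s z * s' z = 0 := fun z => by
    rw [← k.fld_π hs, ← k.fld_π hs']
    exact hg.mul _ (k.par.mem z)
  have ne : ∀ z, (∀ k, z ≠ y k) → (∀ k, z ≠ y' k) → s z ≠ 0 ∨ s' z ≠ 0 := fun z f g => by
    rw [← k.fld_π hs, ← k.fld_π hs']
    exact hg.ne _ (k.par.mem z) fun q r => (k.par.dc_rel ((dc_orb (hy q)).trans r)).elim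
      (fun d => f q d.symm) fun d => g q (d.unique k.par.nd (j q))
  have d1 := degOn_gen m m' e i1 o
    (fun q => (m' _).ord_ne_top.1 (o' q ▸ ENat.natCast_ne_top _)) ne
  have d2 := degOn_gen m' m (fun z => (mul_comm _ _).trans (e z)) i2 o'
    (fun q => (m _).ord_ne_top.1 (o q ▸ ENat.natCast_ne_top _)) fun z f g => (ne z g f).symm
  have d3 : Gen s' = (Gen s)ᶜ := Set.ext fun z => ⟨fun f g => not_gen_of_mul R e g f, fun f => by
    filter_upwards [MerP.ev_off y z, MerP.ev_off y' z,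
      mem_nhdsWithin_of_mem_nhds ((m z).not_mem_gen.1 f)] with w f1 f2 f3
    exact (ne w f1 f2).resolve_left (not_not.2 f3)⟩
  have d4 := degOn_add_compl (L := bz A (ch.wd b)) (isClopen_gen m)
  rw [hc.wc, DA.bz_neg, degOn_inv, d3, ← d1] at d2
  rw [← d2, neg_add_cancel, deg_bz, hc.wb] at d4
  simp only [Pi.sub_apply, Int.sub_mul, Finset.sum_sub_distrib, k.deg_eq] at d4
  simpa [Pi.single_apply, sub_eq_zero] using d4.symm

theorem Gd.isNode {x : ch.W ν'} {γ δ : ε → ℂ → V ch.M} (hg : Gd x b c u γ δ a a') {y : V ch.M}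
    (hy : y ∈ crv x) (hb : fld x y b = 0) (hc : fld x y c = 0) : IsNode ch.o (crv x) y :=
  by_contra fun hn => (hg.ne y hy fun e f =>
    hn (hg.mem.2.2.1.nod.isNode_orb ⟨_, _, hg.cross e⟩ f)).elim (· hb) (· hc)

theorem vz_fac {x : ch.W ν'} {j : J} (hs : Sc x j) {γ δ : ℂ → V ch.M}
    (hm : ∀ᶠ z in 𝓝 0, γ z ∈ crv x) (f : Nrm.Fac γ δ) {k : ℕ} {a : ℂ}
    (h : a ≠ 0 ∧ Vz k (fun z => fld x (γ z) j) a) :
    ∃ a', a' ≠ 0 ∧ Vz k (fun z => fld x (δ z) j) a' := by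
  obtain ⟨s, φ, a1, a2, a3, a4, a5, a6⟩ := f
  have h0 : Tendsto φ (𝓝 0) (𝓝 0) := by simpa only [ContinuousAt, a4] using a2.continuousAt
  refine ⟨_, mul_ne_zero (Finset.prod_ne_zero_iff.2 fun i _ => zpow_ne_zero (ch.wd j i) (a3 i))
    (mul_ne_zero (zpow_ne_zero _ a5) h.1), ((h.2.comp a2 a4 a5).an_mul
      (q := fun z => ∏ i, s z i ^ ch.wd j i) (Finset.analyticAt_fun_prod _ fun i _ =>
        (analyticAt_pi_iff.1 a1 i).zpow (a3 i))).congr (Eventually.filter_mono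
          nhdsWithin_le_nhds ?_)⟩
  filter_upwards [a6, h0.eventually hm, eventually_all.2 fun i =>
    (continuousAt_pi.1 a1.continuousAt i).eventually_ne (a3 i)] with z e1 e2 e3
  rw [e1]
  exact (fld_smul e2 (hs _ e2) e3).symm

set_option linter.unusedVariables false in
/-- change of the branches -/
theorem Gd.of_fac (hc : ch.DgC i b c) {x : ch.W ν'} {γ δ γ' δ' : ε → ℂ → V ch.M}
    (hg : Gd x b c u γ δ a a') (h1 : ∀ e, Nrm.Fac (γ e) (γ' e) ∧ Nrm.Fac (δ e) (δ' e))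
    (h2 : ∀ e, IsCross ch.o (crv x) (γ' e 0) (γ' e) (δ' e)) :
    ∃ a a', Gd x b c u γ' δ' a a' := by
  have o : ∀ e, Base.Orb (γ e 0) (γ' e 0) := fun e =>
    let ⟨s, _, _, _, a3, a4, _, a6⟩ := (h1 e).1
    ⟨s 0, a3, by rw [a6.self_of_nhds, a4]⟩
  choose a₁ ha using fun e => vz_fac hg.scb (hg.cross e).1.mem (h1 e).1 (hg.vzb e)
  choose a₂ ha' using fun e => vz_fac hg.scc (hg.cross e).2.1.mem (h1 e).2 (hg.vzc e)
  exact ⟨a₁, a₂, hg.mem, hg.scb, hg.scc, hg.mul, h2,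
    fun e e' k => hg.inj e e' ((o e).trans (k.trans (o e').symm)), hg.pos, ha, ha',
    fun y hy k => hg.ne y hy (k.of_orb o)⟩

variable {x₀ : ch.bm ν κ} {Ψ : PV n ε → (ch.flat h).W (Mk ν κ)} {k : ch.W (Mk ν κ) → PV n ε}
  {σ' : ε → PV n ε × (ℂ × ℂ) → V (ch.flat h).M} {σ : ε → ch.W (Mk ν κ) × (ℂ × ℂ) → V ch.M}
  {D : ch.Cd ν κ h n ε}

theorem Vs.mem0 (hv : Vs x₀ Ψ k σ' σ) (e : ε) : σ e (x₀, 0) ∈ crv x₀.1 :=
  (hv.ch₀ e).mem0.self_of_nhds (by simp [hv.k0])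

theorem Vs.anτ (hv : Vs x₀ Ψ k σ' σ) (e : ε) : AnalyticAt ℂ (fun x => (k x).2 e) x₀.1 :=
  analyticAt_pi_iff.1 (analyticAt_snd.comp hv.ank) e

theorem Vs.τ0 (hv : Vs x₀ Ψ k σ' σ) (e : ε) : (k x₀).2 e = 0 := by simp [hv.k0]

theorem Vs.cross (hv : Vs x₀ Ψ k σ' σ) : ∀ᶠ x in 𝓝 x₀.1, x ∈ ch.bm ν κ → ∀ e, (k x).2 e = 0 →
    IsCross ch.o (crv x) (σ e (x, 0)) (fun z => σ e (x, (z, 0))) fun z => σ e (x, (0, z)) := by
  refine ev_sub' (x := x₀) (p := fun x => ∀ e, (k x).2 e = 0 → IsCross ch.o (crv x.1) (σ e (x, 0))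
    (fun z => σ e (x, (z, 0))) fun z => σ e (x, (0, z))) (eventually_all.2 fun e => ?_)
  refine ((tendsto_inl x₀ (0 : ℂ × ℂ)).eventually ((hv.ch₀ e).shift
    (.of_forall fun _ => continuous_subtype_val.continuousAt) (crv_ne (hv.mem0 e))
    (.of_forall fun _ _ hs _ hc => crv_smul hc hs))).mono fun x hx h0 => ?_
  have d : Chart ch.o (fun x : ch.bm ν κ => crv x.1) Subtype.val x (σ e)
      fun x => {z | z.1 * z.2 = (k x).2 e} := by simpa using hx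
  exact d.isCross h0 (crv_ne (d.mem0.self_of_nhds (by simp [h0])) _)

/-- a good point has a local model -/
theorem Gd.exists_lm (hc : ch.DgC i b c) (hm : ch.m ch.o ≠ 1) (hb : Bc x₀.1 b c 0)
    {γ δ : ε → ℂ → V ch.M} (hg : Gd x₀.1 b c u γ δ a a') :
    ∃ (n : ℕ) (Ψ : PV n ε → (ch.flat h).W (Mk ν κ)) (k : _) (σ' : _) (σ : _) (a a' : ε → ℂ),
      Lm b c x₀ Ψ k σ' σ u a a' ∧
      (n + Fintype.card ε : ℤ) = 3 * ch.g - 3 + Fintype.card (Mk ν κ) +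
        (Fintype.card ι - 2) * (ch.g - 1) + (∑ j with j ≠ i, ch.M j * ch.M j : ℕ) +
        Fintype.card (Mk ν κ) * (Fintype.card ι - 1) - Fintype.card κ ∧
      ∀ e, (Nrm.Fac (γ e) fun z => σ e (x₀, (z, 0))) ∧ Nrm.Fac (δ e) fun z => σ e (x₀, (0, z)) :=
  let ⟨n, Ψ, k, σ', σ, hv, hn, hf⟩ := exists_vs (h := h) hc hm x₀ hg.cross hg.inj
  let ⟨a, a', g⟩ := hg.of_fac hc hf fun e => hv.cross.self_of_nhds x₀.2 e (hv.τ0 e)
  ⟨n, Ψ, k, σ', σ, a, a', ⟨hc, hv, hb, g⟩, hn, hf⟩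

theorem exists_an_bv {x₀ : ch.W ν'} (hx : x₀ ∈ ch.base ν') (hb : Sc x₀ b) (hc : Sc x₀ c) {s : Bool}
    {z : ch.W ν' → V ch.M} (hz : AnalyticAt ℂ z x₀) (hm : z x₀ ∈ crv x₀)
    (h0 : fld x₀ (z x₀) (if s then b else c) ≠ 0) : ∃ Φ, AnalyticAt ℂ Φ x₀ ∧ Φ x₀ ≠ 0 ∧
      ∀ᶠ x in 𝓝 x₀, z x ∈ crv x → Sc x b → Sc x c → bv x b c s (z x) = Φ x := by
  obtain ⟨Φ, h1, h2⟩ := exists_fldU hx.1 (crv_ne hm) (if s then b else c)
  have h3 := analyticAt_id.prod hz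
  have h4 := h1.comp_of_eq h3 rfl
  have h5 := h3.continuousAt.eventually h2
  cases s
  · have h6 := h2.self_of_nhds hm (hc _ hm) ▸ h0
    exact ⟨_, h4.inv h6, inv_ne_zero h6, h5.mono fun x e d _ f => congrArg (·⁻¹) (e d (f _ d))⟩
  · exact ⟨_, h4, (h2.self_of_nhds hm (hb _ hm)).symm.trans_ne h0,
      h5.mono fun x e d f _ => e d (f _ d)⟩

theorem Cd.Ok.exists_an [DecidableEq J] (hD : D.Ok b c x₀ Ψ k) (hk : AnalyticAt ℂ k x₀) (hb : Sc x₀.1 b)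
    (hc : Sc x₀.1 c) : ∃ Φ, AnalyticAt ℂ Φ x₀.1 ∧
      ∀ᶠ x in 𝓝 x₀.1, x ∈ ch.bm ν κ → Sc x b → Sc x c → D.co b c k x = Φ x := by
  choose Φ p1 p2 p3 using fun j => exists_an_bv x₀.2.1 hb hc (hD.anz j)
    (hD.memz.self_of_nhds x₀.2 j).1 (hD.sd j)
  choose Φ' q1 _ q3 using fun a => exists_an_bv x₀.2.1 hb hc (W.an_p analyticAt_id a)
    (x₀.2.1.2.2.2.1 a).1 (hD.sp a)
  refine ⟨fun x => ((k x).1, fun j => (Φ j x)⁻¹ • D.z j x i, fun l => x.Q l ∘L D.S l,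
    fun a => Φ' (a.map id (·, false)) x, fun j => x.X j), (analyticAt_fst.comp hk).prod
      ((AnalyticAt.pi fun j => ((p1 j).inv (p2 j)).smul (analyticAt_pi_iff.1 (hD.anz j) i)).prod
        ((AnalyticAt.pi fun l => an_comp (an_Q l _) analyticAt_const).prod
          ((AnalyticAt.pi fun a => q1 _).prod (AnalyticAt.pi fun j => W.an_X analyticAt_id _)))), ?_⟩
  filter_upwards [eventually_all.2 p3, eventually_all.2 q3, hD.memz] with x e1 e2 e3 d1 d2 d3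
  simp only [Cd.co, fun j => e1 j (e3 d1 j).1 d2 d3]
  exact congrArg (fun t => (_, _, _, t, _)) (funext fun a => e2 _ (d1.1.2.2.2.1 _).1 d2 d3)

/-- the values of a field in a node chart -/
theorem Vs.exists_f (hv : Vs x₀ Ψ k σ' σ) (e : ε) (j : J) :
    ∃ f : ch.W (Mk ν κ) × (ℂ × ℂ) → ℂ, AnalyticAt ℂ f (x₀.1, 0) ∧ ∀ᶠ q in 𝓝 (x₀.1, (0 : ℂ × ℂ)),
      q.1 ∈ ch.bm ν κ → q.2.1 * q.2.2 = (k q.1).2 e →
        σ e q ∈ crv q.1 ∧ (Sc q.1 j → fld q.1 (σ e q) j = f q) := by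
  obtain ⟨Φ, h1, h2⟩ := exists_fldU x₀.2.1.1 (crv_ne (hv.mem0 e)) j
  have h3 := analyticAt_fst.prod (hv.ch₀ e).an
  refine ⟨_, h1.comp_of_eq h3 rfl, ?_⟩
  filter_upwards [h3.continuousAt.eventually h2, ev_sub (hv.ch₀ e).mem] with q e1 e2 d1 d2
  exact ⟨e2 d1 d2, fun f => e1 (e2 d1 d2) (f _ (e2 d1 d2))⟩

variable (b c k σ) in
/-- `f`, `f'` are the fields `b`, `c` in the chart at the node `e`. -/
structure NkC (e : ε) (f f' : ch.W (Mk ν κ) × (ℂ × ℂ) → ℂ) (U : Set (ℂ × ℂ)) (x : ch.W (Mk ν κ)) :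
    Prop where
  an : AnalyticAt ℂ f (x, 0)
  an' : AnalyticAt ℂ f' (x, 0)
  nhd : U ∈ 𝓝 0
  τ : ContinuousAt (fun x => (k x).2 e) x
  val : x ∈ ch.bm ν κ → Sc x b → Sc x c → ∀ z ∈ U, z.1 * z.2 = (k x).2 e → σ e (x, z) ∈ crv x ∧
    fld x (σ e (x, z)) b = f (x, z) ∧ fld x (σ e (x, z)) c = f' (x, z)

theorem Vs.exists_nk (hv : Vs x₀ Ψ k σ' σ) (b c : J) :
    ∃ (f f' : ε → _) (U : ε → _), ∀ᶠ x in 𝓝 x₀.1, ∀ e, NkC b c k σ e (f e) (f' e) (U e) x := by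
  have : ∀ e, ∃ f f' U, ∀ᶠ x in 𝓝 x₀.1, NkC b c k σ e f f' U x := fun e => by
    obtain ⟨f, h1, h2⟩ := hv.exists_f e b
    obtain ⟨f', h3, h4⟩ := hv.exists_f e c
    have h5 := h2.and h4
    rw [nhds_prod_eq] at h5
    obtain ⟨A, hA, U, hU, h6⟩ := eventually_prod_iff.1 h5
    refine ⟨f, f', {z | U z}, ?_⟩
    filter_upwards [hA, (tendsto_inl _ _).eventually h1.eventually_analyticAt,
      (tendsto_inl _ _).eventually h3.eventually_analyticAt, (hv.anτ e).eventually_analyticAt]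
      with x e1 e2 e3 e4
    exact ⟨e2, e3, hU, e4.continuousAt, fun d1 d2 d3 z d4 d5 => ⟨((h6 e1 d4).1 d1 d5).1,
      ((h6 e1 d4).1 d1 d5).2 d2, ((h6 e1 d4).2 d1 d5).2 d3⟩⟩
  choose f f' U hf using this
  exact ⟨f, f', U, eventually_all.2 hf⟩

section nk

variable {e : ε} {f f' : ch.W (Mk ν κ) × (ℂ × ℂ) → ℂ} {U : Set (ℂ × ℂ)} {x : ch.W (Mk ν κ)} {t : ℂ}
  {w : ℤ} {α : ℂ}

theorem NkC.mul (H : NkC b c k σ e f f' U x) (hb : Bc x b c t) :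
    ∀ z ∈ U, z.1 * z.2 = (k x).2 e → f (x, z) * f' (x, z) = t := fun z d1 d2 =>
  let ⟨a1, a2, a3⟩ := H.val hb.mem hb.scb hb.scc z d1 d2
  a2 ▸ a3 ▸ hb.mul _ a1

theorem NkC.vz_iff (H : NkC b c k σ e f f' U x) (hb : Bc x b c t) (h0 : (k x).2 e = 0) :
    (Vz w (fun z => fld x (σ e (x, (z, 0))) b) α ↔ Vz w (fun z => f (x, (z, 0))) α) ∧
      (Vz w (fun z => fld x (σ e (x, (0, z))) c) α ↔ Vz w (fun z => f' (x, (0, z))) α) := by
  have h1 : ∀ᶠ z in 𝓝[≠] (0 : ℂ), fld x (σ e (x, (z, 0))) b = f (x, (z, 0)) :=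
    (((tendsto_inl (0 : ℂ) (0 : ℂ)).eventually H.nhd).filter_mono nhdsWithin_le_nhds).mono
      fun z d => (H.val hb.mem hb.scb hb.scc _ d (by simp [h0])).2.1
  have h2 : ∀ᶠ z in 𝓝[≠] (0 : ℂ), fld x (σ e (x, (0, z))) c = f' (x, (0, z)) :=
    (((tendsto_inr (0 : ℂ) (0 : ℂ)).eventually H.nhd).filter_mono nhdsWithin_le_nhds).mono
      fun z d => (H.val hb.mem hb.scb hb.scc _ d (by simp [h0])).2.2
  exact ⟨⟨(·.congr h1), (·.congr (h1.mono fun _ => Eq.symm))⟩,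
    (·.congr h2), (·.congr (h2.mono fun _ => Eq.symm))⟩

theorem an_ax₁ (hf : AnalyticAt ℂ f (x, 0)) :
    AnalyticAt ℂ (fun q : ch.W (Mk ν κ) × ℂ => f (q.1, (q.2, 0))) (x, 0) :=
  hf.comp (f := fun q : ch.W (Mk ν κ) × ℂ => (q.1, (q.2, (0 : ℂ))))
    (analyticAt_fst.prod (analyticAt_snd.prod analyticAt_const))

theorem an_ax₂ (hf : AnalyticAt ℂ f (x, 0)) :
    AnalyticAt ℂ (fun q : ch.W (Mk ν κ) × ℂ => f (q.1, (0, q.2))) (x, 0) :=
  hf.comp (f := fun q : ch.W (Mk ν κ) × ℂ => (q.1, ((0 : ℂ), q.2)))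
    (analyticAt_fst.prod (analyticAt_const.prod analyticAt_snd))

/-- the neck lemma at a good point -/
theorem NkC.tendsto (H : ∀ᶠ y in 𝓝 x, NkC b c k σ e f f' U y) (hb : Bc x b c 0) (h0 : (k x).2 e = 0)
    (hg : Gd x b c u (fun e z => σ e (x, (z, 0))) (fun e z => σ e (x, (0, z))) a a')
    {l : Filter (ch.W (Mk ν κ) × ℂ)} (hl : Tendsto Prod.fst l (𝓝 x))
    (hq : ∀ᶠ q in l, Bc q.1 b c q.2 ∧ q.2 ≠ 0) : (∀ᶠ q in l, (k q.1).2 e ≠ 0) ∧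
      Tendsto (fun q => q.2 / (k q.1).2 e ^ u e) l (𝓝 (a e * a' e)) :=
  have H0 := H.self_of_nhds
  tendsto_neck (τ := fun x => (k x).2 e) H0.an H0.an' H0.τ h0 (hg.vzb e).1 (hg.vzc e).1
    ((H0.vz_iff hb h0).1.1 (hg.vzb e).2) ((H0.vz_iff hb h0).2.1 (hg.vzc e).2) (hg.pos e) hl H0.nhd
    ((hq.and (hl.eventually H)).mono fun _ d => ⟨d.1.2, d.2.mul d.1.1⟩)

end nk

variable (H : Lm b c x₀ Ψ k σ' σ u a a')
include H

/-- the nodes at which both fields vanish -/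
theorem Lm.eventually_orb : ∀ᶠ x : ch.bm ν κ in 𝓝 x₀, ∀ y ∈ crv x.1, Sc x.1 b → Sc x.1 c →
    IsNode ch.o (crv x.1) y → fld x.1 y b = 0 → fld x.1 y c = 0 →
      ∃ e, Base.Orb (σ e (x, 0)) y := by
  have hf := locFam_bm H.dg.cuts x₀
  refine hf.compact (p := fun q => Sc q.1.1 b → Sc q.1.1 c → IsNode ch.o (crv q.1.1) q.2 →
    fld q.1.1 q.2 b = 0 → fld q.1.1 q.2 c = 0 → ∃ e, Base.Orb (σ e (q.1, 0)) q.2) (fun y hy => ?_)
    (.of_forall fun x s hs y hy d d1 d2 d3 d4 d5 => ?_)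
  · by_cases ho : Off (fun e => σ e (x₀, 0)) y
    · have key : ∀ j, Sc x₀.1 j → fld x₀.1 y j ≠ 0 → ∀ᶠ q : ch.bm ν κ × V ch.M in 𝓝 (x₀, y),
          q.2 ∈ crv q.1.1 → Sc q.1.1 j → fld q.1.1 q.2 j ≠ 0 := fun j d1 d2 => by
        obtain ⟨Φ, h1, h2⟩ := exists_fldU x₀.2.1.1 (crv_ne hy) j
        exact ((tendsto_pm continuous_subtype_val.continuousAt y).eventually (h2.and
          (h1.continuousAt.eventually_ne ((h2.self_of_nhds hy (d1 _ hy)).symm.trans_ne d2)))).mono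
            fun q e1 e2 e3 => (e1.1 e2 (e3 _ e2)).trans_ne e1.2
      rcases H.gd.ne y hy ho with d | d
      · exact (key b H.bc.scb d).mono fun q e1 e2 e3 _ _ e4 => absurd e4 (e1 e2 e3)
      · exact (key c H.bc.scc d).mono fun q e1 e2 _ e3 _ _ e4 => absurd e4 (e1 e2 e3)
    · obtain ⟨e, s, hs, rfl⟩ : ∃ e, Base.Orb (σ e (x₀, 0)) y := by simpa [Off] using ho
      filter_upwards [NdAt.eventually ((H.vs.ch₀ e).smul hf.cone hs) (H.vs.anτ e) (H.vs.τ0 e) hf]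
        with q e1 e2 _ _ e3 _ _
      obtain ⟨-, ⟨r, e4⟩, -⟩ := (e1 e2).resolve_left fun d =>
        d.not_isNode (locFam_bm H.dg.cuts _) e3
      exact ⟨e, .of_smul (crv_ne e2) (e4.trans (smul_smul _ _ _))⟩
  · obtain ⟨e, f⟩ := d d1 d2 (x.2.1.2.2.1.nod.isNode_orb d3 ⟨s, hs, rfl⟩)
      ((fld_smul hy (d1 _ hy) hs).trans (mul_eq_zero_of_right _ d4))
      ((fld_smul hy (d2 _ hy) hs).trans (mul_eq_zero_of_right _ d5))
    exact ⟨e, f.trans (Base.Orb.symm ⟨s, hs, rfl⟩)⟩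

/-- on the special fibre -/
theorem Lm.eventually_gd : ∀ᶠ x in 𝓝 x₀.1, Bc x b c 0 →
    (∀ y ∈ crv x, fld x y b = 0 → fld x y c = 0 → IsNode ch.o (crv x) y) → (k x).2 = 0 ∧
      ∃ a a', Gd x b c u (fun e z => σ e (x, (z, 0))) (fun e z => σ e (x, (0, z))) a a' := by
  obtain ⟨f, f', U, hf⟩ := H.vs.exists_nk b c
  have h1 : ∀ e, ∀ᶠ x in 𝓝 x₀.1, Bc x b c 0 →
      (∀ y ∈ crv x, fld x y b = 0 → fld x y c = 0 → IsNode ch.o (crv x) y) → (k x).2 e = 0 ∧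
      (∃ a, a ≠ 0 ∧ Vz (u e) (fun z => fld x (σ e (x, (z, 0))) b) a) ∧
        ∃ a, a ≠ 0 ∧ Vz (u e) (fun z => fld x (σ e (x, (0, z))) c) a := fun e => by
    have h0 := hf.self_of_nhds e
    have v1 := (h0.vz_iff H.bc (H.vs.τ0 e)).1.1 (H.gd.vzb e).2
    have v2 := (h0.vz_iff H.bc (H.vs.τ0 e)).2.1 (H.gd.vzc e).2
    have h2 := ev_sub ((H.vs.ch₀ e).eventually_smAt (H.vs.anτ e) (H.vs.τ0 e)
      (locFam_bm H.dg.cuts x₀))
    rw [nhds_prod_eq] at h2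
    obtain ⟨A, hA, B, hB, h3⟩ := eventually_prod_iff.1 h2
    have h4 := hB.and h0.nhd
    filter_upwards [hf, hA, eventually_tau h0.an h0.an' h0.τ (H.vs.τ0 e) (v1.not_ev (H.gd.vzb e).1)
      (v2.not_ev (H.gd.vzc e).1) h0.nhd, eventually_vz' (an_ax₁ h0.an) (an_ax₁ h0.an')
        (H.gd.vzb e).1 v1 ((tendsto_inl (0 : ℂ) (0 : ℂ)).eventually h4), eventually_vz'
          (an_ax₂ h0.an') (an_ax₂ h0.an) (H.gd.vzc e).1 v2
            ((tendsto_inr (0 : ℂ) (0 : ℂ)).eventually h4)] with x e1 e2 e3 e4 e5 d1 d2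
    have d3 := e3 ((e1 e).mul d1)
    have d4 : ∀ z, B z ∧ z ∈ U e → z.1 * z.2 = 0 → z ≠ 0 → f e (x, z) ≠ 0 ∨ f' e (x, z) ≠ 0 :=
      fun z g1 g2 g3 => by
        obtain ⟨g4, g5, g6⟩ := (e1 e).val d1.mem d1.scb d1.scc z g1.2 (g2.trans d3.symm)
        exact not_and_or.1 fun g => (h3 e2 g1.1 d1.mem (g2.trans d3.symm) g3).not_isNode
          (locFam_bm H.dg.cuts _) (d2 _ g4 (g5.trans g.1) (g6.trans g.2))
    obtain ⟨a₁, d5, d6⟩ := e4 (fun z g => (e1 e).mul d1 _ g.2 (by simp [d3]))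
      fun z g g' => d4 _ g (mul_zero _) fun q => g' (congrArg Prod.fst q)
    obtain ⟨a₂, d7, d8⟩ := e5 (fun z g => (mul_comm _ _).trans ((e1 e).mul d1 _ g.2 (by simp [d3])))
      fun z g g' => (d4 _ g (zero_mul _) fun q => g' (congrArg Prod.snd q)).symm
    exact ⟨d3, ⟨a₁, d5, ((e1 e).vz_iff d1 d3).1.2 d6⟩, a₂, d7, ((e1 e).vz_iff d1 d3).2.2 d8⟩
  have h2 : ∀ e e', ∀ᶠ x in 𝓝 x₀.1, Base.Orb (σ e (x, 0)) (σ e' (x, 0)) → e = e' := fun e e' => by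
    have t := fun e => (H.vs.ch₀ e).an.continuousAt.tendsto.comp (tendsto_inl x₀.1 0)
    by_cases d : e = e'
    · exact .of_forall fun _ _ => d
    · exact (Base.ev_not_orb (t e) (t e') (crv_ne (H.vs.mem0 e)) (crv_ne (H.vs.mem0 e'))
        fun g => d (H.vs.inj e e' g)).mono fun _ g g' => absurd g' g
  filter_upwards [eventually_all.2 h1, eventually_all.2 fun e => eventually_all.2 (h2 e),
    H.vs.cross, ev_sub' H.eventually_orb] with x e1 e2 e3 e4 d1 d2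
  choose a₁ h3 using fun e => (e1 e d1 d2).2.1
  choose a₂ h4 using fun e => (e1 e d1 d2).2.2
  exact ⟨funext fun e => (e1 e d1 d2).1, a₁, a₂, d1.mem.1, d1.scb, d1.scc, d1.mul,
    fun e => e3 d1.mem e (e1 e d1 d2).1, e2, H.gd.pos, h3, h4, fun y hy ho => not_and_or.1 fun g =>
      (e4 d1.mem y hy d1.scb d1.scc (d2 y hy g.1 g.2) g.1 g.2).elim ho⟩

/-- off the special fibre -/
theorem Lm.eventually_ne : ∀ᶠ q : ch.W (Mk ν κ) × ℂ in 𝓝 (x₀.1, 0), Bc q.1 b c q.2 → q.2 ≠ 0 →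
    ∀ e, (k q.1).2 e ≠ 0 := by
  obtain ⟨f, f', U, hf⟩ := H.vs.exists_nk b c
  exact (eventually_nhdsWithin_iff.1 (eventually_all.2 fun e => (NkC.tendsto (hf.mono fun _ d => d e)
    H.bc (H.vs.τ0 e) H.gd (l := 𝓝[{q | Bc q.1 b c q.2 ∧ q.2 ≠ 0}] (x₀.1, 0))
    (continuousAt_fst.tendsto.mono_left nhdsWithin_le_nhds) self_mem_nhdsWithin).1)).mono
      fun q d d1 d2 => d ⟨d1, d2⟩

/-- the gluing parameters are continuous on the model and holomorphic on the special fibre -/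
theorem Lm.exists_cf : ∃ A : ch.W (Mk ν κ) → ε → ℂ, AnalyticAt ℂ A x₀.1 ∧ A x₀.1 = a * a' ∧
    ∀ᶠ q in 𝓝 (x₀.1, (0 : ℂ)), q ∈ Md b c u k σ →
      (∀ cf, Pq b c u (fun x => (k x).2) σ q.1 q.2 cf ↔ cf = cfn u k A q) ∧
        ContinuousWithinAt (cfn u k A) (Md b c u k σ) q := by
  obtain ⟨f, f', U, hf⟩ := H.vs.exists_nk b c
  choose α p1 p2 using fun e => exists_an_lead (an_ax₁ (hf.self_of_nhds e).an) (u e)
  choose α' q1 q2 using fun e => exists_an_lead (an_ax₂ (hf.self_of_nhds e).an') (u e)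
  have h1 : AnalyticAt ℂ (fun x e => α e x * α' e x) x₀.1 :=
    AnalyticAt.pi fun e => (p1 e).mul (q1 e)
  have h2 : ∀ᶠ x in 𝓝 x₀.1, Bc x b c 0 → (k x).2 = 0 → ∀ a a', Gd x b c u
      (fun e z => σ e (x, (z, 0))) (fun e z => σ e (x, (0, z))) a a' →
        a * a' = fun e => α e x * α' e x := by
    filter_upwards [hf, eventually_all.2 p2, eventually_all.2 q2] with x e1 e2 e3 d1 d2 a a' d3
    exact funext fun e => congrArg₂ (· * ·)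
      (e2 e _ (((e1 e).vz_iff d1 (congrFun d2 e)).1.1 (d3.vzb e).2))
      (e3 e _ (((e1 e).vz_iff d1 (congrFun d2 e)).2.1 (d3.vzc e).2))
  refine ⟨_, h1, (h2.self_of_nhds H.bc (funext H.vs.τ0) _ _ H.gd).symm, ?_⟩
  filter_upwards [continuousAt_fst.eventually h2, continuousAt_fst.eventually hf.eventually_nhds,
    continuousAt_fst.eventually h1.eventually_analyticAt] with q e1 e2 e3 ⟨cf₀, d⟩
  have h3 : ∀ cf, Pq b c u (fun x => (k x).2) σ q.1 q.2 cf →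
      cf = cfn u k (fun x e => α e x * α' e x) q := by
    rintro cf ⟨d1, ⟨d2, d3⟩ | ⟨d2, d3, a, a', d4, rfl⟩⟩
    · rw [cfn, if_neg d2]
      exact funext fun e => eq_div_of_mul_eq (right_ne_zero_of_mul (d3 e ▸ d2)) (d3 e)
    · rw [cfn, if_pos d2]
      exact e1 (d2 ▸ d1) d3 _ _ d4
  refine ⟨fun cf => ⟨h3 cf, fun g => g ▸ h3 _ d ▸ d⟩, ?_⟩
  obtain ⟨d1, ⟨d2, d3⟩ | ⟨d2, d3, a, a', d4, -⟩⟩ := d
  · refine ContinuousAt.continuousWithinAt (ContinuousAt.congr (f := fun q e =>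
      q.2 / (k q.1).2 e ^ u e) (continuousAt_pi.2 fun e => continuousAt_snd.div
        (((e2.self_of_nhds e).τ.comp continuousAt_fst).pow _) (right_ne_zero_of_mul (d3 e ▸ d2))) ?_)
    exact (continuousAt_snd.eventually_ne d2).mono fun q g => (if_neg g).symm
  · refine ContinuousWithinAt.mono (ContinuousWithinAt.union
      (s := {q : ch.W (Mk ν κ) × ℂ | q.2 = 0}) (t := {q | Bc q.1 b c q.2 ∧ q.2 ≠ 0}) ?_ ?_)
      fun q ⟨_, g, _⟩ => (eq_or_ne q.2 0).imp_right fun g' => ⟨g, g'⟩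
    · exact (e3.continuousAt.comp continuousAt_fst).continuousWithinAt.congr
        (fun _ g => if_pos g) (if_pos d2)
    · refine Tendsto.congr' (f₁ := fun q e => q.2 / (k q.1).2 e ^ u e)
        (eventually_mem_nhdsWithin.mono fun q g => (if_neg g.2).symm) ?_
      rw [cfn, if_pos d2, ← e1 (d2 ▸ d1) d3 _ _ d4]
      exact tendsto_pi_nhds.2 fun e => (NkC.tendsto (e2.mono fun _ g => g e) (d2 ▸ d1)
        (congrFun d3 e) d4 (continuousAt_fst.tendsto.mono_left nhdsWithin_le_nhds)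
        self_mem_nhdsWithin).2

end Ch

end Vale.Agent.P269
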