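import Vale.Agent.P287Q.G.Spl.Spec

/-!
# Positivity is an open condition, pointwise form
-/

namespace Vale.Agent.P269

open Set Function Topology Filter Holo Base Cv

variable {S Λ R J K ι ν κ : Type} [Fintype Λ] [Fintype R] [Fintype J] [Fintype ι] [DecidableEq ι]
  [Fintype ν] [Fintype κ] [DecidableEq R] {m₀ : AM Λ R J ν κ} {A : Set J}

theorem Ch.RepD.eventually_pos {ch : Ch ι J} {ℓ : R → ι → ℤ} {x₀ : ch.WF ν κ Λ} {B₀ π₀ u₀ s₀}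
    (h₀ : Ch.RepD ℓ A x₀ m₀ B₀ π₀ u₀ s₀) (hc : ch.Cuts) (hk : ch.k ≠ 0) {θ : R → ℤ} {k : ℕ}
    (pos : m₀.Pos θ k) : ∀ᶠ x in 𝓝 x₀, ∀ (A' : Set J) (m : AM Λ R J ν κ) (B π u s),
      Ch.RepD ℓ A' x m B π u s → m.Pos θ k := by
  obtain ⟨r, y, z₀, -, -, a⟩ := h₀.exists_spec hc finite_empty
  refine a.mono fun x b A m B π u s H => SpecP.pos_of pos fun U v w => ?_
  obtain ⟨z, -, c, -⟩ := b A m B π u s H
  obtain ⟨U₀, d1, -, -, d2, d3, -⟩ := c U v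
  exact ⟨U₀, d1, d3 w, SpecP.deg_eq hk H h₀ d2⟩

theorem Fam.eventually_pos [Fintype S] [Fintype K] {F : Fam S Λ R J K} {k D n : ℕ} {g : ℤ}
    {d : R → ℤ} (hk : k ≠ 0) (hD : F.BigD k D) {x₀ : (F.chart g n d k D).WF ν κ Λ} {B₀ π₀ u₀ s₀}
    (h₀ : Ch.RepD ℓs A x₀ m₀ B₀ π₀ u₀ s₀) (pos : m₀.Pos F.θ k) :
    ∀ᶠ x in 𝓝 x₀, ∀ (A' : Set J) (m : AM Λ R J ν κ) (B π u s),
      Ch.RepD ℓs A' x m B π u s → m.Pos F.θ k :=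
  h₀.eventually_pos (chart_cuts hD) hk pos

end Vale.Agent.P269
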