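import Vale.Agent.P287Q.G.Spl.Geo2
import Vale.Agent.P269.Base.Mfd

/-!
# The main strata of a degeneration are manifolds
-/

set_option linter.unusedSectionVars false

namespace Vale.Agent.P269

open Set Function Topology Filter Holo Base Cv

variable {S Λ Λ₀ R J K ι ν κ ε : Type} [Fintype S] [Fintype Λ] [Fintype Λ₀] [Fintype R] [Fintype J]
  [Fintype K] [Fintype ι] [DecidableEq ι] [Fintype ν] [Fintype κ] [Fintype ε]

theorem an_elim {A : Type*} [NormedAddCommGroup A] [NormedSpace ℂ A] {f : A → Λ₀ → ℂ} {g : A → ℂ}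
    {a : A} (hf : AnalyticAt ℂ f a) (hg : AnalyticAt ℂ g a) :
    AnalyticAt ℂ (fun s (o : Option Λ₀) => o.elim (g s) (f s)) a :=
  analyticAt_pi_iff.2 fun o => by
    cases o
    exacts [hg, analyticAt_pi_iff.1 hf _]

theorem an_some (l : Option Λ₀ → ℂ) : AnalyticAt ℂ (fun s : Option Λ₀ → ℂ => s ∘ some) l :=
  analyticAt_pi_iff.2 fun _ => analyticAt_pi_iff.1 analyticAt_id _

theorem elim_eta (l : Option Λ₀ → ℂ) : (fun o : Option Λ₀ => o.elim (l none) (l ∘ some)) = l :=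
  funext fun o => by cases o <;> rfl

theorem mfd_slab {B₀ : Set (Λ₀ → ℂ)} {t : ℂ} {l : Option Λ₀ → ℂ} {n : ℕ} (hl : l none = t)
    (h : MfdAt B₀ n (l ∘ some)) : MfdAt (slab B₀ t) n l := by
  subst hl
  have := h.iso (S' := slab B₀ (l none)) (F := fun s o => o.elim (l none) s) (G := fun s => s ∘ some)
    (an_elim analyticAt_id analyticAt_const) (an_some _) (.of_forall fun s a => ⟨⟨a, rfl⟩, rfl⟩)
    (.of_forall fun s a => ⟨a.1, a.2 ▸ elim_eta s⟩)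
  rwa [elim_eta] at this

theorem mfd_tube {B₀ : Set (Λ₀ → ℂ)} {Ω : Set ℂ} {l : Option Λ₀ → ℂ} {n : ℕ} (hl : Ω ∈ 𝓝 (l none))
    (h : MfdAt B₀ n (l ∘ some)) : MfdAt {s | s ∘ some ∈ B₀ ∧ s none ∈ Ω} (n + 1) l := by
  have := (h.prod (MfdAt.univ (l none))).iso (S' := {s : Option Λ₀ → ℂ | s ∘ some ∈ B₀})
    (F := fun s o => o.elim s.2 s.1) (G := fun s => (s ∘ some, s none))
    (an_elim analyticAt_fst analyticAt_snd)
    ((an_some _).prod (analyticAt_pi_iff.1 analyticAt_id _)) (.of_forall fun s a => ⟨a.1, rfl⟩)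
    (.of_forall fun s a => ⟨⟨a, trivial⟩, elim_eta s⟩)
  rw [elim_eta, Module.finrank_self] at this
  exact this.congr (((continuous_apply none).continuousAt.eventually hl).mono fun s a =>
    (and_iff_left a).symm)

namespace Ch

variable {ch : Ch ι J} {F : Fam S Λ R J K} {ℓ : R → ι → ℤ} {i : ι} {b c : J} {U : Mk ν κ → ℤ}
  {b' : ℕ}

theorem DgC.num' (hc : ch.DgC i b c) (hm : ch.m ch.o ≠ 1) : ch.Num₀ :=
  ⟨hc.a_ne, ⟨none, hc.cut⟩, hc.k_ne, hm, hc.tight, hc.chi⟩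

theorem DgC.li' (hc : ch.DgC i b c) :
    LinearIndependent ℤ fun o : Option Unit => o.elim ch.χ fun _ => ch.wd b := by
  refine Fintype.linearIndependent_iff.2 fun g hg o => ?_
  have h := congrFun hg i
  simp only [Fintype.sum_option, Finset.univ_unique, Finset.sum_singleton, Option.elim, hc.wb,
    Pi.add_apply, Pi.smul_apply, hc.chi0, Pi.sub_apply, Pi.single_eq_same,
    Pi.single_eq_of_ne hc.ne.symm, smul_eq_mul, mul_zero, zero_add, sub_zero, mul_one,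
    Pi.zero_apply] at h
  rcases o with _ | ⟨⟨⟩⟩
  · simp only [Fintype.sum_option, Finset.univ_unique, Finset.sum_singleton, Option.elim, h,
      zero_smul, add_zero, smul_eq_zero] at hg
    exact hg.resolve_right fun e => hc.chi (by simp [e])
  · exact h

open Classical in
theorem dS_eq (A : Set J) (n : ℕ) : ch.dS S A n U = n + ch.dimB (Mk ν κ) + (1 - ch.g) -
    (∑ j with j ∉ A, Module.finrank ℂ (Tens ch.M (ch.b j)) * ch.h (some j) : ℕ) - Fintype.card κ -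
    (Finset.univ.filter fun q => U (.inr (q, false)) = 0 ∧ U (.inr (q, true)) = 0).card := by
  rw [dS, dimB, finrank_AF, finrank_A, fm, qd,
    ← Finset.sum_filter_add_sum_filter_not Finset.univ (· ∈ A)]
  simp only [Fintype.card_sum, Fintype.card_prod, Fintype.card_bool]
  push_cast
  ring

/-- the stratum `b c = τ`, where `τ` is an invertible function of the parameters -/
theorem mfd_bc (hc : ch.DgC i b c) (hm : ch.m ch.o ≠ 1) (h1 : F.mov = {b, c}ᶜ) (h2 : F.zer = ∅)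
    {τ : (Λ → ℂ) → ℂ} (hτ : ∀ l ∈ F.B, AnalyticAt ℂ τ l ∧ τ l ≠ 0)
    (hE : ∀ l ∈ F.B, ∀ y, (l, y) ∈ F.E ↔ y b * y c = τ l) {x : ch.WF ν κ Λ}
    (hx : x ∈ ch.main κ F 0) (hB : MfdAt F.B b' x.1) :
    ∃ n : ℕ, (n : ℤ) = ch.dS S F.mov b' (0 : Mk ν κ → ℤ) ∧ MfdAt (ch.main κ F 0) n x := by
  classical
  have e : ∀ j, j ∉ F.mov ↔ j = b ∨ j = c := fun j => by rw [h1, notMem_compl_iff]; rfl
  have hG : Gr ch F (0 : ν → J → ℕ) (fun _ : Unit => b) (fun j _ => if j = b then 1 else -1)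
      fun j => if j = b then 1 else τ := by
    refine ⟨by simp [h2], fun _ => ⟨(e b).2 (.inl rfl), by simp [h2], by ext; simp, by simp⟩,
      hc.li', fun _ _ _ _ => rfl, fun j l hl => ?_, fun j hj _ => ?_, by simp,
      fun l hl y _ k => ?_⟩
    · split_ifs
      exacts [⟨analyticAt_const, one_ne_zero⟩, hτ l hl]
    · rcases (e j).1 hj with rfl | rfl <;> simp [hc.wc, hc.bc.symm]
    · have k1 : y b ≠ 0 := k c () (by simp [hc.bc.symm])
      simp [hE l hl, e, h2, hc.bc.symm, eq_mul_inv_iff_mul_eq₀ k1, mul_comm]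
  obtain ⟨N, h3, h4⟩ := (hc.num' hm).mfdAt hx.1.1.2.1
  obtain ⟨d, h5, h6⟩ := mfd_main hc.cut hc.a_ne hG hx hB h4
  refine ⟨d, ?_, h6⟩
  rw [dS_eq, ← h3]
  simp only [Pi.zero_apply, and_self, Finset.filter_true, Finset.card_univ, Fintype.card_unique]
    at h5 ⊢
  push_cast at h5 ⊢
  linear_combination h5

/-- the main stratum of the total family -/
theorem mfd_tot [DecidableEq R] {F : Fam S (Option Λ₀) R J K} {r : R} {B₀ : Set (Λ₀ → ℂ)}
    {Ω : Set ℂ} (hc : ch.Dg F.toWt ℓ i b c) (hF : F.Deg r b c B₀ Ω) {x : ch.WF ν κ (Option Λ₀)}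
    (hx : x ∈ ch.main κ F 0) (hB : MfdAt B₀ b' (x.1 ∘ some)) :
    ∃ n : ℕ, (n : ℤ) = ch.dS S F.mov b' (0 : Mk ν κ → ℤ) + 1 ∧ MfdAt (ch.main κ F 0) n x := by
  have hb := hx.1.1.2.1
  have h1 : Ω ∈ 𝓝 (x.1 none) := hF.opn.mem_nhds (hF.B ▸ hx.1.1.1 :).2
  have e : ∀ A, ch.dS S A (b' + 1) (0 : Mk ν κ → ℤ) = ch.dS S A b' (0 : Mk ν κ → ℤ) + 1 :=
    fun A => by
      rw [dS, dS]
      push_cast
      ring
  rcases (crv x.2).eq_empty_or_nonempty with h | ⟨y, h⟩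
  · have := ((hc.num' hc.m_ne).empty hb h).2.2.2.2.2
    have k : ∀ E, ch.main κ { F with E := E } (0 : ν → J → ℕ) = ch.main κ F 0 := fun E =>
      Set.ext fun s => by
        simp only [main, adm, mem_ofPred_eq, Subsingleton.elim s.2 x.2, h, forall_mem_empty]
    rw [← k {z | z.2 b * z.2 c = 1}] at hx ⊢
    exact e _ ▸ mfd_bc (F := { F with E := {z | z.2 b * z.2 c = 1} }) (τ := fun _ => 1) hc.toDgC
      hc.m_ne hF.mov hF.zer (fun _ _ => ⟨analyticAt_const, one_ne_zero⟩) (fun _ _ _ => Iff.rfl) hx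
      (hF.B ▸ mfd_tube h1 hB)
  have h2 : ∀ j, j = b ∨ j = c → fld x.2 y j ≠ 0 := fun j hj =>
    have k : j ∉ F.mov := by rwa [hF.mov, notMem_compl_iff]
    fld_ne hb (hx.1.2.1 j k) (mem_main_iff.1 hx |>.2 j k (by simp [hF.zer])) h fun m _ => by
      cases m <;> rfl
  have h3 : x.1 none ≠ 0 := ((hF.E ▸ hx.1.2.2.1 y h :) : _ = _) ▸
    mul_ne_zero (h2 b (.inl rfl)) (h2 c (.inr rfl))
  have h4 : ∀ s : ch.WF ν κ (Option Λ₀), s.1 none ≠ 0 → (s ∈ ch.main κ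
      (F.sub {l | l ∘ some ∈ B₀ ∧ l none ∈ Ω ∩ {0}ᶜ} ∅) 0 ↔ s ∈ ch.main κ F 0) := fun s hs => by
    simp only [main, adm, baseF, mem_ofPred_eq, hF.B, hF.zer, mem_inter_iff, mem_compl_iff,
      mem_singleton_iff, hs, not_false_eq_true, and_true]
  obtain ⟨n, h5, h6⟩ := mfd_bc (F := F.sub {l | l ∘ some ∈ B₀ ∧ l none ∈ Ω ∩ {0}ᶜ} ∅)
    (τ := fun l => l none) hc.toDgC hc.m_ne hF.mov rfl
    (fun _ a => ⟨analyticAt_pi_iff.1 analyticAt_id _, a.2.2⟩) (fun _ _ _ => by rw [hF.E]; rfl)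
    ((h4 x h3).2 hx) (mfd_tube (inter_mem h1 (isOpen_compl_singleton.mem_nhds h3)) hB)
  exact ⟨n, e _ ▸ h5, h6.congr ((((continuous_apply none).comp
    continuous_fst).continuousAt.eventually_ne h3).mono h4)⟩

/-- the main stratum of a general fibre -/
theorem mfd_fib [DecidableEq R] {F : Fam S (Option Λ₀) R J K} {r : R} {B₀ : Set (Λ₀ → ℂ)}
    {Ω : Set ℂ} (hc : ch.Dg F.toWt ℓ i b c) (hF : F.Deg r b c B₀ Ω) {x : ch.WF ν κ (Option Λ₀)}
    {t : ℂ} (ht : t ≠ 0) (hx : x ∈ ch.main κ (F.sub (slab B₀ t) ∅) 0)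
    (hB : MfdAt B₀ b' (x.1 ∘ some)) : ∃ n : ℕ, (n : ℤ) = ch.dS S F.mov b' (0 : Mk ν κ → ℤ) ∧
      MfdAt (ch.main κ (F.sub (slab B₀ t) ∅) 0) n x :=
  mfd_bc (F := F.sub (slab B₀ t) ∅) (τ := fun l => l none) hc.toDgC hc.m_ne hF.mov rfl
    (fun _ a => ⟨analyticAt_pi_iff.1 analyticAt_id _, a.2.symm ▸ ht⟩)
    (fun _ _ _ => by rw [hF.E]; rfl) hx (mfd_slab hx.1.1.1.2 hB)

end Ch

end Vale.Agent.P269
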