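import Vale.Agent.P287Q.G.Spl.StrA
import Vale.Agent.P287Q.G.Spl.StrC
import Vale.Agent.P287Q.G.Spl.Hit

/-!
# The space of level structures is a manifold
-/

set_option linter.unusedSectionVars false

namespace Vale.Agent.P269.Ch

open Set Function Topology Filter Holo Base

variable {S J ι ν κ β : Type} [Fintype S] [Fintype J] [Fintype ι] [DecidableEq ι] [Fintype ν]
  [Fintype κ] [Fintype β] {ch : Ch ι J} {i : ι} {b c : J} {U : Mk ν κ → ℤ} {x : ch.W (Mk ν κ)}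
  {f : V ch.M → ℂ} {e : V ch.M → Option Bool} {y : β → ch.W (Mk ν κ) → V ch.M} {n : Mk ν κ}

/-- A level structure at a point of the chart. -/
structure Lq (x : ch.W (Mk ν κ)) (b c : J) (U : Mk ν κ → ℤ) (f : V ch.M → ℂ) : Prop
    extends Bc x b c 0 where
  triv : Triv ch.o (crv x) (ch.wd b) x.p U f
  mt : ∀ q, U (.inr (q, false)) = 0 → U (.inr (q, true)) = 0 →
    lv ch.o (crv x) f (x.p (.inr (q, false))) = lv ch.o (crv x) f (x.p (.inr (q, true)))
  eqb : ∀ y ∈ crv x, Off x.p y → fld x y b ≠ 0 → fld x y b = f y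
  eqc : ∀ y ∈ crv x, Off x.p y → fld x y c ≠ 0 → fld x y c = (f y)⁻¹

/-- The function `e` gives the parts on which `b = f`, `c = 1 / f`, `b = c = 0`. -/
structure Kq (x : ch.W (Mk ν κ)) (b c : J) (U : Mk ν κ → ℤ) (f : V ch.M → ℂ)
    (e : V ch.M → Option Bool) : Prop where
  wc : ch.wd c = -ch.wd b
  mem : x ∈ ch.base _
  scb : Sc x b
  scc : Sc x c
  triv : Triv ch.o (crv x) (ch.wd b) x.p U f
  lc : Lc (crv x) e
  kb : ∀ y ∈ crv x, Off x.p y → fld x y b = if e y = some true then f y else 0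
  kc : ∀ y ∈ crv x, Off x.p y → fld x y c = if e y = some false then (f y)⁻¹ else 0

theorem Lq.exists_kq (h : Lq x b c U f) (hc : ch.wd c = -ch.wd b) : ∃ e, Kq x b c U f e := by
  classical
  have hb := h.mem.1
  obtain ⟨p, p1, p2⟩ := exists_lc hb.2.2.1.nod (spt_p hb) (mer_fld hb h.scb) h.triv h.eqb
  obtain ⟨r, r1, r2⟩ := exists_lc hb.2.2.1.nod (spt_p hb) (mer_fld hb h.scc)
    (h.triv.inv.cast hc.symm rfl) h.eqc
  refine ⟨_, hc, hb, h.scb, h.scc, h.triv, (p1.prod r1).comp fun z => if z.1 then some true else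
    if z.2 then some false else none, fun y h1 h2 => ?_, fun y h1 h2 => ?_⟩
  · by_cases a : p y
    · simp [a, (p2 y h1 h2).1 a]
    · by_cases a' : r y <;> simp [a, a', (p2 y h1 h2).2 a]
  · by_cases a : p y
    · simpa [a, (p2 y h1 h2).1 a, h.triv.ne y h1 h2] using h.mul y h1
    · by_cases a' : r y
      · simp [a, a', (r2 y h1 h2).1 a']
      · simp [a, a', (r2 y h1 h2).2 a']

namespace Kq

variable (h : Kq x b c U f e)
include h

theorem trivc : Triv ch.o (crv x) (ch.wd c) x.p (-U) fun y => (f y)⁻¹ := h.triv.inv.cast h.wc.symm rfl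

theorem posb (a : e (x.p n) = some true) : 0 ≤ U n :=
  h.lc.nonneg h.mem.2.2.1.nod (spt_p h.mem) (mer_fld h.mem h.scb) h.triv h.kb a

theorem posc (a : e (x.p n) = some false) : 0 ≤ (-U) n :=
  h.lc.nonneg h.mem.2.2.1.nod (spt_p h.mem) (mer_fld h.mem h.scc) h.trivc h.kc a

theorem valb : fld x (x.p n) b =
    if e (x.p n) = some true ∧ U n = 0 then lv ch.o (crv x) f (x.p n) else 0 :=
  h.lc.val h.mem.2.2.1.nod (spt_p h.mem) (fun _ => an_fld h.mem h.scb) h.triv.toMer h.kb h.posb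

theorem valc : fld x (x.p n) c =
    if e (x.p n) = some false ∧ U n = 0 then (lv ch.o (crv x) f (x.p n))⁻¹ else 0 := by
  rw [h.lc.val h.mem.2.2.1.nod (spt_p h.mem) (fun _ => an_fld h.mem h.scc) h.trivc.toMer h.kc h.posc]
  exact ite_congr (by simp) (fun a => h.triv.lv_inv h.mem.2.2.1.nod (spt_p h.mem) a.2) fun _ => rfl

theorem iffb : e (x.p n) = some true ∧ U n = 0 ↔ fld x (x.p n) b ≠ 0 := by
  rw [h.valb, ite_ne_right_iff]
  exact (and_iff_left_of_imp fun a => h.triv.lv_ne h.mem.2.2.1.nod (spt_p h.mem) a.2).symm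

theorem iffc : e (x.p n) = some false ∧ U n = 0 ↔ fld x (x.p n) c ≠ 0 := by
  rw [h.valc, ite_ne_right_iff]
  exact (and_iff_left_of_imp fun a =>
    inv_ne_zero (h.triv.lv_ne h.mem.2.2.1.nod (spt_p h.mem) a.2)).symm

theorem kind (h' : Bc x b c 0) (q : κ) (s : Bool) :
    e (x.p (.inr (q, false))) = some s ∧ U (.inr (q, false)) = 0 ↔
      e (x.p (.inr (q, true))) = some s ∧ U (.inr (q, true)) = 0 := by
  cases s
  · rw [h.iffc, h.iffc, h'.mtc]
  · rw [h.iffb, h.iffb, h'.mtb]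

theorem lq (h1 : x ∈ ch.bm ν κ) (h2 : ∀ q, U (.inr (q, false)) = 0 → U (.inr (q, true)) = 0 →
      lv ch.o (crv x) f (x.p (.inr (q, false))) = lv ch.o (crv x) f (x.p (.inr (q, true))))
    (h3 : ∀ q s, e (x.p (.inr (q, false))) = some s ∧ U (.inr (q, false)) = 0 ↔
      e (x.p (.inr (q, true))) = some s ∧ U (.inr (q, true)) = 0) : Lq x b c U f := by
  refine ⟨⟨h1, h.scb, h.scc, fun y hy => ?_, fun q => ?_, fun q => ?_⟩, h.triv, h2,
    fun y a a' d => ?_, fun y a a' d => ?_⟩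
  · refine ((mer_fld (z := Empty.elim) h.mem h.scb).mul (mer_fld h.mem h.scc)).eq_of_off
      (z' := x.p) (Mer.zero (χ := 0) (u := 0)) h.mem.2.2.1.nod (fun y a _ a' => ?_) y hy nofun
    rw [h.kb y a a', h.kc y a a']
    rcases e y with _ | _ | _ <;> simp
  · rw [h.valb, h.valb]
    exact ite_congr (propext (h3 q _)) (fun a => h2 q ((h3 q _).2 a).2 a.2) fun _ => rfl
  · rw [h.valc, h.valc]
    exact ite_congr (propext (h3 q _)) (fun a => congrArg _ (h2 q ((h3 q _).2 a).2 a.2)) fun _ => rfl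
  · rw [h.kb y a a'] at d ⊢
    exact if_pos (ite_ne_right_iff.1 d).1
  · rw [h.kc y a a'] at d ⊢
    exact if_pos (ite_ne_right_iff.1 d).1

theorem none_iff {y : V ch.M} (a : y ∈ crv x) (a' : Off x.p y) :
    e y = none ↔ fld x y b = 0 ∧ fld x y c = 0 := by
  rw [h.kb y a a', h.kc y a a']
  rcases e y with _ | _ | _ <;> simp [h.triv.ne y a a']

/-- rescaling on the ghost components -/
theorem scale (h' : Lq x b c U f) {t : ℂ} (ht : t ≠ 0) :
    Lq x b c U fun y => (if e y = none then t else 1) * f y := by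
  have k := h.lc.comp fun z => if z = none then t else 1
  refine lq ⟨h.wc, h.mem, h.scb, h.scc, ((k.triv fun y => by split_ifs <;> simp [ht]).mul
    h.triv).cast (zero_add _) (zero_add _), h.lc, fun y a a' => ?_, fun y a a' => ?_⟩ h'.mem
    (fun q a a' => ?_) (h.kind h'.toBc)
  · rw [h.kb y a a']
    rcases e y with _ | _ | _ <;> simp
  · rw [h.kc y a a']
    rcases e y with _ | _ | _ <;> simp
  · have k1 := fun s => h.kind h'.toBc q s
    simp only [a, a', and_true] at k1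
    rw [h.triv.toMer.lv_mul h.mem.2.2.1.nod (spt_p h.mem) a k,
      h.triv.toMer.lv_mul h.mem.2.2.1.nod (spt_p h.mem) a' k, h'.mt q a a', Option.ext k1]

end Kq

/-- Evaluation points for the level structure and the two fields. -/
structure Ev3 (x : ch.W (Mk ν κ)) (b c : J) (U : Mk ν κ → ℤ) (y : β → ch.W (Mk ν κ) → V ch.M) :
    Prop where
  f : EvB x (ch.wd b) U y
  b : EvB x (ch.wd b) 0 y
  c : EvB x (ch.wd c) 0 y

theorem EvB.eventually {χ : ι → ℤ} (h : EvB x χ U y) : ∀ᶠ s in 𝓝 x, EvB s χ U y :=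
  ((eventually_all.2 fun k => (h.an k).eventually_analyticAt).and h.ev.eventually_nhds).mono
    fun _ a => ⟨a.1, a.2⟩

theorem Ev3.eventually (h : Ev3 x b c U y) : ∀ᶠ s in 𝓝 x, Ev3 s b c U y :=
  (h.f.eventually.and (h.b.eventually.and h.c.eventually)).mono fun _ a => ⟨a.1, a.2.1, a.2.2⟩

theorem exists_ev3 {l : Option J} (hl : ∀ i, 4 ≤ ch.a l i) (hx : x ∈ ch.base _) :
    ∃ (r : ℕ) (y : Fin r → ch.W (Mk ν κ) → V ch.M), Ev3 x b c U y :=
  let ⟨r, y, h⟩ := exists_evB hl hx ![ch.wd b, ch.wd b, ch.wd c] ![U, 0, 0]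
  ⟨r, y, h 0, h 1, h 2⟩

variable (b c U y) in
/-- The space of level structures. -/
def LS : Set ((Unit → β → ℂ) × ch.W (Mk ν κ)) :=
  {s | ∃ f, Lq s.2 b c U f ∧ ∀ k, f (y k s.2) = s.1 () k}

/-- The kinds of the components do not change. -/
theorem Lq.exists_e (hc : ch.DgC i b c) (h : Lq x b c U f) (hy : Ev3 x b c U y) : ∃ e,
    (∀ s : ι → ℂ, (∀ i, s i ≠ 0) → ∀ c, e (s • c) = e c) ∧ (∀ c ∈ crv x, ∀ᶠ c' in 𝓝 c, e c' = e c) ∧
    (∀ᶠ s in 𝓝 x, s ∈ ch.base _ → Lc (crv s) e ∧ (∀ k, e (y k s) = e (y k x)) ∧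
      ∀ n, e (s.p n) = e (x.p n)) ∧
    ∀ᶠ s in 𝓝 (fun (_ : Unit) k => f (y k x), x), ∀ f, Lq s.2 b c U f →
      (∀ k, f (y k s.2) = s.1 () k) → Kq s.2 b c U f e := by
  have hb := h.mem.1
  obtain ⟨e₀, h0⟩ := h.exists_kq hc.wc
  obtain ⟨e, e1, e2, e3⟩ := (locFam_base hc.cut ⟨x, hb⟩).exists_sep h0.lc.inv h0.lc.loc
  have e4 : ∀ c ∈ crv x, ∀ᶠ c' in 𝓝 c, e c' = e c := e3.self_of_nhds
  have k := (hy.f.ev.self_of_nhds hb).1
  have e5 : ∀ᶠ s in 𝓝 x, s ∈ ch.base _ → Lc (crv s) e ∧ (∀ k, e (y k s) = e (y k x)) ∧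
      ∀ n, e (s.p n) = e (x.p n) := by
    filter_upwards [(ev_sub hb (p := fun s => ∀ c ∈ crv s, ∀ᶠ c' in 𝓝 c, e c' = e c)).1 e3,
      eventually_all.2 fun j => (hy.f.an j).continuousAt.eventually (e4 _ (k j).1),
      eventually_all.2 fun n => (an_mark n x).continuousAt.eventually (e4 _ ((spt_p hb).mem n))]
      with s a1 a2 a3 a4
    exact ⟨⟨fun t a c _ => e2 t a c, fun c a => (a1 a4 c a).filter_mono nhdsWithin_le_nhds⟩, a2, a3⟩
  have e6 := fun c a => (e1 c a).self_of_nhds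
  have w1 : ContinuousAt (fun s : (Unit → β → ℂ) × ch.W (Mk ν κ) => s.1 ())
      (fun _ k => f (y k x), x) := by fun_prop
  refine ⟨e, e2, e4, e5, ?_⟩
  filter_upwards [continuousAt_snd.eventually e5, ev_kind continuousAt_snd w1 hb hy.b h.scb e5
    (fun j => ⟨h.triv.ne _ (k j).1 (k j).2, e6 _ (k j).1 ▸ h0.kb _ (k j).1 (k j).2⟩)
    fun n a => h0.posb (e6 _ ((spt_p hb).mem n) ▸ a), ev_kind
    (w := fun (s : (Unit → β → ℂ) × ch.W (Mk ν κ)) j => (s.1 () j)⁻¹) continuousAt_snd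
    (continuousAt_pi.2 fun j => (continuousAt_pi.1 w1 j).inv₀
      (h.triv.ne _ (k j).1 (k j).2)) hb hy.c h.scc e5 (fun j => ⟨inv_ne_zero
        (h.triv.ne _ (k j).1 (k j).2), e6 _ (k j).1 ▸ h0.kc _ (k j).1 (k j).2⟩)
    fun n a => h0.posc (e6 _ ((spt_p hb).mem n) ▸ a)] with s a1 a2 a3 g g1 g2
  exact ⟨hc.wc, g1.mem.1, g1.scb, g1.scc, g1.triv, (a1 g1.mem.1).1,
    a2 g1.mem.1 g1.scb g g1.triv.toMer g2 g1.eqb, a3 g1.mem.1 g1.scc _
      (g1.triv.inv.cast hc.wc.symm rfl).toMer (fun j => congrArg _ (g2 j)) g1.eqc⟩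

open Classical in
theorem mfd_LS (hc : ch.DgC i b c) (hm : ch.m ch.o ≠ 1) {A : Set J}
    (hA : ∀ j, j ∉ A ↔ j = b ∨ j = c) (h : Lq x b c U f) (hy : Ev3 x b c U y) : ∃ d : ℕ,
      (∀ b' : ℕ, ((b' + d : ℕ) : ℤ) = ch.dS S A b' U) ∧
      MfdAt (LS b c U y) d (fun _ k => f (y k x), x) := by
  have hb := h.mem.1
  have hn := hb.2.2.1.nod
  obtain ⟨N, hN, h0⟩ := (hc.num' hm).mfdAt hb
  obtain ⟨d, hd, h1⟩ := mfd_DR hc.cut hc.a_ne h0 hc.li' (f := fun _ => f) (fun _ => h.triv)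
    fun _ => hy.f
  obtain ⟨e, e1, e2, e3, e4⟩ := h.exists_e hc hy
  have e5 := e4.self_of_nhds f h fun _ => rfl
  set D := DR (fun _ : Unit => ch.wd b) (fun _ => U) y
  set s₀ : (Unit → β → ℂ) × ch.W (Mk ν κ) := (fun _ k => f (y k x), x)
  let φ : (Unit → β → ℂ) × ch.W (Mk ν κ) → V ch.M → ℂ := fun s => epsilon fun g =>
    Mer ch.o (crv s.2) (ch.wd b) s.2.p U g ∧ ∀ k, g (y k s.2) = s.1 () k
  have hφ : ∀ s ∈ D, Mer ch.o (crv s.2) (ch.wd b) s.2.p U (φ s) ∧ ∀ k, φ s (y k s.2) = s.1 () k :=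
    fun s hs => epsilon_spec (hs.2 ())
  have hu : ∀ᶠ s in 𝓝 s₀, s ∈ D → ∀ g, Mer ch.o (crv s.2) (ch.wd b) s.2.p U g →
      (∀ k, g (y k s.2) = s.1 () k) → ∀ c ∈ crv s.2, Off s.2.p c → φ s c = g c :=
    (continuousAt_snd.eventually hy.f.ev_eq).mono fun s a hs g g1 g2 =>
      a hs.1 _ _ (hφ s hs).1 g1 fun k => ((hφ s hs).2 k).trans (g2 k).symm
  have u0 := hu.self_of_nhds h1.1 f h.triv.toMer fun _ => rfl
  let g : (Unit → β → ℂ) × ch.W (Mk ν κ) → J → V ch.M → ℂ := fun s j c =>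
    if j = b then if e c = some true then φ s c else 0 else if e c = some false then (φ s c)⁻¹ else 0
  have a0 : HolAt (Subtype.val : D → _) (fun t => t.1.2) ⟨_, h1.1⟩ := .of_an analyticAt_snd
  have a1 : ∀ᶠ t : D in 𝓝 ⟨_, h1.1⟩, t.1.2 ∈ ch.base _ := .of_forall fun t => t.2.1
  have a2 := locFam_of_hol hc.cut (.of_forall fun _ => continuous_subtype_val.continuousAt) a0 a1
  obtain ⟨σ, a3, a4⟩ := exists_pts a2 a0 a1
  have a5 := EvB.fmer (x := fun t : D => t.1.2) (t₀ := ⟨_, h1.1⟩) hy.f a2 a0 a1 a3 a4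
    (f := fun t => φ t.1) (.of_forall fun t => (hφ _ t.2).1) fun k =>
      ((HolAt.self.fst'.proj ()).proj k).congr (.of_forall fun t => ((hφ _ t.2).2 k).symm)
  have a6 := a4.self_of_nhds ▸ h.triv.congr hn (hφ _ h1.1).1.hom u0
  have a7 := fun n => congrArg e (congrFun a4.self_of_nhds n)
  have a8 : ∀ s : (Unit → β → ℂ) × ch.W (Mk ν κ), ∀ g', Kq s.2 b c U g' e →
      (∀ c ∈ crv s.2, Off s.2.p c → φ s c = g' c) → ∀ j ∉ A,
      IndOff s.2 j (s.2.X j) s.2.p (g s j) := fun s g' k k' j hj z w d1 d2 μ => by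
    have d3 : z ∈ crv s.2 := ⟨_, d1, rfl⟩
    rcases (hA j).1 hj with rfl | rfl
    · simp only [g, if_true, k' z d3 d2, ← k.kb z d3 d2, indOff_fld k.scb z w d1 d2 μ]
    · simp only [g, if_neg hc.bc.symm, k' z d3 d2, ← k.kc z d3 d2, indOff_fld k.scc z w d1 d2 μ]
  have a9 : ∀ j ∉ A, FMer ch.o (fun t : D => crv t.1.2) Subtype.val ⟨_, h1.1⟩ (ch.wd j) σ 0
      fun t => g t.1 j := fun j hj => by
    rcases (hA j).1 hj with rfl | rfl
    · simpa only [g, if_true] using a5.ite (u' := 0) a2 a3 e1 e2 fun n a => e5.posb (a7 n ▸ a)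
    · simpa only [g, if_neg hc.bc.symm] using ((a5.inv a2 a3 a6).cast hc.wc.symm rfl).ite (u' := 0)
        a2 a3 e1 e2 fun n a => e5.posc (a7 n ▸ a)
  have b1 : ∀ γ, Arc (ch.base _) x γ →
      (∀ᶠ ε in 𝓝 (0 : ℂ), crv (γ ε) = crv x ∧ ∀ n, Orb (x.p n) ((γ ε).p n)) →
      Arc D s₀ (fun ε => (fun _ k => f (y k (γ ε)), γ ε)) ∧ ∀ᶠ ε in 𝓝 (0 : ℂ), ∀ z ∈ crv x,
        Off x.p z → φ (fun _ k => f (y k (γ ε)), γ ε) z = φ s₀ z := fun γ k k' => by
    have := arc_DR (f := fun _ : Unit => f) hb (fun _ => h.triv.toMer) (fun _ => hy.f) k k'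
    refine ⟨this, ?_⟩
    filter_upwards [this.ev hu, k'] with ε d1 d2 z d3 d4
    exact (d1 f (d2.1 ▸ h.triv.toMer.orb d2.2) (fun _ => rfl) z (d2.1 ▸ d3)
      (d4.of_orb fun n => (d2.2 n).symm)).trans (u0 z d3 d4).symm
  obtain ⟨d₁, h2, h3⟩ := mfd_graph hc.a_ne h1 a0 (fun s a => a.1) a2 a3 a4 A a9 (a8 s₀ f e5 u0)
    fun Y k => let ⟨k1, k2⟩ := b1 _ k (.of_forall fun _ => ⟨rfl, fun _ => .refl _⟩)
      ⟨_, k1, k2.mono fun ε d => ⟨rfl, fun j _ z d1 d2 => by simp only [g, d z d1 d2]⟩⟩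
  let Q := {q : κ // U (.inr (q, false)) = 0 ∧ U (.inr (q, true)) = 0}
  let G : Bool → (Unit → β → ℂ) × ch.W (Mk ν κ) → κ ⊕ Q → ℂ := fun t s =>
    Sum.elim (fun q => (if t then (-1) ^ ch.k else 1) * rsd s.2 (.inr (q, t)))
      fun q => lv ch.o (crv s.2) (φ s) (s.2.p (.inr (q.1, t)))
  have g0 : ∀ (q : Q) t, U (.inr (q.1, t)) = 0 := fun q t => t.rec q.2.1 q.2.2
  have g1 : ∀ t, HolOn D (G t) s₀ := fun t => .pi fun q => by
    rcases q with q | q
    · exact ((holOn_rsd hc.cut hb _).comp (.of_an analyticAt_snd) h1.1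
        (.of_forall fun _ a => a.1)).comp_an h1.1 (analyticAt_const.mul analyticAt_id)
    · exact (holOn_iff h1.1).2 ((a5.holAt_lv a2 a3 (g0 q t)).congr
        (a4.mono fun s a => by simp only [a]; rfl))
  have g2 : ∀ s, G false s = G true s ↔ (∀ q, rsd s.2 (.inr (q, false)) =
      (-1) ^ ch.k * rsd s.2 (.inr (q, true))) ∧ ∀ q, U (.inr (q, false)) = 0 →
      U (.inr (q, true)) = 0 → lv ch.o (crv s.2) (φ s) (s.2.p (.inr (q, false))) =
        lv ch.o (crv s.2) (φ s) (s.2.p (.inr (q, true))) := fun s => by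
    simp [G, Q, funext_iff]
  have g3 := h.triv.congr hn (hφ _ h1.1).1.hom u0
  refine (mfd_mt (Z := LS b c U y) h3 hc.li'
    (n := fun q : κ ⊕ Q => (.inr (q.elim id Subtype.val, true) : Mk ν κ))
    (o := Sum.elim (fun _ => none) fun _ => some ())
    (by rintro (q | q) (q' | q') <;> simp [Q, Subtype.ext_iff])
    ((g1 false).mono (.of_forall fun _ a => a.1)) ((g1 true).mono (.of_forall fun _ a => a.1))
    (fun τ t1 t2 t3 => ?_) (by
      rintro (q | q)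
      exacts [mul_ne_zero (by simp) (rsd_ne hb _), g3.lv_ne hn (spt_p hb) (g0 q true)]) ?_
    ((g2 s₀).2 ⟨h.mem.2, fun q a a' => (lv_congr hn u0).trans ((h.mt q a a').trans
      (lv_congr hn u0).symm)⟩)).imp fun d₂ h4 => ⟨fun b' => ?_, h4.2⟩
  · obtain ⟨k1, k2⟩ := b1 _ (arc_tor hb t1 t2)
      ((ev_tor t1 t2).mono fun _ a => ⟨rfl, fun n => .smul _ (a n)⟩)
    have k3 : ∀ᶠ ε in 𝓝 (0 : ℂ), ∀ t q, G t (fun _ k => f (y k (act (1, 1, τ ε) x)),
        act (1, 1, τ ε) x) q = chz ((q.elim (fun _ => none) fun _ => some ()).elim ch.χ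
          fun _ => ch.wd b) (τ ε (.inr (q.elim id Subtype.val, t))) * G t s₀ q := by
      filter_upwards [k2, ev_tor t1 t2, k1.mem] with ε d1 d2 d3
      rintro t (q | q)
      · exact (congrArg _ (rsd_act hb (isUnit_tor d2) _)).trans (mul_left_comm _ _ _)
      · exact (lv_congr hn d1).trans
          (g3.toMer.lv_smul hn (spt_p hb) (g0 q t) (spt_p d3.1 :) (d2 _) rfl)
    refine ⟨_, ⟨k1.an, k1.zero, ?_⟩, k3.mono fun ε d => ⟨funext fun q => ?_, d true⟩⟩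
    · filter_upwards [k2, ev_tor t1 t2, k1.mem] with ε d1 d2 d3
      refine ⟨d3, fun j hj z w d4 d5 μ => ?_⟩
      have d6 : Off x.p z := d5.of_orb fun n => .smul _ (d2 n)
      exact (a8 s₀ f e5 u0 j hj z w d4 d6 μ).trans (by simp only [g, d1 z ⟨_, d4, rfl⟩ d6])
    · rw [d, t3 _ _ (by simp), chz_one, one_mul]
  · filter_upwards [hu, e4, continuousAt_snd.eventually e3, (ev_sub h1.1 (p := fun s =>
      Triv ch.o (crv s.2) (ch.wd b) s.2.p U (φ s) ∧ ∀ j ∉ A, Mer ch.o (crv s.2) (ch.wd j) s.2.p 0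
        (g s j))).1 (by
      filter_upwards [a5.eventually_triv a2 a3 a6, a4, eventually_all.2 fun j =>
        eventually_imp_distrib_left.2 fun hj => (a9 j hj).eventually_mer a2 a3] with t k1 k2 k3
      exact k2 ▸ ⟨k1, k3⟩)] with s k1 k2 k3 k4
    rw [g2]
    refine ⟨fun ⟨f', d1, d2⟩ => ?_, fun ⟨⟨d1, d2⟩, d3, d4⟩ => ⟨φ s, ?_, (hφ s d1).2⟩⟩
    · have d3 : s ∈ D := ⟨d1.mem.1, fun _ => ⟨f', d1.triv.toMer, d2⟩⟩
      have d4 := k1 d3 f' d1.triv.toMer d2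
      exact ⟨⟨d3, a8 s f' (k2 f' d1 d2) d4⟩, d1.mem.2, fun q a a' => by
        simpa only [lv_congr d3.1.2.2.1.nod d4] using d1.mt q a a'⟩
    · have d5 := fun j hj => (d2 j hj).val d1.1 (spt_p d1.1) ((k4 d1).2 j hj) le_rfl
      have d6 := d5 b ((hA b).2 (.inl rfl))
      have d7 := d5 c ((hA c).2 (.inr rfl))
      refine Kq.lq ⟨hc.wc, d1.1, d6.1, d7.1, (k4 d1).1, (k3 d1.1).1, by simpa only [g, if_true] using
        d6.2, by simpa only [g, if_neg hc.bc.symm] using d7.2⟩ ⟨d1.1, d3⟩ d4 fun q t => ?_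
      simpa only [(k3 d1.1).2.2] using e5.kind h.toBc q t
  · rw [Fintype.card_sum, Fintype.card_subtype] at h4
    rw [dS_eq, ← hN]
    simp only [Fintype.card_unique] at hd
    omega

end Vale.Agent.P269.Ch
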