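import Vale.Agent.P287Q.G.Spl.Ty

/-!
# Sides, permutations of types, lists of labelled insertions
-/

namespace Vale.Agent.P269

variable {R ν α α₁ α₂ V V' : Type}

/-- The first summand is on the left, the second one on the right. -/
def Sid (φ : α₁ ⊕ α₂ ≃ α) (s : α → Bool) : Prop :=
  (∀ a, s (φ (.inl a)) = false) ∧ ∀ a, s (φ (.inr a)) = true

/-- The types agree up to the numbering of the nodes. -/
def STy.Pm (τ τ' : STy R α) : Prop :=
  τ.d = τ'.d ∧ τ.j = τ'.j ∧ τ.s = τ'.s ∧ ∃ σ : Fin τ'.r ≃ Fin τ.r, τ'.μ = τ.μ ∘ σ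

variable [Zero V] [Zero V'] {r a₁ a₂ : ℕ}

/-- Insertions sorted by sides. -/
def srt (φ : Fin a₁ ⊕ Fin a₂ ≃ ν) (v₁ : Fin a₁ → ℕ × V) (v₂ : Fin a₂ → ℕ × V) (h₁ h₂ : Fin r → V') :
    List (((ν × ℕ) ⊕ Fin r × Bool) × V × V') :=
  ((List.ofFn fun i => (.inl (φ (.inl i), (v₁ i).1), (v₁ i).2, 0)) ++
      List.ofFn fun e => (.inr (e, true), 0, h₁ e)) ++
    ((List.ofFn fun i => (.inl (φ (.inr i), (v₂ i).1), (v₂ i).2, 0)) ++
      List.ofFn fun e => (.inr (e, false), 0, h₂ e))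

/-- Insertions in the original order. -/
def uns (L : List (ν × ℕ × V)) (x y : Fin r → V') : List (((ν × ℕ) ⊕ Fin r × Bool) × V × V') :=
  (L.map fun z => (.inl (z.1, z.2.1), z.2.2, 0)) ++
    (List.finRange r).flatMap fun e => [(.inr (e, false), 0, x e), (.inr (e, true), 0, y e)]

end Vale.Agent.P269
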